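import Vale.Agent.Lib.P084G.II.Defs
import Vale.Agent.Lib.P084G.A.FW
import Vale.Agent.Lib.P084G.A.BLq

/-! Part II: the homogeneous extension. -/

open Filter Topology

namespace P084GII

open Vale.Agent.P084G

variable {X Y : Type*} [NormedAddCommGroup X] [NormedSpace ℝ X] [NormedAddCommGroup Y]
  [NormedSpace ℝ Y]

private theorem HomT_norm {f : X → Y} {g : Y → X} (h : SIso f g) (x : X) :
    ‖‖x‖ • f (‖x‖⁻¹ • x)‖ = ‖x‖ := by
  rcases eq_or_ne x 0 with h0 | h0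
  · rw [h0, norm_zero, zero_smul, norm_zero]
  · have hn : 0 < ‖x‖ := norm_pos_iff.2 h0
    have h1 : ‖‖x‖⁻¹ • x‖ = 1 := by
      rw [norm_smul, norm_inv, norm_norm, inv_mul_cancel₀ hn.ne']
    rw [norm_smul, norm_norm, h.mapf _ h1, mul_one]

private theorem HomT_ST {f : X → Y} {g : Y → X} (h : SIso f g) (x : X) :
    ‖‖x‖ • f (‖x‖⁻¹ • x)‖ • g (‖‖x‖ • f (‖x‖⁻¹ • x)‖⁻¹ • (‖x‖ • f (‖x‖⁻¹ • x))) = x := by
  rw [HomT_norm h x]
  rcases eq_or_ne x 0 with h0 | h0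
  · rw [h0, norm_zero, zero_smul]
  · have hn : 0 < ‖x‖ := norm_pos_iff.2 h0
    have h1 : ‖‖x‖⁻¹ • x‖ = 1 := by
      rw [norm_smul, norm_inv, norm_norm, inv_mul_cancel₀ hn.ne']
    rw [inv_smul_smul₀ hn.ne', h.gf _ h1, smul_inv_smul₀ hn.ne']

/-- `T x = ‖x‖ • f (‖x‖⁻¹ • x)` (and `T 0 = 0`); `‖T x - T x'‖` for `‖x‖ = ‖x'‖ = r` is
`r ‖f (x/r) - f (x'/r)‖`. -/
theorem exists_HI {f : X → Y} {g : Y → X} (h : SIso f g) :
    ∃ (T : X → Y) (S : Y → X), HI T S ∧ ∀ x, ‖x‖ = 1 → T x = f x := by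
  refine ⟨fun x => ‖x‖ • f (‖x‖⁻¹ • x), fun y => ‖y‖ • g (‖y‖⁻¹ • y),
    ⟨?_, HomT_norm h, ?_, HomT_ST h, HomT_ST h.symm⟩, ?_⟩
  · intro c hc x
    rcases hc.eq_or_lt with h0 | h0
    · simp only [← h0, zero_smul, norm_zero]
    · have e1 : ‖c • x‖⁻¹ • (c • x) = ‖x‖⁻¹ • x := by
        rw [norm_smul, Real.norm_of_nonneg hc, smul_smul, mul_inv, mul_right_comm,
          inv_mul_cancel₀ h0.ne', one_mul]
      simp only [e1]
      rw [norm_smul, Real.norm_of_nonneg hc, mul_smul]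
  · intro x x' hxx
    rw [← hxx]
    rcases eq_or_ne x 0 with h0 | h0
    · have h1 : x' = 0 := by
        rw [h0, norm_zero] at hxx
        exact norm_eq_zero.1 hxx.symm
      rw [h0, h1, sub_self, sub_self, norm_zero, norm_zero]
    · have hn : 0 < ‖x‖ := norm_pos_iff.2 h0
      have h1 : ‖‖x‖⁻¹ • x‖ = 1 := by
        rw [norm_smul, norm_inv, norm_norm, inv_mul_cancel₀ hn.ne']
      have h2 : ‖‖x‖⁻¹ • x'‖ = 1 := by
        rw [norm_smul, norm_inv, norm_norm, ← hxx, inv_mul_cancel₀ hn.ne']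
      rw [← smul_sub, norm_smul, norm_norm, h.dist _ _ h1 h2, ← smul_sub, norm_smul, norm_inv,
        norm_norm, mul_inv_cancel_left₀ hn.ne']
  · intro x hx
    simp only
    rw [hx, inv_one, one_smul, one_smul]

theorem HI.siso {T : X → Y} {S : Y → X} (h : HI T S) : SIso T S where
  mapf x hx := by rw [h.norm, hx]
  mapg y hy := by rw [h.symm.norm, hy]
  gf x _ := h.ST x
  fg y _ := h.TS y
  dist x x' hx hx' := h.dist x x' (by rw [hx, hx'])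

theorem HI.zero {T : X → Y} {S : Y → X} (h : HI T S) : T 0 = 0 := by
  have h1 := h.norm 0
  rw [norm_zero] at h1
  exact norm_eq_zero.1 h1

private theorem HomT_lip {T : X → Y} {S : Y → X} (h : HI T S) (x y : X) (hyx : ‖y‖ ≤ ‖x‖) :
    ‖T x - T y‖ ≤ 3 * ‖x - y‖ := by
  rcases eq_or_ne x 0 with h0 | h0
  · have h1 : y = 0 := by
      rw [h0, norm_zero] at hyx
      exact norm_eq_zero.1 (le_antisymm hyx (norm_nonneg _))
    rw [h0, h1, sub_self, sub_self, norm_zero, norm_zero, mul_zero]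
  · have hn : 0 < ‖x‖ := norm_pos_iff.2 h0
    set c : ℝ := ‖y‖ / ‖x‖ with hc
    have hc0 : 0 ≤ c := by positivity
    have hc1 : c ≤ 1 := (div_le_one hn).2 hyx
    have hcx : c * ‖x‖ = ‖y‖ := div_mul_cancel₀ _ hn.ne'
    have h1 : ‖c • x‖ = ‖y‖ := by rw [norm_smul, Real.norm_of_nonneg hc0, hcx]
    have h2 : ‖T x - T (c • x)‖ = ‖x‖ - ‖y‖ := by
      have e1 : T x - T (c • x) = (1 - c) • T x := by
        rw [h.smul c hc0 x]
        module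
      rw [e1, norm_smul, Real.norm_of_nonneg (by linarith), h.norm, sub_mul, one_mul, hcx]
    have h3 : ‖c • x - x‖ = ‖x‖ - ‖y‖ := by
      have e1 : c • x - x = -((1 - c) • x) := by module
      rw [e1, norm_neg, norm_smul, Real.norm_of_nonneg (by linarith), sub_mul, one_mul, hcx]
    have h4 : ‖T (c • x) - T y‖ = ‖c • x - y‖ := h.dist _ _ h1
    have h5 : ‖c • x - y‖ ≤ ‖c • x - x‖ + ‖x - y‖ := norm_sub_le_norm_sub_add_norm_sub _ _ _
    have h6 : ‖T x - T y‖ ≤ ‖T x - T (c • x)‖ + ‖T (c • x) - T y‖ :=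
      norm_sub_le_norm_sub_add_norm_sub _ _ _
    have h7 : ‖x‖ - ‖y‖ ≤ ‖x - y‖ := norm_sub_norm_le x y
    linarith

/-- `T` is `3`-Lipschitz: for `‖y‖ ≤ ‖x‖` compare `T y` with `T ((‖y‖/‖x‖) • x)`. -/
theorem HI.lip {T : X → Y} {S : Y → X} (h : HI T S) (x y : X) : ‖T x - T y‖ ≤ 3 * ‖x - y‖ := by
  rcases le_total ‖y‖ ‖x‖ with h1 | h1
  · exact HomT_lip h x y h1
  · rw [norm_sub_rev, norm_sub_rev x y]
    exact HomT_lip h y x h1

theorem HI.rel {T : X → Y} {S : Y → X} (h : HI T S) (x : X) {y : X} (hy : ‖y‖ = 1) :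
    ‖T x - ‖x‖ • T y‖ = ‖x - ‖x‖ • y‖ := by
  rw [← h.smul ‖x‖ (norm_nonneg x) y]
  refine h.dist _ _ ?_
  rw [norm_smul, norm_norm, hy, mul_one]

/-- more generally -/
theorem HI.rel' {T : X → Y} {S : Y → X} (h : HI T S) (x : X) {y : X} (hy : y ≠ 0) :
    ‖T x - (‖x‖ / ‖y‖) • T y‖ = ‖x - (‖x‖ / ‖y‖) • y‖ := by
  have hc : 0 ≤ ‖x‖ / ‖y‖ := by positivity
  rw [← h.smul _ hc y]
  refine h.dist _ _ ?_
  rw [norm_smul, Real.norm_of_nonneg hc, div_mul_cancel₀ _ (norm_ne_zero_iff.2 hy)]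

theorem HI.inj {T : X → Y} {S : Y → X} (h : HI T S) {x y : X} (hxy : T x = T y) : x = y := by
  rw [← h.ST x, hxy, h.ST]

/-- from `gap_image` (P084G/A/FW.lean) applied to `T` and `S` -/
theorem HI.add_eq_two {T : X → Y} {S : Y → X} (h : HI T S) {x y : X} (hx : ‖x‖ = 1)
    (hy : ‖y‖ = 1) (hxy : ‖x + y‖ = 2) : ‖T x + T y‖ = 2 :=
  (fw_iff h.siso hx hy).2 hxy

theorem HI.add_lt_two {T : X → Y} {S : Y → X} (h : HI T S) {x y : X} (hx : ‖x‖ = 1)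
    (hy : ‖y‖ = 1) (hxy : ‖x + y‖ < 2) : ‖T x + T y‖ < 2 := by
  refine lt_of_le_of_ne ?_ fun h1 => hxy.ne ((fw_iff h.siso hx hy).1 h1)
  refine (norm_add_le _ _).trans ?_
  rw [h.norm, h.norm, hx, hy]
  norm_num

/-- the Birkhoff lemma for a duality map: `blq` with `y = y0`, `ψ = K (q - y0)`;
`‖q - y‖ ≥ ‖2 q‖ - ‖q + y‖ ≥ 1/18`. -/
theorem bls {K : Y → Y →L[ℝ] ℝ} (hK : Dual K) {q : Y} (hq : ‖q‖ = 1) (ξ : Y) :
    ∃ y : Y, ‖y‖ = 1 ∧ ‖q + y‖ ≤ 2 - 1 / 18 ∧ 1 / 18 ≤ ‖q - y‖ ∧ ‖ξ‖ ≤ 16 * |K (q - y) ξ| := by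
  obtain ⟨y, h1, h2, h3⟩ := blq hq ξ
  refine ⟨y, h1, by linarith, ?_, ?_⟩
  · have h4 : ‖(2 : ℝ) • q‖ ≤ ‖q - y‖ + ‖q + y‖ := by
      have e1 : (2 : ℝ) • q = (q - y) + (q + y) := by module
      rw [e1]
      exact norm_add_le _ _
    rw [norm_smul, hq, Real.norm_of_nonneg (by norm_num : (0 : ℝ) ≤ 2)] at h4
    linarith
  · have h4 : Nrm (K (q - y)) (q - y) := by
      refine ⟨ContinuousLinearMap.opNorm_le_bound _ zero_le_one fun v => ?_, hK.self _⟩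
      rw [one_mul, Real.norm_eq_abs, abs_le]
      constructor
      · have := hK.le (q - y) (-v)
        rw [map_neg, norm_neg] at this
        linarith
      · exact hK.le _ _
    have h5 := h3 y (by rw [sub_self, norm_zero]; norm_num) _ h4
    linarith

end P084GII
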