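import Vale.Agent.Lib.P084G.II.SmB
import Vale.Agent.Lib.P084G.II.HomT

/-! Part II: duality maps and homogeneous isometries on the ultrapower. -/

open Filter Topology

namespace P084GII

open P084G

variable {X Y : Type*} [NormedAddCommGroup X] [NormedSpace ℝ X] [NormedAddCommGroup Y]
  [NormedSpace ℝ Y] {J : X → X →L[ℝ] ℝ} {K : Y → Y →L[ℝ] ℝ} {T : X → Y} {S : Y → X} {C C' : ℝ}

/-- bounded real sequences converge along the ultrafilter (from `P084G.exists_lim`) -/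
theorem exists_lim' {a : ℕ → ℝ} {R : ℝ} (ha : ∀ n, |a n| ≤ R) :
    ∃ L, Tendsto a (UU : Filter ℕ) (𝓝 L) := by
  obtain ⟨L, hL⟩ := exists_lim (a := fun n => a n + R) (C := 2 * R) (fun n => by
    have h := abs_le.1 (ha n)
    exact ⟨by linarith, by linarith⟩)
  refine ⟨L - R, ?_⟩
  have h := hL.sub_const R
  refine h.congr fun n => by ring

private theorem UltraD_sd {x v : ℕ → X} (hx : Bd x) (hv : Bd v) :
    Tendsto (fun n => sd (x n) (v n)) (UU : Filter ℕ) (𝓝 (sd (uq x) (uq v))) := by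
  have h1 := norm_uq (hx.add hv)
  have h2 := norm_uq (hx.sub hv)
  have h3 := norm_uq hx
  rw [uq_add hx hv] at h1
  rw [uq_sub hx hv] at h2
  exact (h1.add h2).sub (h3.const_mul 2)

theorem usm_XU (hX : USm X) : USm (XU X) := by
  intro ε hε
  obtain ⟨δ, hδ, h⟩ := hX ε hε
  refine ⟨δ / 2, by positivity, fun ξ η hξ hη => ?_⟩
  obtain ⟨x, rfl⟩ := exists_unit_rep ξ hξ
  obtain ⟨v, hv, rfl⟩ := exists_rep η
  have h1 := UltraD_sd (Bd.sph x) hv
  have h2 := norm_uq hv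
  refine le_of_tendsto_of_tendsto h1 (h2.const_mul ε) ?_
  filter_upwards [h2.eventually_lt_const (show ‖uq v‖ < δ by linarith)] with n hn
  exact h _ _ (by simp) hn.le

private theorem UltraD_lim (hJ : Dual J) {JU : XU X → XU X →L[ℝ] ℝ} (hJU : DualU JU)
    {x v : ℕ → X} (hx : Bd x) (hv : Bd v) (h0 : uq x ≠ 0) :
    Tendsto (fun n => J (x n) (v n)) (UU : Filter ℕ) (𝓝 (JU (uq x) (uq v))) := by
  obtain ⟨R, hR⟩ := id hv
  obtain ⟨L, hL⟩ := exists_lim' (a := fun n => J (x n) (v n)) (R := R)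
    (fun n => (hJ.abs_le _ _).trans (hR n))
  have key : ∀ t : ℝ, ‖uq x‖ + t * L ≤ ‖uq x + t • uq v‖ := by
    intro t
    rw [← uq_smul t hv, ← uq_add hx (hv.smul t)]
    refine le_of_tendsto_of_tendsto' ((norm_uq hx).add (hL.const_mul t))
      (norm_uq (hx.add (hv.smul t))) fun n => ?_
    have h := hJ.lower (x n) (t • v n)
    rwa [map_smul, smul_eq_mul] at h
  have hd : HasDerivAt (fun t : ℝ => ‖uq x + t • uq v‖ - t * L) (JU (uq x) (uq v) - L) 0 := by
    have a0 : HasDerivAt (fun t : ℝ => uq x + t • uq v) (uq v) 0 := by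
      have := ((hasDerivAt_id (0 : ℝ)).smul_const (uq v)).const_add (uq x)
      simpa using this
    have a1 : HasFDerivAt (fun y : XU X => ‖y‖) (JU (uq x)) (uq x + (0 : ℝ) • uq v) := by
      rw [zero_smul, add_zero]
      exact hJU.hasFDerivAt h0
    have a2 := a1.comp_hasDerivAt (0 : ℝ) a0
    have a3 : HasDerivAt (fun t : ℝ => t * L) L 0 := by
      simpa using (hasDerivAt_id (0 : ℝ)).mul_const L
    exact a2.sub a3
  have hmin : IsLocalMin (fun t : ℝ => ‖uq x + t • uq v‖ - t * L) 0 := by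
    refine Filter.Eventually.of_forall fun t => ?_
    simp only [zero_smul, add_zero, zero_mul, sub_zero]
    linarith [key t]
  have h := hmin.hasDerivAt_eq_zero hd
  rw [sub_eq_zero.1 h]
  exact hL

/-- `exists_dualU` on `XU X`; the functional `uq v ↦ lim J (x n) (v n)` norms `uq x`, so it is `JU (uq x)` by
`DualU.uniq`. -/
theorem exists_dual_XU (hJ : DualU J) : ∃ JU : XU X → XU X →L[ℝ] ℝ, DualU JU ∧
    ∀ x v : ℕ → X, Bd x → Bd v → uq x ≠ 0 →
      Tendsto (fun n => J (x n) (v n)) (UU : Filter ℕ) (𝓝 (JU (uq x) (uq v))) := by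
  obtain ⟨JU, h1⟩ := exists_dualU (usm_XU hJ.usm)
  exact ⟨JU, h1, fun x v hx hv h0 => UltraD_lim hJ.toDual h1 hx hv h0⟩

theorem exists_dual2_XU (hJ : Dual2 J C) : ∃ JU : XU X → XU X →L[ℝ] ℝ, Dual2 JU (C + 2) ∧
    ∀ x v : ℕ → X, Bd x → Bd v → uq x ≠ 0 →
      Tendsto (fun n => J (x n) (v n)) (UU : Filter ℕ) (𝓝 (JU (uq x) (uq v))) := by
  obtain ⟨JU, h1⟩ := exists_dualU (usm_XU hJ.toU.usm)
  have hC := hJ.nonneg
  refine ⟨JU, ?_, fun x v hx hv h0 => UltraD_lim hJ.toDual h1 hx hv h0⟩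
  refine { toDual := h1.toDual, nonneg := by linarith, lip := fun ξ η hξ => ?_ }
  by_cases h0 : η = 0
  · subst h0
    rw [sub_zero, hξ, mul_one]
    calc ‖JU ξ - JU 0‖ ≤ ‖JU ξ‖ + ‖JU 0‖ := norm_sub_le _ _
      _ ≤ C + 2 := by linarith [h1.norm_le ξ, h1.norm_le 0]
  · obtain ⟨x, rfl⟩ := exists_unit_rep ξ hξ
    obtain ⟨y, hy, rfl⟩ := exists_rep η
    refine ContinuousLinearMap.opNorm_le_bound _ (by positivity) fun ζ => ?_
    obtain ⟨v, hv, rfl⟩ := exists_rep ζ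
    have hx0 : uq (fun n => (x n : X)) ≠ 0 := by
      intro h
      rw [h, norm_zero] at hξ
      exact zero_ne_one hξ
    have a1 := UltraD_lim hJ.toDual h1 (Bd.sph x) hv hx0
    have a2 := UltraD_lim hJ.toDual h1 hy hv h0
    have a3 := norm_uq ((Bd.sph x).sub hy)
    rw [uq_sub (Bd.sph x) hy] at a3
    have a4 := norm_uq hv
    have a5 : ‖JU (uq fun n => (x n : X)) (uq v) - JU (uq y) (uq v)‖ ≤
        C * ‖(uq fun n => (x n : X)) - uq y‖ * ‖uq v‖ := by
      refine le_of_tendsto_of_tendsto' (a1.sub a2).norm ((a3.const_mul C).mul a4) fun n => ?_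
      have b1 := (J (x n) - J (y n)).le_opNorm (v n)
      have b2 := hJ.lip (x n) (y n) (by simp)
      have b3 := mul_le_mul_of_nonneg_right b2 (norm_nonneg (v n))
      have b4 : (J (x n) - J (y n)) (v n) = J (x n) (v n) - J (y n) (v n) := rfl
      rw [b4] at b1
      exact b1.trans b3
    have a6 : (JU (uq fun n => (x n : X)) - JU (uq y)) (uq v) =
        JU (uq fun n => (x n : X)) (uq v) - JU (uq y) (uq v) := rfl
    rw [a6]
    refine a5.trans ?_
    gcongr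
    linarith

private theorem UltraD_bd (h : HI T S) {x : ℕ → X} (hx : Bd x) : Bd (fun n => T (x n)) := by
  obtain ⟨R, hR⟩ := hx
  exact ⟨R, fun n => by rw [h.norm]; exact hR n⟩

private theorem UltraD_map (h : HI T S) : ∃ TU : XU X → XU Y,
    ∀ x : ℕ → X, Bd x → TU (uq x) = uq (fun n => T (x n)) := by
  choose r hr1 hr2 using (exists_rep (X := X))
  refine ⟨fun ξ => uq (fun n => T (r ξ n)), fun x hx => ?_⟩
  change uq (fun n => T (r (uq x) n)) = uq (fun n => T (x n))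
  rw [uq_eq_iff (UltraD_bd h (hr1 _)) (UltraD_bd h hx)]
  have h1 : Tendsto (fun n => ‖r (uq x) n - x n‖) (UU : Filter ℕ) (𝓝 0) :=
    (uq_eq_iff (hr1 _) hx).1 (hr2 (uq x))
  have h2 := h1.const_mul 3
  rw [mul_zero] at h2
  exact squeeze_zero (fun n => norm_nonneg _) (fun n => h.lip _ _) h2

/-- a class has representatives of constant norm -/
private theorem UltraD_rep (ξ : XU X) : ∃ x : ℕ → X, Bd x ∧ uq x = ξ ∧ ∀ n, ‖x n‖ = ‖ξ‖ := by
  rcases eq_or_ne ξ 0 with rfl | hξ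
  · refine ⟨fun _ => 0, Bd.const 0, ?_, fun n => by simp⟩
    rw [uq_eq_zero_iff (Bd.const 0)]
    simp
  · have hξ0 : 0 < ‖ξ‖ := norm_pos_iff.2 hξ
    obtain ⟨x, hx⟩ := exists_unit_rep (‖ξ‖⁻¹ • ξ) (by
      rw [norm_smul, norm_inv, norm_norm, inv_mul_cancel₀ hξ0.ne'])
    refine ⟨fun n => ‖ξ‖ • (x n : X), (Bd.sph x).smul _, ?_, fun n => ?_⟩
    · rw [uq_smul _ (Bd.sph x), hx, smul_smul, mul_inv_cancel₀ hξ0.ne', one_smul]
    · rw [norm_smul, norm_norm]
      simp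

private theorem UltraD_HI (h : HI T S) {TU : XU X → XU Y} {SU : XU Y → XU X}
    (hTU : ∀ x : ℕ → X, Bd x → TU (uq x) = uq (fun n => T (x n)))
    (hSU : ∀ y : ℕ → Y, Bd y → SU (uq y) = uq (fun n => S (y n))) : HI TU SU where
  smul c hc ξ := by
    obtain ⟨x, hx, rfl⟩ := exists_rep ξ
    rw [← uq_smul c hx, hTU _ (hx.smul c), hTU x hx, ← uq_smul c (UltraD_bd h hx)]
    congr 1
    funext n
    exact h.smul c hc (x n)
  norm ξ := by
    obtain ⟨x, hx, rfl⟩ := exists_rep ξ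
    rw [hTU x hx]
    refine tendsto_nhds_unique (norm_uq (UltraD_bd h hx)) ?_
    exact (norm_uq hx).congr fun n => (h.norm _).symm
  dist ξ ξ' hξ := by
    obtain ⟨x, hx, hx1, hx2⟩ := UltraD_rep ξ
    obtain ⟨x', hx', hx1', hx2'⟩ := UltraD_rep ξ'
    rw [← hx1, ← hx1', hTU x hx, hTU x' hx', ← uq_sub (UltraD_bd h hx) (UltraD_bd h hx'),
      ← uq_sub hx hx']
    refine tendsto_nhds_unique (norm_uq ((UltraD_bd h hx).sub (UltraD_bd h hx'))) ?_
    refine (norm_uq (hx.sub hx')).congr fun n => (h.dist _ _ ?_).symm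
    rw [hx2, hx2', hξ]
  ST ξ := by
    obtain ⟨x, hx, rfl⟩ := exists_rep ξ
    rw [hTU x hx, hSU _ (UltraD_bd h hx)]
    congr 1
    funext n
    exact h.ST (x n)
  TS ξ := by
    obtain ⟨y, hy, rfl⟩ := exists_rep ξ
    rw [hSU y hy, hTU _ (UltraD_bd h.symm hy)]
    congr 1
    funext n
    exact h.TS (y n)

/-- `T` is `3`-Lipschitz (`HI.lip`) so it acts on classes -/
theorem exists_HI_XU (h : HI T S) : ∃ (TU : XU X → XU Y) (SU : XU Y → XU X), HI TU SU ∧
    (∀ x : ℕ → X, Bd x → TU (uq x) = uq (fun n => T (x n))) ∧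
    (∀ y : ℕ → Y, Bd y → SU (uq y) = uq (fun n => S (y n))) := by
  obtain ⟨TU, hTU⟩ := UltraD_map h
  obtain ⟨SU, hSU⟩ := UltraD_map h.symm
  exact ⟨TU, SU, UltraD_HI h hTU hSU, hTU, hSU⟩

private theorem UltraD_const {x y : X} (h : uq (fun _ : ℕ => x) = uq (fun _ : ℕ => y)) : x = y := by
  have h1 := norm_uq_const (x - y)
  have h2 : uq (fun _ : ℕ => x - y) = 0 := by
    have h3 := uq_sub (Bd.const x) (Bd.const y)
    rw [h, sub_self] at h3
    exact h3
  rw [h2, norm_zero] at h1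
  exact sub_eq_zero.1 (norm_eq_zero.1 h1.symm)

/-- if the ultrapower of `T` is linear then so is `T` (constant sequences embed isometrically) -/
theorem linear_of_XU (h : HI T S) {TU : XU X → XU Y}
    (hTU : ∀ x : ℕ → X, Bd x → TU (uq x) = uq (fun n => T (x n)))
    (L : XU X ≃ₗᵢ[ℝ] XU Y) (hL : ∀ ξ, TU ξ = L ξ) : ∃ L' : X ≃ₗᵢ[ℝ] Y, ∀ x, T x = L' x := by
  have hc : ∀ x : X, uq (fun _ : ℕ => T x) = L (uq (fun _ : ℕ => x)) := fun x => by
    rw [← hL, hTU _ (Bd.const x)]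
  have hadd : ∀ x y, T (x + y) = T x + T y := by
    intro x y
    apply UltraD_const
    have h1 : uq (fun _ : ℕ => x + y) = uq (fun _ : ℕ => x) + uq (fun _ : ℕ => y) :=
      uq_add (Bd.const x) (Bd.const y)
    have h2 : uq (fun _ : ℕ => T x + T y) = uq (fun _ : ℕ => T x) + uq (fun _ : ℕ => T y) :=
      uq_add (Bd.const (T x)) (Bd.const (T y))
    rw [h2, hc, hc, hc, h1, map_add]
  have hsmul : ∀ (c : ℝ) (x : X), T (c • x) = c • T x := by
    intro c x
    apply UltraD_const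
    have h1 : uq (fun _ : ℕ => c • x) = c • uq (fun _ : ℕ => x) := uq_smul c (Bd.const x)
    have h2 : uq (fun _ : ℕ => c • T x) = c • uq (fun _ : ℕ => T x) := uq_smul c (Bd.const (T x))
    rw [h2, hc, hc, h1, map_smul]
  let e : X ≃ₗ[ℝ] Y :=
    { toFun := T
      map_add' := hadd
      map_smul' := hsmul
      invFun := S
      left_inv := h.ST
      right_inv := h.TS }
  exact ⟨⟨e, h.norm⟩, fun x => rfl⟩

end P084GII
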