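import Vale.Agent.Lib.P084G.II.Rigid
import Vale.Agent.Lib.P084G.II.UltraD

/-! Part II: approximately rigid points imply linearity. -/

open Filter Topology

namespace P084GII

open P084G

variable {X Y : Type*} [NormedAddCommGroup X] [NormedSpace ℝ X] [NormedAddCommGroup Y]
  [NormedSpace ℝ Y] {J : X → X →L[ℝ] ℝ} {K : Y → Y →L[ℝ] ℝ} {T : X → Y} {S : Y → X} {C C' : ℝ}

/-- Choose `p n`, `w n` for `δ = 1/(n+1)`.  In the ultrapowers (`exists_dual_XU`, `exists_HI_XU`) the point `uq p` with the vector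
`uq w` satisfies the hypothesis of `rigid_linear`: a unit `η : XU X` with `‖uq p + η‖ < 2` is `uq y` with unit `y n`
(`P084G.exists_unit_rep`), eventually `‖p n + y n‖ ≤ 2 - 1/(n+1)`; `T (p n) - T (y n)` represents
`TU (uq p) - TU (uq y) ≠ 0`, `p n - y n` represents `uq p - uq y ≠ 0`.  Then `linear_of_XU`.  (`XU X` is complete: quotient of
a complete space by a closed subspace.) -/
theorem ar_linear [CompleteSpace X] [CompleteSpace Y] (hJ : DualU J) (hK : DualU K)
    (h : HI T S) (har : AR T J K) : ∃ L : X ≃ₗᵢ[ℝ] Y, ∀ x, T x = L x := by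
  obtain ⟨C, hC⟩ := har
  have hpos : ∀ n : ℕ, (0 : ℝ) < 1 / ((n : ℝ) + 1) := fun n => by positivity
  choose p w hp hw hpw using fun n : ℕ => hC _ (hpos n)
  obtain ⟨JU, hJU, hJl⟩ := exists_dual_XU hJ
  obtain ⟨KU, hKU, hKl⟩ := exists_dual_XU hK
  obtain ⟨TU, SU, hHI, hTU, -⟩ := exists_HI_XU h
  have hpb : Bd p := ⟨1, fun n => (hp n).le⟩
  have hwb : Bd w := ⟨C, hw⟩
  have hTb : ∀ x : ℕ → X, Bd x → Bd (fun n => T (x n)) := fun x hx => by
    obtain ⟨R, hR⟩ := hx
    exact ⟨R, fun n => by rw [h.norm]; exact hR n⟩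
  have hp1 : ‖uq p‖ = 1 :=
    tendsto_nhds_unique (norm_uq hpb) (tendsto_const_nhds.congr fun n => (hp n).symm)
  have hlim0 : Tendsto (fun n : ℕ => 1 / ((n : ℝ) + 1)) (UU : Filter ℕ) (𝓝 0) :=
    tendsto_one_div_add_atTop_nhds_zero_nat.mono_left UU_le_atTop
  obtain ⟨L, hL⟩ := rigid_linear hJU hKU hHI hp1 (w := uq w) (fun η hη hlt => by
    obtain ⟨y, rfl⟩ := exists_unit_rep η hη
    have hyb : Bd (fun n => (y n : X)) := Bd.sph y
    have hne : uq p - uq (fun n => (y n : X)) ≠ 0 := by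
      intro e
      rw [← sub_eq_zero.1 e, ← two_smul ℝ, norm_smul, hp1] at hlt
      norm_num at hlt
    have hTn : TU (uq p) - TU (uq fun n => (y n : X)) ≠ 0 := by
      rw [← norm_ne_zero_iff, hHI.dist _ _ (by rw [hp1, hη])]
      exact norm_ne_zero_iff.2 hne
    have e1 : uq (fun n => p n - (y n : X)) = uq p - uq (fun n => (y n : X)) := uq_sub hpb hyb
    have e2 : uq (fun n => T (p n) - T (y n)) = TU (uq p) - TU (uq fun n => (y n : X)) := by
      rw [hTU _ hpb, hTU _ hyb]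
      exact uq_sub (hTb _ hpb) (hTb _ hyb)
    have l1 := hKl (fun n => T (p n) - T (y n)) w ((hTb _ hpb).sub (hTb _ hyb)) hwb
      (by rw [e2]; exact hTn)
    have l2 := hKl (fun n => T (p n) - T (y n)) (fun n => T (p n)) ((hTb _ hpb).sub (hTb _ hyb))
      (hTb _ hpb) (by rw [e2]; exact hTn)
    have l3 := hJl (fun n => p n - (y n : X)) p (hpb.sub hyb) hpb (by rw [e1]; exact hne)
    rw [e2] at l1 l2
    rw [e1] at l3
    rw [← hTU _ hpb] at l2
    have l4 := (l1.sub (l2.sub l3)).abs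
    have l5 : Tendsto (fun n => ‖p n + (y n : X)‖) (UU : Filter ℕ)
        (𝓝 ‖uq p + uq (fun n => (y n : X))‖) := by
      rw [← uq_add hpb hyb]
      exact norm_uq (hpb.add hyb)
    have l6 : Tendsto (fun n : ℕ => 2 - 1 / ((n : ℝ) + 1)) (UU : Filter ℕ) (𝓝 (2 - 0)) :=
      hlim0.const_sub 2
    rw [sub_zero] at l6
    have ev : ∀ᶠ n in (UU : Filter ℕ), ‖p n + (y n : X)‖ < 2 - 1 / ((n : ℝ) + 1) :=
      l5.eventually_lt l6 hlt
    have hle := le_of_tendsto_of_tendsto l4 hlim0 (by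
      filter_upwards [ev] with n hn
      exact hpw n (y n) (by simp) hn.le)
    exact sub_eq_zero.1 (abs_nonpos_iff.1 hle))
  exact linear_of_XU h hTU L hL

end P084GII
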