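import Vale.Agent.Lib.P084G.II.SmA

/-! Part II, case C, algebra 1: one-parameter groups and the kill lemma. -/

open Filter Topology

namespace P084GII

variable {V : Type*} [NormedAddCommGroup V] [NormedSpace ℝ V] {J : V → V →L[ℝ] ℝ} {C : ℝ}

/-- By `Dual.lower` every point of the line is a minimum of the norm on the line, so the norm is constant on it. -/
theorem lin_norm (hJ : Dual J) (v w : V) (h : ∀ s : ℝ, J (v + s • w) w = 0) : w = 0 := by
  by_contra hw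
  have hwn : 0 < ‖w‖ := norm_pos_iff.2 hw
  have h1 : ∀ s : ℝ, ‖v + s • w‖ ≤ ‖v‖ := by
    intro s
    have h2 := hJ.lower (v + s • w) ((-s) • w)
    rw [map_smul, h s, smul_zero, add_zero] at h2
    have e : v + s • w + (-s) • w = v := by module
    rwa [e] at h2
  have h3 := h1 ((2 * ‖v‖ + 1) / ‖w‖)
  have h4 : ‖((2 * ‖v‖ + 1) / ‖w‖) • w‖ = 2 * ‖v‖ + 1 := by
    rw [norm_smul, Real.norm_of_nonneg (by positivity), div_mul_cancel₀ _ hwn.ne']
  have h5 : ‖((2 * ‖v‖ + 1) / ‖w‖) • w‖ ≤ ‖v + ((2 * ‖v‖ + 1) / ‖w‖) • w‖ + ‖v‖ := by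
    have e : ((2 * ‖v‖ + 1) / ‖w‖) • w = (v + ((2 * ‖v‖ + 1) / ‖w‖) • w) - v := by abel
    calc ‖((2 * ‖v‖ + 1) / ‖w‖) • w‖ = ‖(v + ((2 * ‖v‖ + 1) / ‖w‖) • w) - v‖ := by rw [← e]
      _ ≤ _ := norm_sub_le _ _
  linarith

/-- `x' = M x` -/
theorem flow_deriv [CompleteSpace V] (M : V →L[ℝ] V) (v : V) (t : ℝ) :
    HasDerivAt (fun s : ℝ => NormedSpace.exp (s • M) v) (M (NormedSpace.exp (t • M) v)) t := by
  have h1 : HasDerivAt (fun s : ℝ => NormedSpace.exp (s • M)) (M * NormedSpace.exp (t • M)) t :=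
    hasDerivAt_exp_smul_const' M t
  have h2 := h1.clm_apply (hasDerivAt_const t v)
  simpa using h2

/-- `t ↦ ‖exp (t M) v‖` has derivative `J (x t) (M (x t)) = 0` (`DualU.hasFDerivAt`; `x t ≠ 0` if `v ≠ 0`). -/
theorem flow_norm [CompleteSpace V] (hJ : DualU J) (M : V →L[ℝ] V) (v : V)
    (hM : ∀ s : ℝ, J (NormedSpace.exp (s • M) v) (M (NormedSpace.exp (s • M) v)) = 0) (t : ℝ) :
    ‖NormedSpace.exp (t • M) v‖ = ‖v‖ := by
  rcases eq_or_ne v 0 with rfl | hv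
  · rw [map_zero]
  have hne : ∀ s : ℝ, NormedSpace.exp (s • M) v ≠ 0 := by
    intro s hs
    apply hv
    have h1 : NormedSpace.exp (-(s • M)) * NormedSpace.exp (s • M) = 1 := by
      let _ : NormedAlgebra ℚ (V →L[ℝ] V) := NormedAlgebra.restrictScalars ℚ ℝ (V →L[ℝ] V)
      rw [← NormedSpace.exp_add_of_commute (Commute.neg_left (Commute.refl (s • M))),
        neg_add_cancel, NormedSpace.exp_zero]
    have h2 := congrArg (fun L : V →L[ℝ] V => L v) h1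
    change NormedSpace.exp (-(s • M)) (NormedSpace.exp (s • M) v) = v at h2
    rw [hs, map_zero] at h2
    exact h2.symm
  have hd : ∀ s : ℝ, HasDerivAt (fun s : ℝ => ‖NormedSpace.exp (s • M) v‖) 0 s := by
    intro s
    have h1 := (hJ.hasFDerivAt (hne s)).comp_hasDerivAt s (flow_deriv M v s)
    rw [hM s] at h1
    exact h1
  have h1 := is_const_of_deriv_eq_zero (f := fun s : ℝ => ‖NormedSpace.exp (s • M) v‖)
    (fun s => (hd s).differentiableAt) (fun s => (hd s).deriv) t 0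
  simpa using h1

/-- a closed `M`-invariant subspace is invariant under `exp (t M)` (partial sums) -/
theorem flow_mem [CompleteSpace V] (M : V →L[ℝ] V) (U : Submodule ℝ V)
    (hU : IsClosed (U : Set V)) (hM : ∀ u ∈ U, M u ∈ U) {v : V} (hv : v ∈ U) (t : ℝ) :
    NormedSpace.exp (t • M) v ∈ U := by
  have hpow : ∀ n : ℕ, ((t • M) ^ n) v ∈ U := by
    intro n
    induction n with
    | zero => simpa using hv
    | succ n ih =>
      rw [pow_succ']
      change t • M (((t • M) ^ n) v) ∈ U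
      exact U.smul_mem _ (hM _ ih)
  have hs := (NormedSpace.exp_series_hasSum_exp' (𝕂 := ℝ) (t • M)).mapL
    (ContinuousLinearMap.apply ℝ V v)
  have hs' : HasSum (fun n : ℕ => ((n.factorial : ℝ)⁻¹ • (t • M) ^ n) v)
      (NormedSpace.exp (t • M) v) := hs
  refine hU.mem_of_tendsto hs' (Eventually.of_forall fun s => ?_)
  exact U.sum_mem fun n _ => U.smul_mem _ (hpow n)

private theorem kill_arith {C r a n : ℝ} (hC : 0 ≤ C) (hr0 : 0 < r) (hr1 : r ≤ 1) (ha : |a| ≤ r)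
    (hn0 : 0 ≤ n) (hn : n ≤ 1 + a + C * r ^ 2) :
    n ^ 2 ≤ 1 + 2 * a + (1 + 4 * C + C ^ 2) * r ^ 2 := by
  rw [abs_le] at ha
  have h8 : n ^ 2 ≤ (1 + a + C * r ^ 2) ^ 2 := pow_le_pow_left₀ hn0 hn 2
  refine h8.trans ?_
  have h9 : a ^ 2 ≤ r ^ 2 := by nlinarith [ha.1, ha.2]
  have h10 : r ^ 2 ≤ 1 := by nlinarith
  have h11 : 0 ≤ C * r ^ 2 := by positivity
  have h12 : C * r ^ 2 * (C * r ^ 2) ≤ C ^ 2 * r ^ 2 := by
    have : C ^ 2 * r ^ 2 * r ^ 2 ≤ C ^ 2 * r ^ 2 * 1 := by gcongr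
    nlinarith
  have h13 : 2 * (C * r ^ 2) * (1 + a) ≤ 4 * C * r ^ 2 := by
    nlinarith [ha.2]
  nlinarith

/-- **Kill lemma.** -/
theorem kill [CompleteSpace V] (hJ : Dual2 J C) (U : Submodule ℝ V) (hU : IsClosed (U : Set V))
    (m : V →L[ℝ] V →L[ℝ] V) (ms : ∀ u v, m u v = m v u) (hmU : ∀ u ∈ U, ∀ v ∈ U, m u v ∈ U)
    (hskew : ∀ u ∈ U, ∀ w, J w (m u w) = 0) : ∀ u ∈ U, ∀ v ∈ U, m u v = 0 := by
  have hC := hJ.nonneg
  have exp2 : ∀ a b, m (a + b) (a + b) = m a a + (2 : ℝ) • m a b + m b b := by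
    intro a b
    have e1 : m (a + b) = m a + m b := map_add m a b
    rw [e1]
    change m a (a + b) + m b (a + b) = _
    rw [map_add, map_add, ms b a]
    module
  have sm2 : ∀ (c : ℝ) (a : V), m (c • a) (c • a) = (c * c) • m a a := by
    intro c a
    have e1 : m (c • a) = c • m a := map_smul m c a
    rw [e1]
    change c • m a (c • a) = _
    rw [map_smul, smul_smul]
  -- it is enough to treat the diagonal
  suffices hdiag : ∀ u ∈ U, m u u = 0 by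
    intro u hu v hv
    have h1 := hdiag (u + v) (U.add_mem hu hv)
    rw [exp2, hdiag u hu, hdiag v hv, zero_add, add_zero] at h1
    rcases smul_eq_zero.1 h1 with h2 | h2
    · norm_num at h2
    · exact h2
  -- the supremum
  set D : Set ℝ := {r | ∃ u ∈ U, ‖u‖ ≤ 1 ∧ ‖m u u‖ = r} with hD
  have hbound : ∀ u v : V, ‖m u v‖ ≤ ‖m‖ * ‖u‖ * ‖v‖ := fun u v => m.le_opNorm₂ u v
  have hDbd : BddAbove D := by
    refine ⟨‖m‖, ?_⟩
    rintro r ⟨u, -, hu1, rfl⟩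
    refine (hbound u u).trans ?_
    have h0 : 0 ≤ ‖m‖ := norm_nonneg m
    have h1 : 0 ≤ ‖u‖ := norm_nonneg u
    calc ‖m‖ * ‖u‖ * ‖u‖ ≤ ‖m‖ * 1 * 1 := by gcongr
      _ = ‖m‖ := by ring
  have hDne : D.Nonempty := ⟨0, 0, U.zero_mem, by simp, by simp⟩
  set μ := sSup D with hμ
  have hμ0 : 0 ≤ μ := le_csSup hDbd ⟨0, U.zero_mem, by simp, by simp⟩
  have hle : ∀ u ∈ U, ‖m u u‖ ≤ μ * ‖u‖ ^ 2 := by
    intro u hu
    rcases eq_or_ne u 0 with rfl | hu0
    · simp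
    · have hn : 0 < ‖u‖ := norm_pos_iff.2 hu0
      have h1 : ‖m (‖u‖⁻¹ • u) (‖u‖⁻¹ • u)‖ ≤ μ := by
        refine le_csSup hDbd ⟨_, U.smul_mem _ hu, ?_, rfl⟩
        rw [norm_smul, norm_inv, norm_norm, inv_mul_cancel₀ hn.ne']
      have h2 : m (‖u‖⁻¹ • u) (‖u‖⁻¹ • u) = (‖u‖ ^ 2)⁻¹ • m u u := by
        rw [sm2, pow_two, mul_inv]
      rw [h2, norm_smul, norm_inv, norm_pow, norm_norm, inv_mul_le_iff₀ (by positivity)] at h1
      linarith
  rcases eq_or_lt_of_le hμ0 with h0 | hμpos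
  · intro u hu
    have := hle u hu
    rw [← h0, zero_mul] at this
    exact norm_le_zero_iff.1 this
  exfalso
  -- constants
  set c0 := ‖m‖ with hc0
  have hc00 : 0 ≤ c0 := norm_nonneg m
  obtain ⟨C2, hC2⟩ : ∃ C2 : ℝ, C2 = 1 + 4 * C + C ^ 2 := ⟨_, rfl⟩
  have hC20 : 0 ≤ C2 := by rw [hC2]; positivity
  obtain ⟨C3, hC3⟩ : ∃ C3 : ℝ, C3 = μ * C2 + 1 + c0 := ⟨_, rfl⟩
  have hC30 : 0 < C3 := by rw [hC3]; positivity
  obtain ⟨r, hr0, hr1, hrμ, hrC⟩ : ∃ r : ℝ, 0 < r ∧ r ≤ 1 ∧ r ^ 2 < μ ∧ C3 * r ≤ μ / 2 := by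
    refine ⟨min (1 / 2) (min (μ / 2) (μ / (2 * C3))), by positivity, ?_, ?_, ?_⟩
    · exact (min_le_left _ _).trans (by norm_num)
    · have a1 : min (1 / 2) (min (μ / 2) (μ / (2 * C3))) ≤ 1 / 2 := min_le_left _ _
      have a2 : min (1 / 2) (min (μ / 2) (μ / (2 * C3))) ≤ μ / 2 :=
        (min_le_right _ _).trans (min_le_left _ _)
      have a3 : 0 < min (1 / 2) (min (μ / 2) (μ / (2 * C3))) := by positivity
      nlinarith
    · have a2 : min (1 / 2) (min (μ / 2) (μ / (2 * C3))) ≤ μ / (2 * C3) :=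
        (min_le_right _ _).trans (min_le_right _ _)
      calc C3 * min (1 / 2) (min (μ / 2) (μ / (2 * C3))) ≤ C3 * (μ / (2 * C3)) := by gcongr
        _ = μ / 2 := by field_simp
  -- approximate maximiser
  obtain ⟨ρ, ⟨u0, hu0U, hu01, rfl⟩, hρ⟩ := exists_lt_of_lt_csSup hDne
    (show μ - r ^ 2 < sSup D by rw [← hμ]; have : 0 < r ^ 2 := by positivity
                                linarith)
  have hu00 : u0 ≠ 0 := by
    rintro rfl
    rw [map_zero, norm_zero] at hρ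
    linarith
  have hu0n : 0 < ‖u0‖ := norm_pos_iff.2 hu00
  set u : V := ‖u0‖⁻¹ • u0 with hu
  have huU : u ∈ U := U.smul_mem _ hu0U
  have hun : ‖u‖ = 1 := by rw [hu, norm_smul, norm_inv, norm_norm, inv_mul_cancel₀ hu0n.ne']
  have hmu : μ - r ^ 2 ≤ ‖m u u‖ := by
    have h2 : m u u = (‖u0‖ ^ 2)⁻¹ • m u0 u0 := by
      rw [hu, sm2, pow_two, mul_inv]
    rw [h2, norm_smul, norm_inv, norm_pow, norm_norm]
    have h3 : 1 ≤ (‖u0‖ ^ 2)⁻¹ := by
      rw [one_le_inv₀ (by positivity)]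
      exact pow_le_one₀ hu0n.le hu01
    have h4 : 0 ≤ ‖m u0 u0‖ := norm_nonneg _
    nlinarith
  obtain ⟨θ, hθ1, hθ2⟩ := exists_dual_vector'' ℝ (m u u)
  have hθ2' : θ (m u u) = ‖m u u‖ := by simpa using hθ2
  have hθ : ∀ w, θ w ≤ ‖w‖ := fun w => by
    calc θ w ≤ ‖θ w‖ := le_abs_self _
      _ ≤ ‖θ‖ * ‖w‖ := θ.le_opNorm w
      _ ≤ 1 * ‖w‖ := by gcongr
      _ = ‖w‖ := one_mul _
  have hθ' : ∀ w, -‖w‖ ≤ θ w := fun w => by
    have := hθ (-w)
    rw [map_neg, norm_neg] at this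
    linarith
  -- the variational inequality
  have var1 : ∀ s ∈ U, ‖s‖ = r → θ (m u s) - μ * J u s ≤ C3 * r ^ 2 := by
    intro s hs hsr
    have hu0' : u ≠ 0 := by
      intro h
      rw [h, norm_zero] at hun
      exact zero_ne_one hun
    have h1 := hle (u + s) (U.add_mem huU hs)
    have h2 : m (u + s) (u + s) = m u u + (2 : ℝ) • m u s + m s s := exp2 u s
    have h3 := hθ (m (u + s) (u + s))
    rw [h2, map_add, map_add, map_smul θ, smul_eq_mul, hθ2'] at h3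
    have h4 : -(c0 * r ^ 2) ≤ θ (m s s) := by
      have h5 := hθ' (m s s)
      have h6 := hbound s s
      rw [hsr] at h6
      nlinarith
    have h5 := hJ.taylor hu0' s
    rw [hun, hsr, div_one] at h5
    have h6 : |J u s| ≤ r := by rw [← hsr]; exact hJ.abs_le u s
    have h7 : ‖u + s‖ ^ 2 ≤ 1 + 2 * J u s + C2 * r ^ 2 := by
      rw [hC2]
      exact kill_arith hC hr0 hr1 h6 (norm_nonneg _) h5
    have h8 : μ * ‖u + s‖ ^ 2 ≤ μ * (1 + 2 * J u s + C2 * r ^ 2) :=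
      mul_le_mul_of_nonneg_left h7 hμ0
    rw [h2] at h1
    have h9 : ‖m u u + (2 : ℝ) • m u s + m s s‖ ≤ μ * (1 + 2 * J u s + C2 * r ^ 2) := h1.trans h8
    have hr2 : 0 ≤ r ^ 2 := by positivity
    have e9 : μ * (1 + 2 * J u s + C2 * r ^ 2) = μ + 2 * (μ * J u s) + μ * C2 * r ^ 2 := by ring
    rw [e9] at h9
    have e10 : C3 * r ^ 2 = μ * C2 * r ^ 2 + r ^ 2 + c0 * r ^ 2 := by rw [hC3]; ring
    have e11 : 0 ≤ C3 * r ^ 2 := by positivity
    linarith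
  have var2 : ∀ s ∈ U, |θ (m u s) - μ * J u s| ≤ C3 * r * ‖s‖ := by
    intro s hs
    rcases eq_or_ne s 0 with rfl | hs0
    · simp
    · have hsn : 0 < ‖s‖ := norm_pos_iff.2 hs0
      have e1 : ‖(r / ‖s‖) • s‖ = r := by
        rw [norm_smul, Real.norm_of_nonneg (by positivity), div_mul_cancel₀ _ hsn.ne']
      have a1 := var1 ((r / ‖s‖) • s) (U.smul_mem _ hs) e1
      have a2 := var1 (-((r / ‖s‖) • s)) (U.neg_mem (U.smul_mem _ hs)) (by rw [norm_neg, e1])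
      simp only [map_neg, map_smul, smul_eq_mul] at a1 a2
      have hrs : 0 < r / ‖s‖ := by positivity
      have b1 : r / ‖s‖ * (θ (m u s) - μ * J u s) ≤ r / ‖s‖ * (C3 * r * ‖s‖) := by
        have : r / ‖s‖ * (C3 * r * ‖s‖) = C3 * r ^ 2 := by field_simp
        rw [this]; linarith
      have b2 : r / ‖s‖ * (-(θ (m u s) - μ * J u s)) ≤ r / ‖s‖ * (C3 * r * ‖s‖) := by
        have : r / ‖s‖ * (C3 * r * ‖s‖) = C3 * r ^ 2 := by field_simp
        rw [this]; linarith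
      exact abs_le'.2 ⟨le_of_mul_le_mul_left b1 hrs, le_of_mul_le_mul_left b2 hrs⟩
  -- the flow
  set x : ℝ → V := fun τ => NormedSpace.exp (τ • m u) u with hx
  have hxU : ∀ τ, x τ ∈ U := fun τ => flow_mem (m u) U hU (fun w hw => hmU u huU w hw) huU τ
  have hxd : ∀ τ, HasDerivAt x (m u (x τ)) τ := fun τ => flow_deriv (m u) u τ
  have hx0 : x 0 = u := by simp [hx]
  have hxn : ∀ τ, ‖x τ‖ = 1 := fun τ => by
    have := flow_norm hJ.toU (m u) u (fun s => hskew u huU _) τ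
    rw [hun] at this
    exact this
  have hJx : ∀ τ, J u (x τ) = 1 := by
    intro τ
    have hd : ∀ s : ℝ, HasDerivAt (fun s : ℝ => J u (x s)) 0 s := by
      intro s
      have h1 := (J u).hasFDerivAt.comp_hasDerivAt s (hxd s)
      have h2 : J u (m u (x s)) = 0 := by rw [ms]; exact hskew (x s) (hxU s) u
      rw [h2] at h1
      exact h1
    have h1 := is_const_of_deriv_eq_zero (f := fun s : ℝ => J u (x s))
      (fun s => (hd s).differentiableAt) (fun s => (hd s).deriv) τ 0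
    simp only [hx0] at h1
    rw [h1, hJ.self, hun]
  have hθd : ∀ τ, HasDerivAt (fun τ : ℝ => θ (x τ)) (θ (m u (x τ))) τ := fun τ =>
    θ.hasFDerivAt.comp_hasDerivAt τ (hxd τ)
  have hθge : ∀ τ, μ / 2 ≤ θ (m u (x τ)) := by
    intro τ
    have h1 := var2 (x τ) (hxU τ)
    rw [hJx, hxn, mul_one, mul_one, abs_le] at h1
    linarith [h1.1]
  have hmono : Monotone (fun τ : ℝ => θ (x τ) - μ / 2 * τ) := by
    have hd : ∀ τ, HasDerivAt (fun τ : ℝ => θ (x τ) - μ / 2 * τ) (θ (m u (x τ)) - μ / 2) τ := by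
      intro τ
      have h1 : HasDerivAt (fun τ : ℝ => μ / 2 * τ) (μ / 2) τ := by
        simpa using (hasDerivAt_id τ).const_mul (μ / 2)
      exact (hθd τ).sub h1
    refine monotone_of_deriv_nonneg (fun τ => (hd τ).differentiableAt) fun τ => ?_
    rw [(hd τ).deriv]
    linarith [hθge τ]
  have h1 := hmono (show (0 : ℝ) ≤ 8 / μ by positivity)
  simp only at h1
  have h2 := hθ (x (8 / μ))
  have h3 := hθ' (x 0)
  rw [hxn] at h2 h3
  have h4 : μ / 2 * (8 / μ) = 4 := by field_simp; norm_num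
  rw [h4] at h1
  linarith

end P084GII
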