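import Vale.Agent.Lib.P084G.II.Alg1

/-! Part II, case C, algebra 2: `J w (m a w) = lam w * B a w` and associativity imply `m = B ⊗ z`. -/

open Filter Topology

namespace P084GII

variable {V : Type*} [NormedAddCommGroup V] [NormedSpace ℝ V] {J : V → V →L[ℝ] ℝ} {C : ℝ}
  {B : V →L[ℝ] V →L[ℝ] ℝ} {m : V →L[ℝ] V →L[ℝ] V} {lam : V → ℝ}

/-- the kernel of the form -/
def Alg2_ker (B : V →L[ℝ] V →L[ℝ] ℝ) : Submodule ℝ V where
  carrier := {k | ∀ v, B k v = 0}
  add_mem' := by
    intro a b ha hb v
    rw [map_add, add_apply, ha v, hb v, add_zero]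
  zero_mem' := by
    intro v
    rw [map_zero, zero_apply]
  smul_mem' := by
    intro c a ha v
    rw [map_smul, smul_apply, ha v, smul_zero]

theorem Alg2_ker_closed (B : V →L[ℝ] V →L[ℝ] ℝ) : IsClosed (Alg2_ker B : Set V) := by
  have h : (Alg2_ker B : Set V) = ⋂ v, {k | B k v = 0} := by
    ext k
    simp [Alg2_ker]
  rw [h]
  refine isClosed_iInter fun v => isClosed_eq ?_ continuous_const
  fun_prop

/-- a differentiable function with nonnegative derivative is monotone -/
theorem Alg2_mono {f f' : ℝ → ℝ} (hf : ∀ t, HasDerivAt f (f' t) t) (h0 : ∀ t, 0 ≤ f' t) :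
    Monotone f :=
  monotone_of_deriv_nonneg (fun t => (hf t).differentiableAt) fun t => by
    rw [(hf t).deriv]
    exact h0 t

/-- a bounded function with monotone derivative is constant -/
theorem Alg2_bdd {f f' : ℝ → ℝ} (hf : ∀ t, HasDerivAt f (f' t) t) (hm : Monotone f') {K : ℝ}
    (hK : ∀ t, |f t| ≤ K) (t : ℝ) : f' t = 0 := by
  have hcont : Continuous f := continuous_iff_continuousAt.2 fun t => (hf t).continuousAt
  rcases lt_trichotomy (f' t) 0 with h | h | h
  · exfalso
    have hK0 : 0 ≤ K := (abs_nonneg _).trans (hK t)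
    have hlt : t - (2 * K + 1) / (-f' t) < t := by
      have : 0 < (2 * K + 1) / (-f' t) := div_pos (by linarith) (by linarith)
      linarith
    obtain ⟨c, hc, hc2⟩ := exists_hasDerivAt_eq_slope f f' hlt hcont.continuousOn
      (fun x _ => hf x)
    have h1 : f' c ≤ f' t := hm hc.2.le
    have h2 : t - (t - (2 * K + 1) / (-f' t)) = (2 * K + 1) / (-f' t) := by ring
    have h3 : 0 < (2 * K + 1) / (-f' t) := div_pos (by linarith) (by linarith)
    rw [h2, eq_div_iff h3.ne'] at hc2
    have h4 : f' c * ((2 * K + 1) / (-f' t)) ≤ f' t * ((2 * K + 1) / (-f' t)) :=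
      mul_le_mul_of_nonneg_right h1 h3.le
    have h5 : f' t * ((2 * K + 1) / (-f' t)) = -(2 * K + 1) := by
      have : f' t ≠ 0 := h.ne
      field_simp
    have h6 := abs_le.1 (hK t)
    have h7 := abs_le.1 (hK (t - (2 * K + 1) / (-f' t)))
    linarith
  · exact h
  · exfalso
    have hK0 : 0 ≤ K := (abs_nonneg _).trans (hK t)
    have h3 : 0 < (2 * K + 1) / f' t := div_pos (by linarith) h
    have hlt : t < t + (2 * K + 1) / f' t := by linarith
    obtain ⟨c, hc, hc2⟩ := exists_hasDerivAt_eq_slope f f' hlt hcont.continuousOn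
      (fun x _ => hf x)
    have h1 : f' t ≤ f' c := hm hc.1.le
    have h2 : t + (2 * K + 1) / f' t - t = (2 * K + 1) / f' t := by ring
    rw [h2, eq_div_iff h3.ne'] at hc2
    have h4 : f' t * ((2 * K + 1) / f' t) ≤ f' c * ((2 * K + 1) / f' t) :=
      mul_le_mul_of_nonneg_right h1 h3.le
    have h5 : f' t * ((2 * K + 1) / f' t) = 2 * K + 1 := by
      have : f' t ≠ 0 := h.ne'
      field_simp
    have h6 := abs_le.1 (hK t)
    have h7 := abs_le.1 (hK (t + (2 * K + 1) / f' t))
    linarith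

/-- continuity of `J` along a line -/
theorem Alg2_lim (hJ : DualU J) {w : V} (hw : w ≠ 0) (g : V) (F : ℝ → V)
    (hF : ContinuousAt F 0) :
    Tendsto (fun t : ℝ => J (w + t • g) (F t)) (𝓝[≠] 0) (𝓝 (J w (F 0))) := by
  have h1 : ContinuousAt (fun t : ℝ => J (w + t • g)) 0 := by
    have h2 : ContinuousAt J (w + (0 : ℝ) • g) := by
      rw [zero_smul, add_zero]
      exact hJ.continuousAt hw
    exact ContinuousAt.comp (f := fun t : ℝ => w + t • g) h2 (by fun_prop)
  have h3 : ContinuousAt (fun t : ℝ => J (w + t • g) (F t)) 0 := h1.clm_apply hF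
  have h4 := h3.tendsto
  simp only [zero_smul, add_zero] at h4
  exact h4.mono_left nhdsWithin_le_nhds

/-- Cauchy-Schwarz for the positive semidefinite form -/
theorem psd_ker (Bs : ∀ u v, B u v = B v u) (Bp : ∀ u, 0 ≤ B u u) {u : V} (hu : B u u = 0)
    (v : V) : B u v = 0 := by
  by_contra hne
  have h := Bp (v + (-(B v v + 1) / (2 * B u v)) • u)
  have e : B (v + (-(B v v + 1) / (2 * B u v)) • u) (v + (-(B v v + 1) / (2 * B u v)) • u) =
      B v v + 2 * (-(B v v + 1) / (2 * B u v)) * B u v +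
        (-(B v v + 1) / (2 * B u v)) ^ 2 * B u u := by
    simp only [map_add, map_smul, add_apply, smul_apply,
      smul_eq_mul]
    rw [Bs v u]
    ring
  rw [e, hu] at h
  have e2 : 2 * (-(B v v + 1) / (2 * B u v)) * B u v = -(B v v + 1) := by
    field_simp
  rw [e2] at h
  linarith

/-- `U = {k | ∀ v, B k v = 0}`; `m k v ∈ U` for `k ∈ U` (`B (m k v) w = B (m v k) w = B (m v w) k = 0`); `kill` on `U`; for
`w0 = m k v ∈ U` we get `m k w0 = 0`, so `m k (v + s w0) = w0` and `J (v + s w0) w0 = lam _ * B k _ = 0`: `lin_norm`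
(if `v + s w0 = 0` then `w0 = m k 0 = 0`). -/
theorem ker_step [CompleteSpace V] (hJ : Dual2 J C) (Bs : ∀ u v, B u v = B v u)
    (ms : ∀ u v, m u v = m v u) (star : ∀ a w, w ≠ 0 → J w (m a w) = lam w * B a w)
    (assoc : ∀ u v w, B (m u v) w = B (m u w) v) {k : V} (hk : ∀ v, B k v = 0) (v : V) :
    m k v = 0 := by
  have hU : IsClosed (Alg2_ker B : Set V) := Alg2_ker_closed B
  have hker : ∀ k' ∈ Alg2_ker B, ∀ v', m k' v' ∈ Alg2_ker B := by
    intro k' hk' v' w
    rw [ms k' v', assoc v' k' w, Bs]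
    exact hk' _
  have hJ0 : ∀ k' ∈ Alg2_ker B, ∀ w, J w (m k' w) = 0 := by
    intro k' hk' w
    by_cases hw : w = 0
    · rw [hw, map_zero, map_zero]
    · rw [star k' w hw, hk' w, mul_zero]
  have hkill := kill hJ (Alg2_ker B) hU m ms (fun u hu v _ => hker u hu v) hJ0
  have hkU : k ∈ Alg2_ker B := hk
  have h1 : m k (m k v) = 0 := hkill k hkU _ (hker k hkU v)
  refine lin_norm hJ.toDual v (m k v) fun s => ?_
  have h2 : m k (v + s • m k v) = m k v := by
    rw [map_add, map_smul, h1, smul_zero, add_zero]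
  have h3 := hJ0 k hkU (v + s • m k v)
  rwa [h2] at h3

/-- maximality of `e`: `B (e + s v) (e + s v) ≤ β ‖e + s v‖^2`, derivative at `s = 0` -/
theorem e_J (hJ : DualU J) (Bs : ∀ u v, B u v = B v u) {e : V} (he : ‖e‖ = 1)
    (hmax : ∀ v, B v v ≤ B e e * ‖v‖ ^ 2) (v : V) : B e v = B e e * J e v := by
  have he0 : e ≠ 0 := by
    rintro rfl
    rw [norm_zero] at he
    exact zero_ne_one he
  have h1 : HasDerivAt (fun s : ℝ => e + s • v) v 0 := by
    have h := ((hasDerivAt_id (0 : ℝ)).smul_const v).const_add e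
    simpa using! h
  have h2 : HasDerivAt (fun s : ℝ => ‖e + s • v‖) (J e v) 0 := by
    have h3 : HasFDerivAt (fun y : V => ‖y‖) (J e) (e + (0 : ℝ) • v) := by
      rw [zero_smul, add_zero]
      exact hJ.hasFDerivAt he0
    exact h3.comp_hasDerivAt (0 : ℝ) h1
  have h3 : HasDerivAt (fun s : ℝ => B e e * ‖e + s • v‖ ^ 2) (B e e * (2 * J e v)) 0 := by
    have h4 := (h2.pow 2).const_mul (B e e)
    have e1 : B e e * (((2 : ℕ) : ℝ) * ‖e + (0 : ℝ) • v‖ ^ (2 - 1) * J e v) =
        B e e * (2 * J e v) := by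
      rw [zero_smul, add_zero, he]
      norm_num
    rw [e1] at h4
    exact h4
  have h4 : HasDerivAt (fun s : ℝ => B e e + 2 * B e v * s + B v v * s ^ 2) (2 * B e v) 0 := by
    have h5 := (((hasDerivAt_id (0 : ℝ)).const_mul (2 * B e v)).const_add (B e e)).add
      (((hasDerivAt_id (0 : ℝ)).pow 2).const_mul (B v v))
    simpa using! h5
  have h5 : ∀ s : ℝ, B (e + s • v) (e + s • v) = B e e + 2 * B e v * s + B v v * s ^ 2 := by
    intro s
    simp only [map_add, map_smul, add_apply, smul_apply,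
      smul_eq_mul]
    rw [Bs v e]
    ring
  have h6 := h3.sub h4
  have hmin : IsLocalMin (fun s : ℝ => B e e * ‖e + s • v‖ ^ 2 -
      (B e e + 2 * B e v * s + B v v * s ^ 2)) 0 := by
    refine Filter.Eventually.of_forall fun s => ?_
    have h7 := hmax (e + s • v)
    rw [h5] at h7
    simp only [zero_smul, add_zero, he]
    linarith
  have h7 := hmin.hasDerivAt_eq_zero h6
  linarith

/-- `B (m e e) a = B e (m e a) = β J e (m a e) = β lam e B a e` -/
theorem e_ee (hJ : DualU J) (Bs : ∀ u v, B u v = B v u) (ms : ∀ u v, m u v = m v u)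
    (star : ∀ a w, w ≠ 0 → J w (m a w) = lam w * B a w)
    (assoc : ∀ u v w, B (m u v) w = B (m u w) v) {e : V} (he : ‖e‖ = 1)
    (hmax : ∀ v, B v v ≤ B e e * ‖v‖ ^ 2) (a : V) :
    B (m e e) a = B e e * lam e * B e a := by
  have he0 : e ≠ 0 := by
    rintro rfl
    rw [norm_zero] at he
    exact zero_ne_one he
  rw [assoc e e a, Bs, e_J hJ Bs he hmax, ms e a, star a e he0, Bs a e, mul_assoc]

/-- **`m e v = 0` on the `B`-complement of `e`.**  `V1 = {v | B e v = 0}` is closed and `m e`-invariant (`e_ee`, `assoc`).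
For `v ∈ V1`, `x t = exp (t (m e)) v ∈ V1`, `J (x) (m e x) = lam x * B e x = 0`, so `‖x t‖ = ‖v‖`.  `ψ t = B (x t) (x t)` is
bounded and `ψ'' = 4 B (m e x) (m e x) ≥ 0` (`m e` is `B`-symmetric), so `ψ` is constant (bounded convex function on the
line), `B (m e v) (m e v) = 0`, `m e v ∈ ker B` (`psd_ker`), `m e (m e v) = 0` (`ker_step`), and `lin_norm` with
`w0 = m e v` (`m e (v + s w0) = w0`, `B e (v + s w0) = 0`) gives `m e v = 0`. -/
theorem e_perp [CompleteSpace V] (hJ : Dual2 J C) (Bs : ∀ u v, B u v = B v u)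
    (Bp : ∀ u, 0 ≤ B u u) (ms : ∀ u v, m u v = m v u)
    (star : ∀ a w, w ≠ 0 → J w (m a w) = lam w * B a w)
    (assoc : ∀ u v w, B (m u v) w = B (m u w) v) {e : V} (he : ‖e‖ = 1)
    (hmax : ∀ v, B v v ≤ B e e * ‖v‖ ^ 2) {v : V} (hv : B e v = 0) : m e v = 0 := by
  have hJU : DualU J := hJ.toU
  have hJe : ∀ x, B e x = 0 → J x (m e x) = 0 := by
    intro x hx
    by_cases hx0 : x = 0
    · rw [hx0, map_zero, map_zero]
    · rw [star e x hx0, hx, mul_zero]
  have hinv : ∀ x, B e x = 0 → B e (m e x) = 0 := by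
    intro x hx
    rw [Bs, assoc e x e, e_ee hJU Bs ms star assoc he hmax, hx, mul_zero]
  have hsym : ∀ x y, B (m e x) y = B x (m e y) := by
    intro x y
    rw [assoc e x y, Bs]
  have hx1 : ∀ t : ℝ, B e (NormedSpace.exp (t • m e) v) = 0 := by
    intro t
    exact flow_mem (m e) (LinearMap.ker (B e).toLinearMap) (B e).isClosed_ker
      (fun u hu => hinv u hu) hv t
  have hn : ∀ t : ℝ, ‖NormedSpace.exp (t • m e) v‖ = ‖v‖ :=
    fun t => flow_norm hJU (m e) v (fun s => hJe _ (hx1 s)) t
  -- `ψ`, `ψ'`, `ψ''`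
  have hB : ∀ {f g : ℝ → V} {f' g' : V} {t : ℝ}, HasDerivAt f f' t → HasDerivAt g g' t →
      HasDerivAt (fun s => B (f s) (g s)) (B f' (g t) + B (f t) g') t := by
    intro f g f' g' t hf hg
    have h1 : HasDerivAt (fun s => B (f s)) (B f') t := B.hasFDerivAt.comp_hasDerivAt t hf
    exact h1.clm_apply hg
  have hd : ∀ t : ℝ, HasDerivAt (fun s : ℝ => NormedSpace.exp (s • m e) v)
      (m e (NormedSpace.exp (t • m e) v)) t := fun t => flow_deriv (m e) v t
  have hd2 : ∀ t : ℝ, HasDerivAt (fun s : ℝ => m e (NormedSpace.exp (s • m e) v))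
      (m e (m e (NormedSpace.exp (t • m e) v))) t := fun t =>
    (m e).hasFDerivAt.comp_hasDerivAt t (hd t)
  have hψ : ∀ t : ℝ, HasDerivAt (fun s : ℝ => B (NormedSpace.exp (s • m e) v)
      (NormedSpace.exp (s • m e) v)) (2 * B (NormedSpace.exp (t • m e) v)
        (m e (NormedSpace.exp (t • m e) v))) t := by
    intro t
    have h := hB (hd t) (hd t)
    have e1 : B (m e (NormedSpace.exp (t • m e) v)) (NormedSpace.exp (t • m e) v) +
        B (NormedSpace.exp (t • m e) v) (m e (NormedSpace.exp (t • m e) v)) =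
        2 * B (NormedSpace.exp (t • m e) v) (m e (NormedSpace.exp (t • m e) v)) := by
      rw [hsym]
      ring
    rwa [e1] at h
  have hψ2 : ∀ t : ℝ, HasDerivAt (fun s : ℝ => 2 * B (NormedSpace.exp (s • m e) v)
        (m e (NormedSpace.exp (s • m e) v)))
      (4 * B (m e (NormedSpace.exp (t • m e) v)) (m e (NormedSpace.exp (t • m e) v))) t := by
    intro t
    have h := (hB (hd t) (hd2 t)).const_mul 2
    have e1 : 2 * (B (m e (NormedSpace.exp (t • m e) v)) (m e (NormedSpace.exp (t • m e) v)) +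
        B (NormedSpace.exp (t • m e) v) (m e (m e (NormedSpace.exp (t • m e) v)))) =
        4 * B (m e (NormedSpace.exp (t • m e) v)) (m e (NormedSpace.exp (t • m e) v)) := by
      rw [← hsym (NormedSpace.exp (t • m e) v)]
      ring
    rwa [e1] at h
  have hz := Alg2_bdd hψ (Alg2_mono hψ2 fun t => mul_nonneg (by norm_num) (Bp _))
    (K := ‖B‖ * ‖v‖ * ‖v‖) (by
      intro t
      have h := B.le_opNorm₂ (NormedSpace.exp (t • m e) v) (NormedSpace.exp (t • m e) v)
      rw [hn t] at h
      exact h)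
  have h0 : 4 * B (m e (NormedSpace.exp ((0 : ℝ) • m e) v))
      (m e (NormedSpace.exp ((0 : ℝ) • m e) v)) = 0 := by
    have h := hψ2 0
    have h' : HasDerivAt (fun s : ℝ => 2 * B (NormedSpace.exp (s • m e) v)
        (m e (NormedSpace.exp (s • m e) v))) 0 0 := by
      have h3 : (fun s : ℝ => 2 * B (NormedSpace.exp (s • m e) v)
        (m e (NormedSpace.exp (s • m e) v))) = fun _ => (0 : ℝ) := funext hz
      rw [h3]
      exact hasDerivAt_const _ _
    exact h.unique h'
  rw [zero_smul, NormedSpace.exp_zero, one_apply_eq_self] at h0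
  have hk : ∀ w, B (m e v) w = 0 := fun w => psd_ker Bs Bp (by linarith) w
  have hmm : m e (m e v) = 0 := by
    rw [ms]
    exact ker_step hJ Bs ms star assoc hk e
  refine lin_norm hJ.toDual v (m e v) fun s => ?_
  have h2 : m e (v + s • m e v) = m e v := by
    rw [map_add, map_smul, hmm, smul_zero, add_zero]
  have h3 := hJe (v + s • m e v) (by
    rw [map_add, map_smul, hv, hinv v hv, smul_zero, add_zero])
  rwa [h2] at h3

/-- **Rank at least two.**  `β = B e e > 0`, `g` with `B e g = 0`, `B g g > 0`.  For `w = e + t g`, `t ≠ 0`: `J w (m g w) = t J w (m g g)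
= lam w * t * B g g`, `J w (m e w) = J w (m e e) = lam w * β`; so `J w (β m g g - B g g m e e) = 0`, `t → 0`:
`J e (β m g g - B g g m e e) = 0`; `J e (m g g) = B e (m g g) / β = B (m e g) g / β = 0`.  So `J e (m e e) = 0`, hence
`B e (m e e) = 0`, hence `lam e = 0` by `e_ee`, hence `m e e ∈ ker B`. -/
theorem e_two [CompleteSpace V] (hJ : Dual2 J C) (Bs : ∀ u v, B u v = B v u)
    (Bp : ∀ u, 0 ≤ B u u) (ms : ∀ u v, m u v = m v u)
    (star : ∀ a w, w ≠ 0 → J w (m a w) = lam w * B a w)
    (assoc : ∀ u v w, B (m u v) w = B (m u w) v) {e : V} (he : ‖e‖ = 1) (hβ : 0 < B e e)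
    (hmax : ∀ v, B v v ≤ B e e * ‖v‖ ^ 2) {g : V} (hg : B e g = 0) (hgg : 0 < B g g) (a : V) :
    B (m e e) a = 0 := by
  have hJU : DualU J := hJ.toU
  have he0 : e ≠ 0 := by
    rintro rfl
    rw [norm_zero] at he
    exact zero_ne_one he
  have heg : m e g = 0 := e_perp hJ Bs Bp ms star assoc he hmax hg
  have hge : m g e = 0 := by rw [ms]; exact heg
  have hw : ∀ t : ℝ, t ≠ 0 → J (e + t • g) (B e e • m g g - B g g • m e e) = 0 := by
    intro t ht
    have hBw : B e (e + t • g) = B e e := by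
      rw [map_add, map_smul, hg, smul_zero, add_zero]
    have hw0 : e + t • g ≠ 0 := by
      intro h0
      rw [h0, map_zero] at hBw
      exact hβ.ne hBw
    have h1 := star g _ hw0
    have h2 := star e _ hw0
    rw [hBw] at h2
    have e1 : m g (e + t • g) = t • m g g := by
      rw [map_add, map_smul, hge, zero_add]
    have e2 : m e (e + t • g) = m e e := by
      rw [map_add, map_smul, heg, smul_zero, add_zero]
    have e3 : B g (e + t • g) = t * B g g := by
      rw [map_add, map_smul, Bs g e, hg, zero_add, smul_eq_mul]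
    rw [e1, e3, map_smul, smul_eq_mul] at h1
    rw [e2] at h2
    have h3 : J (e + t • g) (m g g) = lam (e + t • g) * B g g := by
      have h4 : t * J (e + t • g) (m g g) = t * (lam (e + t • g) * B g g) := by
        rw [h1]
        ring
      exact mul_left_cancel₀ ht h4
    rw [map_sub, map_smul, map_smul, h3, h2, smul_eq_mul, smul_eq_mul]
    ring
  have hlim : J e (B e e • m g g - B g g • m e e) = 0 := by
    have hc : Tendsto (fun t : ℝ => J (e + t • g) (B e e • m g g - B g g • m e e)) (𝓝[≠] 0)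
        (𝓝 (J e (B e e • m g g - B g g • m e e))) :=
      Alg2_lim hJU he0 g (fun _ => B e e • m g g - B g g • m e e) continuousAt_const
    refine tendsto_nhds_unique hc ?_
    refine (tendsto_const_nhds (x := (0 : ℝ))).congr' ?_
    filter_upwards [self_mem_nhdsWithin] with t ht
    exact (hw t ht).symm
  have h1 : J e (m g g) = 0 := by
    have h2 := e_J hJU Bs he hmax (m g g)
    rw [Bs, assoc g g e, hge, map_zero, zero_apply] at h2
    rcases mul_eq_zero.1 h2.symm with h3 | h3
    · exact absurd h3 hβ.ne'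
    · exact h3
  have h2 : J e (m e e) = 0 := by
    rw [map_sub, map_smul, map_smul, h1, smul_zero, zero_sub, neg_eq_zero, smul_eq_mul] at hlim
    exact (mul_eq_zero.1 hlim).resolve_left hgg.ne'
  have h3 : lam e * B e e = 0 := by
    rw [← star e e he0]
    exact h2
  have h4 : lam e = 0 := (mul_eq_zero.1 h3).resolve_right hβ.ne'
  rw [e_ee hJU Bs ms star assoc he hmax, h4, mul_zero, zero_mul]

/-- **Main algebraic theorem.**
* `B = 0` (`B e e = 0`): `J w (m a w) = 0` for all `a w`; `kill` with `U = ⊤` gives `m = 0`, `z = 0`.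
* `B e e > 0` (then `‖e‖ = 1`): `z = (B e e)⁻¹ • m e e`.
  If `B g g = 0` whenever `B e g = 0` (rank one): `V = ℝ e + ker B`, `ker_step`: `m u v = B u v • z`.
  Otherwise (rank `≥ 2`): for `w = α e + g`, `α ≠ 0`, `B e g = 0`: `J w (m e w) = α J w (m e e) = lam w * α β`, so
  `lam w = J w z` whenever `B e w ≠ 0`; `m' u v = m u v - B u v • z` is symmetric and `J w (m' a w) = 0` when `B e w ≠ 0`, hence for all
  `w` (continuity of `J` off `0`, `DualU.continuousAt`, density); `kill` with `U = ⊤`: `m' = 0`.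
* `‖z‖ ≤ Λ`: for `B e w ≠ 0`: `J w (m e w) = B e w * J w z = lam w * B e w`, so `J w z = lam w ≤ Λ`; `w → z`. -/
theorem alg_main [CompleteSpace V] (hJ : Dual2 J C) (Bs : ∀ u v, B u v = B v u)
    (Bp : ∀ u, 0 ≤ B u u) (ms : ∀ u v, m u v = m v u)
    (star : ∀ a w, w ≠ 0 → J w (m a w) = lam w * B a w)
    (assoc : ∀ u v w, B (m u v) w = B (m u w) v) {Λ : ℝ} (hΛ : 0 ≤ Λ) (hlam : ∀ w, |lam w| ≤ Λ)
    (hmax : ∃ e : V, ‖e‖ ≤ 1 ∧ ∀ v, B v v ≤ B e e * ‖v‖ ^ 2) :
    ∃ z : V, ‖z‖ ≤ Λ ∧ ∀ u v, m u v = B u v • z := by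
  have hJU : DualU J := hJ.toU
  obtain ⟨e, he1, hmax⟩ := hmax
  rcases (Bp e).eq_or_lt with hβ | hβ
  · -- `B = 0`
    have hB0 : ∀ u v, B u v = 0 := by
      intro u v
      refine psd_ker Bs Bp (le_antisymm ?_ (Bp u)) v
      have h := hmax u
      rwa [← hβ, zero_mul] at h
    have hk := kill hJ ⊤ isClosed_univ m ms (fun _ _ _ _ => trivial) (by
      intro u _ w
      by_cases hw : w = 0
      · rw [hw, map_zero, map_zero]
      · rw [star u w hw, hB0, mul_zero])
    refine ⟨0, by rwa [norm_zero], fun u v => ?_⟩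
    rw [smul_zero]
    exact hk u trivial v trivial
  · have he : ‖e‖ = 1 := by
      refine le_antisymm he1 ?_
      have h := hmax e
      have h2 : 1 ≤ ‖e‖ ^ 2 := by
        by_contra hlt
        push Not at hlt
        nlinarith
      nlinarith [norm_nonneg e]
    have he0 : e ≠ 0 := by
      rintro rfl
      rw [norm_zero] at he
      exact zero_ne_one he
    have hz : ∀ w, B e w ≠ 0 → J w ((B e e)⁻¹ • m e e) = lam w := by
      intro w hw
      have hw0 : w ≠ 0 := by
        rintro rfl
        exact hw (map_zero _)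
      have hg : B e (w - (B e w / B e e) • e) = 0 := by
        rw [map_sub, map_smul, smul_eq_mul]
        field_simp
        ring
      have h1 := e_perp hJ Bs Bp ms star assoc he hmax hg
      rw [map_sub, map_smul, sub_eq_zero] at h1
      have h2 := star e w hw0
      rw [h1, map_smul, smul_eq_mul] at h2
      rw [map_smul, smul_eq_mul]
      have h3 : B e w * J w (m e e) = B e w * (lam w * B e e) := by
        have h4 : B e w * J w (m e e) = B e e * (B e w / B e e * J w (m e e)) := by
          field_simp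
        rw [h4, h2]
        ring
      rw [mul_left_cancel₀ hw h3]
      field_simp
    -- approximation of `w` by `w + t e`
    have hne : ∀ w, B e w = 0 → ∀ t : ℝ, t ≠ 0 → B e (w + t • e) ≠ 0 := by
      intro w hw t ht
      rw [map_add, map_smul, hw, zero_add, smul_eq_mul]
      exact mul_ne_zero ht hβ.ne'
    have hsk : ∀ a w, B e w ≠ 0 → J w (m a w - B a w • ((B e e)⁻¹ • m e e)) = 0 := by
      intro a w hw
      have hw0 : w ≠ 0 := by
        rintro rfl
        exact hw (map_zero _)
      rw [map_sub, map_smul, hz w hw, star a w hw0, smul_eq_mul]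
      ring
    have hsk' : ∀ a w, J w (m a w - B a w • ((B e e)⁻¹ • m e e)) = 0 := by
      intro a w
      by_cases hw : B e w = 0
      swap
      · exact hsk a w hw
      by_cases hw0 : w = 0
      · rw [hw0, map_zero, map_zero, zero_smul, sub_zero, map_zero]
      have hc : Tendsto (fun t : ℝ => J (w + t • e) (m a (w + t • e) -
          B a (w + t • e) • ((B e e)⁻¹ • m e e))) (𝓝[≠] 0)
          (𝓝 (J w (m a (w + (0 : ℝ) • e) - B a (w + (0 : ℝ) • e) • ((B e e)⁻¹ • m e e)))) :=
        Alg2_lim hJU hw0 e (fun t => m a (w + t • e) -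
          B a (w + t • e) • ((B e e)⁻¹ • m e e)) (by fun_prop)
      rw [zero_smul, add_zero] at hc
      refine tendsto_nhds_unique hc ?_
      refine (tendsto_const_nhds (x := (0 : ℝ))).congr' ?_
      filter_upwards [self_mem_nhdsWithin] with t ht
      exact (hsk a _ (hne w hw t ht)).symm
    refine ⟨(B e e)⁻¹ • m e e, ?_, ?_⟩
    · generalize hzz : (B e e)⁻¹ • m e e = z at hz ⊢
      by_cases hz0 : z = 0
      · rw [hz0, norm_zero]
        exact hΛ
      by_cases hBz : B e z = 0
      · have hc : Tendsto (fun t : ℝ => J (z + t • e) z) (𝓝[≠] 0) (𝓝 (J z z)) :=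
          Alg2_lim hJU hz0 e (fun _ => z) continuousAt_const
        rw [hJ.self] at hc
        refine le_of_tendsto hc ?_
        filter_upwards [self_mem_nhdsWithin] with t ht
        rw [hz _ (hne z hBz t ht)]
        exact (le_abs_self _).trans (hlam _)
      · rw [← hJ.self z, hz z hBz]
        exact (le_abs_self _).trans (hlam _)
    · let m' : V →L[ℝ] V →L[ℝ] V :=
        m - (ContinuousLinearMap.smulRightL ℝ V V).flip ((B e e)⁻¹ • m e e) ∘L B
      have hm' : ∀ u v, m' u v = m u v - B u v • ((B e e)⁻¹ • m e e) := by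
        intro u v
        simp only [m', sub_apply, ContinuousLinearMap.comp_apply, ContinuousLinearMap.flip_apply]
        rfl
      have hk := kill hJ ⊤ isClosed_univ m' (by
        intro u v
        rw [hm', hm', ms u v, Bs u v]) (fun _ _ _ _ => trivial) (by
        intro u _ w
        rw [hm']
        exact hsk' u w)
      intro u v
      have h := hk u trivial v trivial
      rw [hm', sub_eq_zero] at h
      exact h

end P084GII
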