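import Vale.Agent.Lib.P084G.II.CaseG1

/-! Part II, case G (uniformly smooth, not 2-uniformly smooth): there are approximately rigid points. -/

open Filter Topology

namespace P084GII

open Vale.Agent.P084G

variable {X Y : Type*} [NormedAddCommGroup X] [NormedSpace ℝ X] [NormedAddCommGroup Y]
  [NormedSpace ℝ Y] {J : X → X →L[ℝ] ℝ} {K : Y → Y →L[ℝ] ℝ} {T : X → Y} {S : Y → X} {C C' : ℝ}

private theorem CaseG_dz (h : HI T S) {p y : X} (hp : ‖p‖ = 1) (hy : ‖y‖ = 1) :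
    ‖T p - T y‖ = ‖p - y‖ := h.dist p y (by rw [hp, hy])

private theorem CaseG_lam (hJ : Dual J) (hK : Dual K) (h : HI T S) {p y : X} (hp : ‖p‖ = 1)
    (hy : ‖y‖ = 1) : K (T p - T y) (T y) - J (p - y) y = K (T p - T y) (T p) - J (p - y) p := by
  have h1 := hK.self (T p - T y)
  have h2 := hJ.self (p - y)
  have h3 := CaseG_dz h hp hy
  rw [map_sub] at h1 h2
  linarith

/-- change of `y` to a nearby point -/
private theorem CaseG_move (hJ : Dual J) (hK : Dual K) (h : HI T S) {p y y' : X}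
    (hy : ‖y‖ = 1) (hy' : ‖y'‖ = 1) {ρ ε₁ : ℝ} (hyy : ‖y' - y‖ ≤ ρ)
    (h1 : ‖J (p - y) - J (p - y')‖ ≤ ε₁) (h2 : ‖K (T p - T y) - K (T p - T y')‖ ≤ ε₁) :
    |(K (T p - T y) (T y) - J (p - y) y) - (K (T p - T y') (T y') - J (p - y') y')|
      ≤ 2 * ε₁ + 2 * ρ := by
  have hT : ‖T y' - T y‖ ≤ ρ := by rw [h.dist y' y (by rw [hy, hy'])]; exact hyy
  have a1 : |(K (T p - T y) - K (T p - T y')) (T y')| ≤ ε₁ := by
    have := (K (T p - T y) - K (T p - T y')).le_opNorm (T y')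
    rw [h.norm, hy', mul_one] at this
    exact this.trans h2
  have a2 : |(J (p - y) - J (p - y')) y'| ≤ ε₁ := by
    have := (J (p - y) - J (p - y')).le_opNorm y'
    rw [hy', mul_one] at this
    exact this.trans h1
  have a3 : |K (T p - T y) (T y' - T y)| ≤ ρ := (hK.abs_le _ _).trans hT
  have a4 : |J (p - y) (y' - y)| ≤ ρ := (hJ.abs_le _ _).trans hyy
  rw [sub_apply] at a1 a2
  rw [map_sub] at a3 a4
  rw [abs_le] at a1 a2 a3 a4 ⊢
  constructor <;> linarith [a1.1, a1.2, a2.1, a2.2, a3.1, a3.2, a4.1, a4.2]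

private theorem CaseG_app {φ ψ : Y →L[ℝ] ℝ} {ε₁ : ℝ} (h : ‖φ - ψ‖ ≤ ε₁) (E : Y) :
    |φ E - ψ E| ≤ ε₁ * ‖E‖ := by
  have h1 := (φ - ψ).le_opNorm E
  rw [sub_apply] at h1
  exact h1.trans (mul_le_mul_of_nonneg_right h (norm_nonneg E))

private theorem CaseG_up (hJ : Dual J) (hK : Dual K) (h : HI T S) {p v y y' : X} (hp : ‖p‖ = 1)
    (hv : J p v = 0) (hy : ‖y‖ = 1) (hy' : ‖y'‖ = 1) {ρ ε : ℝ} (hε : 0 < ε)
    (hyy : ‖y' - y‖ ≤ ρ) (hρ : ρ ≤ ε / 8) (n1 : ‖J (p - y) - J (p - y')‖ ≤ ε / 8)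
    (n2 : ‖K (T p - T y) - K (T p - T y')‖ ≤ ε / 8)
    (hb : ∀ b : X, ‖b‖ ≤ 2 * ‖v‖ → ‖J (p - y') - J (p - y' + b)‖ ≤ ε / 8)
    (hsd : sd (p - y') v ≤ ε / 8 * sd p v) :
    K (T p - T y) (T (p + v) + T (p - v) - (2 : ℝ) • T p)
        - sd p v * (K (T p - T y) (T y) - J (p - y) y)
      ≤ ε * (sd p v + ‖T (p + v) + T (p - v) - (2 : ℝ) • T p‖) := by
  have u1 := g_upper (K := K) hJ hK h hp hv hy' (e := ε / 8) hb
  have m1 := (abs_le.1 (CaseG_move hJ hK h hy hy' hyy n1 n2)).1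
  have m2 := (abs_le.1 (CaseG_app n2 (T (p + v) + T (p - v) - (2 : ℝ) • T p))).2
  have hD0 : 0 ≤ sd p v := sd_nonneg p v
  have hE0 := norm_nonneg (T (p + v) + T (p - v) - (2 : ℝ) • T p)
  generalize T (p + v) + T (p - v) - (2 : ℝ) • T p = E at *
  generalize sd p v = D at *
  have m3 : D * (K (T p - T y') (T y') - J (p - y') y') ≤
      D * ((K (T p - T y) (T y) - J (p - y) y) + ε / 2) :=
    mul_le_mul_of_nonneg_left (by linarith) hD0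
  rw [mul_add] at m3 ⊢
  have m4 : 0 ≤ ε * D := mul_nonneg hε.le hD0
  have m5 : 0 ≤ ε * ‖E‖ := mul_nonneg hε.le hE0
  linarith

private theorem CaseG_lo (hJ : Dual J) (hK : Dual K) (h : HI T S) {p v y y' : X} (hp : ‖p‖ = 1)
    (hv : J p v = 0) (hy : ‖y‖ = 1) (hy' : ‖y'‖ = 1) {ρ ε : ℝ} (hε : 0 < ε)
    (hyy : ‖y' - y‖ ≤ ρ) (hρ : ρ ≤ ε / 8) (n1 : ‖J (p - y) - J (p - y')‖ ≤ ε / 8)
    (n2 : ‖K (T p - T y) - K (T p - T y')‖ ≤ ε / 8)
    (hb : ∀ a : Y, ‖a‖ ≤ 4 * ‖v‖ → ‖K (T p - T y') - K (T p - T y' + a)‖ ≤ ε / 8)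
    (hsd : sd (T p - T y') (T (p + v) - T p) ≤ ε / 8 * sd p v) :
    -(ε * (sd p v + ‖T (p + v) + T (p - v) - (2 : ℝ) • T p‖)) ≤
    K (T p - T y) (T (p + v) + T (p - v) - (2 : ℝ) • T p)
        - sd p v * (K (T p - T y) (T y) - J (p - y) y) := by
  have u1 := g_lower (J := J) hJ hK h hp hv hy' (e := ε / 8) hb
  have m1 := (abs_le.1 (CaseG_move hJ hK h hy hy' hyy n1 n2)).2
  have m2 := (abs_le.1 (CaseG_app n2 (T (p + v) + T (p - v) - (2 : ℝ) • T p))).1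
  have hD0 : 0 ≤ sd p v := sd_nonneg p v
  have hE0 := norm_nonneg (T (p + v) + T (p - v) - (2 : ℝ) • T p)
  generalize T (p + v) + T (p - v) - (2 : ℝ) • T p = E at *
  generalize sd p v = D at *
  have m3 : D * ((K (T p - T y) (T y) - J (p - y) y) - ε / 2) ≤
      D * (K (T p - T y') (T y') - J (p - y') y') :=
    mul_le_mul_of_nonneg_left (by linarith) hD0
  rw [mul_sub] at m3
  have m4 : 0 ≤ ε * D := mul_nonneg hε.le hD0
  have m5 : 0 ≤ ε * ‖E‖ := mul_nonneg hε.le hE0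
  rw [mul_add] at u1 ⊢
  linarith

/-- the constants -/
private theorem CaseG_const {g d ε : ℝ} (hg : 0 < g) (hd : 0 < d) (hε : 0 < ε) :
    ∃ s : ℝ, 0 < s ∧ s ≤ g / 2 ∧ 4 / g * s ≤ g ∧
      4 / g * s ≤ ε / 8 ∧ 4 / g * s ≤ d * (2 * g) := by
  refine ⟨min (g / 2) (g / 4 * min g (min (ε / 8) (d * (2 * g)))), by positivity,
    min_le_left _ _, ?_, ?_, ?_⟩
  all_goals
    refine (mul_le_mul_of_nonneg_left (min_le_right _ _) (by positivity)).trans ?_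
    have e1 : ∀ t : ℝ, 4 / g * (g / 4 * t) = t := fun t => by field_simp
    rw [e1]
  · exact min_le_left _ _
  · exact (min_le_right _ _).trans (min_le_left _ _)
  · exact (min_le_right _ _).trans (min_le_right _ _)

private theorem CaseG_N {g d ε s : ℝ} (hg : 0 < g) (hd : 0 < d) (hε : 0 < ε) (hs : 0 < s) :
    ∃ N : ℝ, 0 < N ∧ ∀ v D : ℝ, 0 ≤ v → N * v ^ 2 ≤ D → v ≤ 1 / N →
      4 * v ≤ d * g ∧ 144 * v ^ 2 / s ≤ ε / 8 * D := by
  refine ⟨1152 / (s * ε) + 4 / (d * g) + 1, by positivity, ?_⟩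
  intro v D hv0 hNv hvN
  set N := 1152 / (s * ε) + 4 / (d * g) + 1 with hN
  have hN0 : 0 < N := by positivity
  have hN1 : 1152 ≤ N * (s * ε) := by
    have e1 : 1152 / (s * ε) ≤ N := by
      have : 0 < 4 / (d * g) := by positivity
      linarith
    rwa [div_le_iff₀ (by positivity)] at e1
  have hN2 : 4 ≤ N * (d * g) := by
    have e1 : 4 / (d * g) ≤ N := by
      have : 0 < 1152 / (s * ε) := by positivity
      linarith
    rwa [div_le_iff₀ (by positivity)] at e1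
  constructor
  · have e1 : v * N ≤ 1 := (le_div_iff₀ hN0).1 hvN
    have e3 : 4 * v * N ≤ d * g * N := by linarith
    exact le_of_mul_le_mul_right e3 hN0
  · rw [div_le_iff₀ hs]
    have e1 : 1152 * v ^ 2 ≤ N * (s * ε) * v ^ 2 :=
      mul_le_mul_of_nonneg_right hN1 (by positivity)
    have e2 : (s * ε) * (N * v ^ 2) ≤ (s * ε) * D :=
      mul_le_mul_of_nonneg_left hNv (by positivity)
    linarith

/-- a point of `X` with a good image -/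
private theorem CaseG_goodY (h : HI T S) {p y v : X} (hp : ‖p‖ = 1) (hy : ‖y‖ = 1) {g s : ℝ}
    (hg : 0 < g) (hgap' : ‖T p + T y‖ ≤ 2 - 2 * g) (hs0 : 0 < s) (hs1 : s ≤ g / 2) :
    ∃ y' : X, ‖y'‖ = 1 ∧ ‖y' - y‖ ≤ 4 / g * s ∧
        sd (T p - T y') (T (p + v) - T p) ≤ 144 * ‖v‖ ^ 2 / s := by
  rcases eq_or_ne (T (p + v) - T p) 0 with h0 | h0
  · refine ⟨y, hy, by rw [sub_self, norm_zero]; positivity, ?_⟩
    rw [h0]
    have e1 : sd (T p - T y) (0 : Y) = 0 := by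
      unfold sd
      rw [add_zero, sub_zero]
      ring
    rw [e1]
    positivity
  · have hTp : ‖T p‖ = 1 := by rw [h.norm, hp]
    have hTy : ‖T y‖ = 1 := by rw [h.norm, hy]
    obtain ⟨w, hw, hww, hsd⟩ := g_good hTp hTy h0 hg hgap' hs0 hs1
    have hSw : ‖S w‖ = 1 := by rw [h.symm.norm, hw]
    refine ⟨S w, hSw, ?_, ?_⟩
    · rw [← h.dist (S w) y (by rw [hSw, hy]), h.TS]
      exact hww
    · rw [h.TS]
      refine hsd.trans (div_le_div_of_nonneg_right ?_ hs0.le)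
      have e1 : ‖T (p + v) - T p‖ ≤ 3 * ‖v‖ := by
        have := h.lip (p + v) p
        rwa [add_sub_cancel_left] at this
      have e2 : ‖T (p + v) - T p‖ ^ 2 ≤ (3 * ‖v‖) ^ 2 :=
        pow_le_pow_left₀ (norm_nonneg _) e1 2
      rw [mul_pow] at e2
      linarith

/-- **One point.**  For every gap `g > 0` and `ε > 0` there is `N` such that for every unit `p` and tangential `v ≠ 0` with
`N ‖v‖^2 ≤ sd p v`, `‖v‖ ≤ 1/N`, and every unit `y` with `‖p + y‖ ≤ 2 - 2 g`, `‖T p + T y‖ ≤ 2 - 2 g`: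
`|K z' E - D λ| ≤ ε (D + ‖E‖)`, `D = sd p v`, `E = T (p + v) + T (p - v) - 2 T p`, `λ = K z' (T y) - J z y`.
Proof: choose `s` small (real) so that moving `y` by `(4/g) s` (and `T y` by `(4/g) s`) changes `J z`, `K z'`, `λ` by `≤ ε/8`
(`DualU.unif'` at `z`, `z'`; `‖z‖ ≥ 2 g`), then `N` large: `v`-small so that `e ≤ ε/8` in `g_upper`/`g_lower`, and
`16 * (3 ‖v‖)^2 / s ≤ (144 / (s N)) D ≤ (ε/8) D`.  Upper bound: `g_good` at `y` with `v`, `g_upper` at `y'`.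
Lower bound: `g_good` in `Y` at `T y` with the vector `T (p + v) - T p` (norm `≤ 3 ‖v‖`; if it is `0` trivial), `y' = S (...)`,
`g_lower` at `y'`. -/
theorem g_point (hJ : DualU J) (hK : DualU K) (h : HI T S) {g ε : ℝ} (hg : 0 < g) (hε : 0 < ε) :
    ∃ N : ℝ, 0 < N ∧ ∀ p v y : X, ‖p‖ = 1 → J p v = 0 → v ≠ 0 → N * ‖v‖ ^ 2 ≤ sd p v →
      ‖v‖ ≤ 1 / N → ‖y‖ = 1 → ‖p + y‖ ≤ 2 - 2 * g → ‖T p + T y‖ ≤ 2 - 2 * g →
      |K (T p - T y) (T (p + v) + T (p - v) - (2 : ℝ) • T p)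
          - sd p v * (K (T p - T y) (T y) - J (p - y) y)|
        ≤ ε * (sd p v + ‖T (p + v) + T (p - v) - (2 : ℝ) • T p‖) := by
  have hε8 : 0 < ε / 8 := by positivity
  obtain ⟨d1, hd1, hd1'⟩ := hJ.unif' hε8
  obtain ⟨d2, hd2, hd2'⟩ := hK.unif' hε8
  set d := min d1 d2 with hd
  have hd0 : 0 < d := lt_min hd1 hd2
  have hdJ : ∀ x y : X, x ≠ 0 → ‖x - y‖ ≤ d * ‖x‖ → ‖J x - J y‖ ≤ ε / 8 := fun x y hx hxy =>
    hd1' x y hx (hxy.trans (mul_le_mul_of_nonneg_right (min_le_left _ _) (norm_nonneg _)))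
  have hdK : ∀ x y : Y, x ≠ 0 → ‖x - y‖ ≤ d * ‖x‖ → ‖K x - K y‖ ≤ ε / 8 := fun x y hx hxy =>
    hd2' x y hx (hxy.trans (mul_le_mul_of_nonneg_right (min_le_right _ _) (norm_nonneg _)))
  obtain ⟨s, hs0, hs1, hs2, hs3, hs4⟩ := CaseG_const hg hd0 hε
  obtain ⟨N, hN0, hN⟩ := CaseG_N hg hd0 hε hs0
  refine ⟨N, hN0, ?_⟩
  intro p v y hp hv hv0 hNv hvN hy hgap hgap'
  obtain ⟨hv4, hsm⟩ := hN ‖v‖ (sd p v) (norm_nonneg v) hNv hvN
  have hz : 2 * g ≤ ‖p - y‖ := by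
    have e1 : (2 : ℝ) • p = (p - y) + (p + y) := by module
    have e2 := norm_add_le (p - y) (p + y)
    rw [← e1, norm_smul, hp, Real.norm_of_nonneg (by norm_num : (0 : ℝ) ≤ 2)] at e2
    linarith
  have hz0 : p - y ≠ 0 := by
    intro e
    rw [e, norm_zero] at hz
    linarith
  have hz' : ‖T p - T y‖ = ‖p - y‖ := CaseG_dz h hp hy
  have hz0' : T p - T y ≠ 0 := by
    intro e
    rw [e, norm_zero] at hz'
    linarith
  have hd2g : d * (2 * g) ≤ d * ‖p - y‖ := mul_le_mul_of_nonneg_left hz hd0.le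
  -- a nearby point
  have near : ∀ y' : X, ‖y'‖ = 1 → ‖y' - y‖ ≤ 4 / g * s →
      ‖J (p - y) - J (p - y')‖ ≤ ε / 8 ∧ ‖K (T p - T y) - K (T p - T y')‖ ≤ ε / 8 ∧
        g ≤ ‖p - y'‖ := by
    intro y' hy' hyy
    have hT : ‖T y' - T y‖ ≤ 4 / g * s := by rw [h.dist y' y (by rw [hy, hy'])]; exact hyy
    refine ⟨hdJ _ _ hz0 ?_, hdK _ _ hz0' ?_, ?_⟩
    · have e1 : p - y - (p - y') = y' - y := by abel
      rw [e1]
      linarith
    · have e1 : T p - T y - (T p - T y') = T y' - T y := by abel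
      rw [e1, hz']
      linarith
    · have e1 : ‖p - y‖ ≤ ‖p - y'‖ + ‖y' - y‖ := norm_sub_le_norm_sub_add_norm_sub _ _ _
      linarith
  refine abs_le.2 ⟨?_, ?_⟩
  · obtain ⟨y', hy', hyy, hsd⟩ := CaseG_goodY (v := v) h hp hy hg hgap' hs0 hs1
    obtain ⟨n1, n2, n3⟩ := near y' hy' hyy
    have n5 : ‖T p - T y'‖ = ‖p - y'‖ := CaseG_dz h hp hy'
    have n4 : T p - T y' ≠ 0 := by
      intro e
      rw [e, norm_zero] at n5
      linarith
    refine CaseG_lo hJ.toDual hK.toDual h hp hv hy hy' hε hyy hs3 n1 n2 ?_ (hsd.trans hsm)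
    intro a ha
    refine hdK _ _ n4 ?_
    have e1 : T p - T y' - (T p - T y' + a) = -a := by abel
    rw [e1, norm_neg, n5]
    have e2 : d * g ≤ d * ‖p - y'‖ := mul_le_mul_of_nonneg_left n3 hd0.le
    linarith
  · obtain ⟨y', hy', hyy, hsd⟩ := g_good hp hy hv0 hg hgap hs0 hs1
    obtain ⟨n1, n2, n3⟩ := near y' hy' hyy
    have n4 : p - y' ≠ 0 := by
      intro e
      rw [e, norm_zero] at n3
      linarith
    have m5 : 16 * ‖v‖ ^ 2 / s ≤ 144 * ‖v‖ ^ 2 / s := by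
      apply div_le_div_of_nonneg_right _ hs0.le
      linarith [sq_nonneg ‖v‖]
    refine CaseG_up hJ.toDual hK.toDual h hp hv hy hy' hε hyy hs3 n1 n2 ?_
      (hsd.trans (m5.trans hsm))
    intro b hb
    refine hdJ _ _ n4 ?_
    have e1 : p - y' - (p - y' + b) = -b := by abel
    rw [e1, norm_neg]
    have e2 : d * g ≤ d * ‖p - y'‖ := mul_le_mul_of_nonneg_left n3 hd0.le
    linarith [norm_nonneg v]

/-- **Case G.**  Given `δ` (wlog small) put `g = min (δ/2) (1/36)`, squared appropriately (`gap_image`: `‖p + y‖ ≤ 2 - 2 g`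
implies `‖T p + T y‖ ≤ 2 - g^2/4`), `ε` small; `N` from `g_point`.  By hypothesis (`¬ US2 X C` for all `C`) and `g_tan`
there are `p`, `v` as in `g_point` (from `C ‖h‖^2 < sd x h ≤ 2 ‖h‖`).  `w = (sd p v)⁻¹ • E`.  Bound of `w`:
`bls` at `T p`, `ξ = w`, `y = S y0`: `‖w‖ ≤ 16 (2 + ε (1 + ‖w‖))`, so `‖w‖ ≤ 48` for `ε ≤ 1/48`.  Finally
`K z' (T y) - J z y = K z' (T p) - J z p` since `K z' z' = ‖z'‖ = ‖z‖ = J z z`. -/
theorem caseG (hJ : DualU J) (hK : DualU K) (h : HI T S) (hX : ∀ C : ℝ, ¬ US2 X C) :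
    AR T J K := by
  refine ⟨49, fun δ hδ => ?_⟩
  obtain ⟨g₀, hg₀, hg₁, hg₂⟩ : ∃ g₀ : ℝ, 0 < g₀ ∧ g₀ ≤ δ / 2 ∧ g₀ ≤ 1 / 36 :=
    ⟨min (δ / 2) (1 / 36), by positivity, min_le_left _ _, min_le_right _ _⟩
  obtain ⟨ε, hε, hε₁, hε₂⟩ : ∃ ε : ℝ, 0 < ε ∧ ε ≤ 1 / 48 ∧ ε ≤ δ / 50 :=
    ⟨min (1 / 48) (δ / 50), by positivity, min_le_left _ _, min_le_right _ _⟩
  have hg : 0 < g₀ ^ 2 / 8 := by positivity
  obtain ⟨N, hN0, hN⟩ := g_point hJ hK h hg hε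
  have hX' := hX (24 * N + 4)
  unfold US2 at hX'
  push Not at hX'
  obtain ⟨x, k, hx, hk⟩ := hX'
  have hk0 : k ≠ 0 := by
    intro e
    rw [e] at hk
    unfold sd at hk
    rw [norm_zero, add_zero, sub_zero] at hk
    linarith
  have hkn : 0 < ‖k‖ := norm_pos_iff.2 hk0
  have hk2 : (24 * N + 4) * ‖k‖ < 2 := by
    have e1 := sd_le x k
    have e2 : ((24 * N + 4) * ‖k‖) * ‖k‖ < 2 * ‖k‖ := by nlinarith
    exact lt_of_mul_lt_mul_right e2 hkn.le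
  have hk3 : ‖k‖ ≤ 1 / 2 := by nlinarith
  obtain ⟨v, hv1, hv2, hv3⟩ := g_tan hJ.toDual hx hk3
  have hNv : N * ‖v‖ ^ 2 ≤ sd x v := by
    have e1 : ‖v‖ ^ 2 ≤ (4 * ‖k‖) ^ 2 := pow_le_pow_left₀ (norm_nonneg _) hv2 2
    have e2 : N * ‖v‖ ^ 2 ≤ N * (4 * ‖k‖) ^ 2 := mul_le_mul_of_nonneg_left e1 hN0.le
    nlinarith [sq_nonneg ‖k‖]
  have hv0 : v ≠ 0 := by
    intro e
    rw [e] at hv3
    have e1 : sd x (0 : X) = 0 := by
      unfold sd
      rw [add_zero, sub_zero]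
      ring
    rw [e1] at hv3
    have e2 : 0 < (24 * N + 4) * ‖k‖ ^ 2 := by positivity
    linarith
  have hvn : 0 < ‖v‖ := norm_pos_iff.2 hv0
  have hvN : ‖v‖ ≤ 1 / N := by
    rw [le_div_iff₀ hN0]
    nlinarith
  set D := sd x v with hD
  have hD0 : 0 < D := lt_of_lt_of_le (by positivity) hNv
  set E := T (x + v) + T (x - v) - (2 : ℝ) • T x with hE
  set w := D⁻¹ • E with hw
  have hTx : ‖T x‖ = 1 := by rw [h.norm, hx]
  -- the basic inequality divided by `D`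
  have main : ∀ y : X, ‖y‖ = 1 → ‖x + y‖ ≤ 2 - 2 * (g₀ ^ 2 / 8) →
      ‖T x + T y‖ ≤ 2 - 2 * (g₀ ^ 2 / 8) →
      |K (T x - T y) w - (K (T x - T y) (T y) - J (x - y) y)| ≤ ε * (1 + ‖w‖) := by
    intro y hy h1 h2
    have h3 := hN x v y hx hv1 hv0 hNv hvN hy h1 h2
    rw [← hE, ← hD] at h3
    have e1 : K (T x - T y) w = D⁻¹ * K (T x - T y) E := by rw [hw, map_smul, smul_eq_mul]
    have e2 : ‖w‖ = D⁻¹ * ‖E‖ := by
      rw [hw, norm_smul, norm_inv, Real.norm_of_nonneg hD0.le]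
    have e3 : K (T x - T y) w - (K (T x - T y) (T y) - J (x - y) y) =
        D⁻¹ * (K (T x - T y) E - D * (K (T x - T y) (T y) - J (x - y) y)) := by
      rw [e1, mul_sub, inv_mul_cancel_left₀ hD0.ne']
    have e4 : ε * (1 + ‖w‖) = D⁻¹ * (ε * (D + ‖E‖)) := by
      rw [e2]
      field_simp
    rw [e3, e4, abs_mul, abs_of_pos (inv_pos.2 hD0)]
    exact mul_le_mul_of_nonneg_left h3 (inv_pos.2 hD0).le
  have hwC : ‖w‖ ≤ 49 := by
    obtain ⟨y0, hy0, h1, -, h3⟩ := bls hK.toDual hTx w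
    have hSy : ‖S y0‖ = 1 := by rw [h.symm.norm, hy0]
    have hgg : g₀ ^ 2 / 8 ≤ (1 / 36 : ℝ) ^ 2 / 8 :=
      div_le_div_of_nonneg_right (pow_le_pow_left₀ hg₀.le hg₂ 2) (by norm_num)
    have h4 : ‖T x + T (S y0)‖ ≤ 2 - 2 * (g₀ ^ 2 / 8) := by
      rw [h.TS]
      norm_num at hgg h1 ⊢
      linarith
    have h5 : ‖x + S y0‖ ≤ 2 - 2 * (g₀ ^ 2 / 8) := by
      have e1 := gap_image h.symm.siso hTx hy0 (c := 1 / 36) (by norm_num) (by
        norm_num at h1 ⊢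
        linarith)
      rw [h.ST] at e1
      linarith
    have h6 := main (S y0) hSy h5 h4
    rw [h.TS] at h6
    have h7 : |K (T x - y0) y0| ≤ 1 := (hK.abs_le _ _).trans hy0.le
    have h8 : |J (x - S y0) (S y0)| ≤ 1 := (hJ.abs_le _ _).trans hSy.le
    have h9 : |K (T x - y0) w| ≤ 2 + ε * (1 + ‖w‖) := by
      rw [abs_le] at h6 h7 h8 ⊢
      constructor <;> linarith [h6.1, h6.2, h7.1, h7.2, h8.1, h8.2]
    have h10 : ε * (1 + ‖w‖) ≤ 1 / 48 * (1 + ‖w‖) :=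
      mul_le_mul_of_nonneg_right hε₁ (by positivity)
    linarith
  refine ⟨x, w, hx, hwC, fun y hy hxy => ?_⟩
  have h1 : ‖x + y‖ ≤ 2 - 2 * g₀ := by linarith
  have h2 := gap_image h.siso hx hy hg₀.le h1
  have h3 : g₀ ^ 2 / 8 ≤ g₀ := by nlinarith
  have h4 := main y hy (by linarith) h2
  rw [CaseG_lam hJ.toDual hK.toDual h hx hy] at h4
  refine h4.trans ?_
  have h5 : ε * (1 + ‖w‖) ≤ δ / 50 * (1 + ‖w‖) :=
    mul_le_mul_of_nonneg_right hε₂ (by positivity)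
  nlinarith

end P084GII
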