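import Vale.Agent.Lib.P084G.II.SmA
import Vale.Agent.Lib.P084G.II.HomT
import Vale.Agent.Lib.P084G.A.Reproj

/-! Part II, case G (uniformly smooth, not 2-uniformly smooth): the elementary inequalities. -/

open Filter Topology

namespace P084GII

variable {X Y : Type*} [NormedAddCommGroup X] [NormedSpace ℝ X] [NormedAddCommGroup Y]
  [NormedSpace ℝ Y] {J : X → X →L[ℝ] ℝ} {K : Y → Y →L[ℝ] ℝ} {T : X → Y} {S : Y → X} {C C' : ℝ}

/-- Tangential reduction.  `s = J x h`, `h0 = h - s x`, `v = 2 h0`.  With `φ k = ‖x + k‖ - 1 ≥ 0` on `ker (J x)`, convex,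
`φ 0 = 0`: `sd x h = (1+s) φ (h0/(1+s)) + (1-s) φ (-h0/(1-s)) ≤ (3/2) (φ (2 h0) + φ (-2 h0))` as `|s| ≤ 1/2`. -/
theorem g_tan (hJ : Dual J) {x h : X} (hx : ‖x‖ = 1) (hh : ‖h‖ ≤ 1 / 2) :
    ∃ v : X, J x v = 0 ∧ ‖v‖ ≤ 4 * ‖h‖ ∧ sd x h ≤ (3 / 2) * sd x v := by
  have hs := hJ.abs_le x h
  set s : ℝ := J x h with hsdef
  have hs' := abs_le.1 hs
  refine ⟨(2 : ℝ) • (h - s • x), ?_, ?_, ?_⟩
  · rw [map_smul, map_sub, map_smul, hJ.self, hx, ← hsdef]
    simp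
  · rw [norm_smul, Real.norm_of_nonneg (by norm_num : (0 : ℝ) ≤ 2)]
    have h1 : ‖h - s • x‖ ≤ ‖h‖ + |s| := by
      refine (norm_sub_le _ _).trans ?_
      rw [norm_smul, hx, mul_one, Real.norm_eq_abs]
    linarith
  · have e1 : x + h = (1 / 2 : ℝ) • (x + (2 : ℝ) • (h - s • x)) + (1 / 2 + s) • x := by module
    have e2 : x - h = (1 / 2 : ℝ) • (x - (2 : ℝ) • (h - s • x)) + (1 / 2 - s) • x := by module
    have h1 : ‖x + h‖ ≤ 1 / 2 * ‖x + (2 : ℝ) • (h - s • x)‖ + (1 / 2 + s) := by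
      rw [e1]
      refine (norm_add_le _ _).trans ?_
      rw [norm_smul, norm_smul, hx, mul_one, Real.norm_of_nonneg (by norm_num : (0 : ℝ) ≤ 1 / 2),
        Real.norm_of_nonneg (by linarith : (0 : ℝ) ≤ 1 / 2 + s)]
    have h2 : ‖x - h‖ ≤ 1 / 2 * ‖x - (2 : ℝ) • (h - s • x)‖ + (1 / 2 - s) := by
      rw [e2]
      refine (norm_add_le _ _).trans ?_
      rw [norm_smul, norm_smul, hx, mul_one, Real.norm_of_nonneg (by norm_num : (0 : ℝ) ≤ 1 / 2),
        Real.norm_of_nonneg (by linarith : (0 : ℝ) ≤ 1 / 2 - s)]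
    have h3 := sd_nonneg x ((2 : ℝ) • (h - s • x))
    unfold sd at h3 ⊢
    rw [hx] at h3 ⊢
    linarith

private theorem CaseG1_ge (hJ : Dual J) {p v : X} (hp : ‖p‖ = 1) (hv : J p v = 0) :
    1 ≤ ‖p + v‖ := by
  have h := hJ.lower p v
  rw [hp, hv] at h
  linarith

private theorem CaseG1_ge' (hJ : Dual J) {p v : X} (hp : ‖p‖ = 1) (hv : J p v = 0) :
    1 ≤ ‖p - v‖ := by
  have h : J p (-v) = 0 := by rw [map_neg, hv, neg_zero]
  have h1 := CaseG1_ge hJ hp h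
  rwa [← sub_eq_add_neg] at h1

/-- one side of the upper inequality -/
private theorem CaseG1_side (hJ : Dual J) {z b y w : X} {r e : ℝ} (hr : 0 ≤ r)
    (hy : ‖y‖ ≤ 1) (hw : w = z + b + r • y) (he : ‖J z - J (z + b)‖ ≤ e) :
    ‖z + b‖ ≤ ‖w‖ - r * (J z y - e) := by
  have h1 := hJ.lower (z + b) (r • y)
  rw [← hw, map_smul, smul_eq_mul] at h1
  have h2 : J z y - J (z + b) y ≤ e := by
    have h3 : (J z - J (z + b)) y = J z y - J (z + b) y := rfl
    rw [← h3]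
    have h4 := (J z - J (z + b)).le_opNorm y
    have h5 := le_abs_self ((J z - J (z + b)) y)
    rw [Real.norm_eq_abs] at h4
    have h6 : ‖J z - J (z + b)‖ * ‖y‖ ≤ e * 1 :=
      mul_le_mul he hy (norm_nonneg _) ((norm_nonneg _).trans he)
    linarith
  have h7 : r * (J z y - J (z + b) y) ≤ r * e := mul_le_mul_of_nonneg_left h2 hr
  nlinarith

/-- Upper inequality.  `r± = ‖p ± v‖ ≥ 1`, `D = sd p v = (r+ - 1) + (r- - 1)`, `b± = ± v - (r± - 1) y`,
`a± = T (p ± v) - T p - (r± - 1) T y`, `‖z' + a±‖ = ‖z + b±‖` (`HI.rel`), `‖z‖ = ‖z'‖`, `‖b±‖ ≤ 2 ‖v‖`.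
`‖z' + a+‖ + ‖z' + a-‖ ≥ 2 ‖z'‖ + K z' (E - D T y)`, and
`‖z + b±‖ ≤ ‖z ± v‖ - (r± - 1) J (z + b±) y` (`Dual.lower` at `z + b±`). -/
theorem g_upper (hJ : Dual J) (hK : Dual K) (h : HI T S) {p v y : X} (hp : ‖p‖ = 1)
    (hv : J p v = 0) (hy : ‖y‖ = 1) {e : ℝ}
    (he : ∀ b : X, ‖b‖ ≤ 2 * ‖v‖ → ‖J (p - y) - J (p - y + b)‖ ≤ e) :
    K (T p - T y) (T (p + v) + T (p - v) - (2 : ℝ) • T p)
      ≤ sd p v * (K (T p - T y) (T y) - J (p - y) y) + sd (p - y) v + e * sd p v := by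
  have hr1 := CaseG1_ge hJ hp hv
  have hr2 := CaseG1_ge' hJ hp hv
  have hr1' : ‖p + v‖ ≤ 1 + ‖v‖ := by
    have := norm_add_le p v
    rwa [hp] at this
  have hr2' : ‖p - v‖ ≤ 1 + ‖v‖ := by
    have := norm_sub_le p v
    rwa [hp] at this
  have hzz : ‖T p - T y‖ = ‖p - y‖ := h.dist p y (by rw [hp, hy])
  have hrel1 := h.rel (p + v) hy
  have hrel2 := h.rel (p - v) hy
  set r1 := ‖p + v‖ with hr1d
  set r2 := ‖p - v‖ with hr2d
  -- `K` side
  have k1 := hK.lower (T p - T y) (T (p + v) - T p - (r1 - 1) • T y)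
  have k2 := hK.lower (T p - T y) (T (p - v) - T p - (r2 - 1) • T y)
  have e1 : T p - T y + (T (p + v) - T p - (r1 - 1) • T y) = T (p + v) - r1 • T y := by module
  have e2 : T p - T y + (T (p - v) - T p - (r2 - 1) • T y) = T (p - v) - r2 • T y := by module
  rw [e1, hrel1] at k1
  rw [e2, hrel2] at k2
  -- `J` side
  have hb1 : ‖v - (r1 - 1) • y‖ ≤ 2 * ‖v‖ := by
    refine (norm_sub_le _ _).trans ?_
    rw [norm_smul, hy, mul_one, Real.norm_of_nonneg (by linarith)]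
    linarith
  have hb2 : ‖-v - (r2 - 1) • y‖ ≤ 2 * ‖v‖ := by
    refine (norm_sub_le _ _).trans ?_
    rw [norm_smul, hy, mul_one, Real.norm_of_nonneg (by linarith), norm_neg]
    linarith
  have j1 := CaseG1_side hJ (z := p - y) (b := v - (r1 - 1) • y) (y := y)
    (w := p - y + v) (r := r1 - 1) (by linarith) hy.le (by module) (he _ hb1)
  have j2 := CaseG1_side hJ (z := p - y) (b := -v - (r2 - 1) • y) (y := y)
    (w := p - y - v) (r := r2 - 1) (by linarith) hy.le (by module) (he _ hb2)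
  have e3 : p - y + (v - (r1 - 1) • y) = p + v - r1 • y := by module
  have e4 : p - y + (-v - (r2 - 1) • y) = p - v - r2 • y := by module
  rw [e3] at j1
  rw [e4] at j2
  have hsd : sd p v = (r1 - 1) + (r2 - 1) := by
    unfold sd
    rw [hp, ← hr1d, ← hr2d]
    ring
  have hE : K (T p - T y) (T (p + v) - T p - (r1 - 1) • T y) +
      K (T p - T y) (T (p - v) - T p - (r2 - 1) • T y) =
      K (T p - T y) (T (p + v) + T (p - v) - (2 : ℝ) • T p) -
        ((r1 - 1) + (r2 - 1)) * K (T p - T y) (T y) := by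
    simp only [map_sub, map_add, map_smul, smul_eq_mul]
    ring
  have hsdz : sd (p - y) v = ‖p - y + v‖ + ‖p - y - v‖ - 2 * ‖p - y‖ := rfl
  rw [hsd, hsdz]
  rw [hzz] at k1 k2
  nlinarith

/-- Lower inequality.  `a' = T (p + v) - T p`, `T (p - v) - T p = - a' + E`; `‖z + b+‖ + ‖z + b-‖ ≥ 2 ‖z‖ - D J z y`, and
`‖z' + a+‖ ≤ ‖z' + a'‖ - (r+ - 1) K (z' + a+) (T y)`,
`‖z' + a-‖ ≤ ‖z' - a' + E‖ - (r- - 1) K (z' + a-) (T y)`, `‖z' - a' + E‖ ≤ ‖z' - a'‖ + K (z' - a' + E) E`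
(`z' - a' + E = z' + (T (p-v) - T p)`), all increments of norm `≤ 4 ‖v‖` (`HI.lip`). -/
theorem g_lower (hJ : Dual J) (hK : Dual K) (h : HI T S) {p v y : X} (hp : ‖p‖ = 1)
    (hv : J p v = 0) (hy : ‖y‖ = 1) {e : ℝ}
    (he : ∀ a : Y, ‖a‖ ≤ 4 * ‖v‖ → ‖K (T p - T y) - K (T p - T y + a)‖ ≤ e) :
    sd p v * (K (T p - T y) (T y) - J (p - y) y)
        - sd (T p - T y) (T (p + v) - T p)
        - e * (sd p v + ‖T (p + v) + T (p - v) - (2 : ℝ) • T p‖)
      ≤ K (T p - T y) (T (p + v) + T (p - v) - (2 : ℝ) • T p) := by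
  have hr1 := CaseG1_ge hJ hp hv
  have hr2 := CaseG1_ge' hJ hp hv
  have hr1' : ‖p + v‖ ≤ 1 + ‖v‖ := by
    have := norm_add_le p v
    rwa [hp] at this
  have hr2' : ‖p - v‖ ≤ 1 + ‖v‖ := by
    have := norm_sub_le p v
    rwa [hp] at this
  have hzz : ‖T p - T y‖ = ‖p - y‖ := h.dist p y (by rw [hp, hy])
  have hrel1 := h.rel (p + v) hy
  have hrel2 := h.rel (p - v) hy
  have hTy : ‖T y‖ = 1 := by rw [h.norm, hy]
  have hl1 : ‖T (p + v) - T p‖ ≤ 3 * ‖v‖ := by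
    have h1 := h.lip (p + v) p
    rwa [add_sub_cancel_left] at h1
  have hl2 : ‖T (p - v) - T p‖ ≤ 3 * ‖v‖ := by
    have h1 := h.lip (p - v) p
    rwa [sub_sub_cancel_left, norm_neg] at h1
  set r1 := ‖p + v‖ with hr1d
  set r2 := ‖p - v‖ with hr2d
  have hvn := norm_nonneg v
  -- `J` side
  have j1 := hJ.lower (p - y) (v - (r1 - 1) • y)
  have j2 := hJ.lower (p - y) (-v - (r2 - 1) • y)
  have e3 : p - y + (v - (r1 - 1) • y) = p + v - r1 • y := by module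
  have e4 : p - y + (-v - (r2 - 1) • y) = p - v - r2 • y := by module
  rw [e3, ← hrel1] at j1
  rw [e4, ← hrel2] at j2
  -- `K` side
  have ha1 : ‖T (p + v) - T p - (r1 - 1) • T y‖ ≤ 4 * ‖v‖ := by
    refine (norm_sub_le _ _).trans ?_
    rw [norm_smul, hTy, mul_one, Real.norm_of_nonneg (by linarith)]
    linarith
  have ha2 : ‖T (p - v) - T p - (r2 - 1) • T y‖ ≤ 4 * ‖v‖ := by
    refine (norm_sub_le _ _).trans ?_
    rw [norm_smul, hTy, mul_one, Real.norm_of_nonneg (by linarith)]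
    linarith
  have k1 := CaseG1_side hK (z := T p - T y) (b := T (p + v) - T p - (r1 - 1) • T y) (y := T y)
    (w := T p - T y + (T (p + v) - T p)) (r := r1 - 1) (by linarith) hTy.le (by module)
    (he _ ha1)
  have k2 := CaseG1_side hK (z := T p - T y) (b := T (p - v) - T p - (r2 - 1) • T y) (y := T y)
    (w := T p - T y + (T (p - v) - T p)) (r := r2 - 1) (by linarith) hTy.le (by module)
    (he _ ha2)
  have e1 : T p - T y + (T (p + v) - T p - (r1 - 1) • T y) = T (p + v) - r1 • T y := by module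
  have e2 : T p - T y + (T (p - v) - T p - (r2 - 1) • T y) = T (p - v) - r2 • T y := by module
  rw [e1] at k1
  rw [e2] at k2
  set E : Y := T (p + v) + T (p - v) - (2 : ℝ) • T p with hE
  have k3 := hK.lower (T p - T y + (T (p - v) - T p)) (-E)
  have e5 : T p - T y + (T (p - v) - T p) + -E = T p - T y - (T (p + v) - T p) := by
    rw [hE]
    module
  rw [e5, map_neg] at k3
  have k4 : K (T p - T y + (T (p - v) - T p)) E - K (T p - T y) E ≤ e * ‖E‖ := by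
    have h4 := (K (T p - T y) - K (T p - T y + (T (p - v) - T p))).le_opNorm E
    have h5 : (K (T p - T y) - K (T p - T y + (T (p - v) - T p))) E =
        K (T p - T y) E - K (T p - T y + (T (p - v) - T p)) E := rfl
    rw [h5, Real.norm_eq_abs] at h4
    have h6 := neg_abs_le (K (T p - T y) E - K (T p - T y + (T (p - v) - T p)) E)
    have h7 : ‖K (T p - T y) - K (T p - T y + (T (p - v) - T p))‖ * ‖E‖ ≤ e * ‖E‖ :=
      mul_le_mul_of_nonneg_right (he _ (by linarith)) (norm_nonneg E)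
    linarith
  have hsd : sd p v = (r1 - 1) + (r2 - 1) := by
    unfold sd
    rw [hp, ← hr1d, ← hr2d]
    ring
  have hJs : J (p - y) (v - (r1 - 1) • y) + J (p - y) (-v - (r2 - 1) • y) =
      -(((r1 - 1) + (r2 - 1)) * J (p - y) y) := by
    simp only [map_sub, map_smul, map_neg, smul_eq_mul]
    ring
  have hsdz : sd (T p - T y) (T (p + v) - T p) = ‖T p - T y + (T (p + v) - T p)‖ +
      ‖T p - T y - (T (p + v) - T p)‖ - 2 * ‖T p - T y‖ := rfl
  rw [hsd, hsdz, hzz]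
  nlinarith

private theorem CaseG1_conv (z w : X) {c : ℝ} (hc : 0 ≤ c) (hc1 : c ≤ 1) :
    sd z (c • w) ≤ c * sd z w := by
  have h1 : ‖z + c • w‖ ≤ c * ‖z + w‖ + (1 - c) * ‖z‖ := by
    have e : z + c • w = c • (z + w) + (1 - c) • z := by module
    rw [e]
    refine (norm_add_le _ _).trans ?_
    rw [norm_smul, norm_smul, Real.norm_of_nonneg hc, Real.norm_of_nonneg (by linarith)]
  have h2 : ‖z - c • w‖ ≤ c * ‖z - w‖ + (1 - c) * ‖z‖ := by
    have e : z - c • w = c • (z - w) + (1 - c) • z := by module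
    rw [e]
    refine (norm_add_le _ _).trans ?_
    rw [norm_smul, norm_smul, Real.norm_of_nonneg hc, Real.norm_of_nonneg (by linarith)]
  unfold sd
  linarith

/-- Good points (telescoping + `reproj`).  `z k = p - y + k (2 v)`, `k ≤ m = ⌊s / (2 ‖v‖)⌋`:
`∑ sd (z k) (2 v) ≤ 4 ‖v‖` (telescope), so some `k` has `sd (z k) (2 v) ≤ 8 ‖v‖^2 / s`, `‖z k - (p - y)‖ ≤ s ≤ g/2`;
`reproj` gives `y' = p - l z k`, `l ∈ [1/2, 2]`, `sd (l z k) v = l sd (z k) (v/l) ≤ 2 sd (z k) (2 v)` (`sd z (c v)` is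
monotone in `c ≥ 0` by convexity, `1/l ≤ 2`). -/
theorem g_good {p y v : X} (hp : ‖p‖ = 1) (hy : ‖y‖ = 1) (hv : v ≠ 0) {g s : ℝ} (hg : 0 < g)
    (hgap : ‖p + y‖ ≤ 2 - 2 * g) (hs : 0 < s) (hs2 : s ≤ g / 2) :
    ∃ y' : X, ‖y'‖ = 1 ∧ ‖y' - y‖ ≤ (4 / g) * s ∧ sd (p - y') v ≤ 16 * ‖v‖ ^ 2 / s := by
  have hvn : 0 < ‖v‖ := norm_pos_iff.2 hv
  obtain ⟨k, hk, hD⟩ := Vale.Agent.P084G.telescope (p - y) v (t := 2) two_pos
    ⌊s / (2 * ‖v‖)⌋₊
  set z : X := p - y + ((k : ℝ) * 2) • v with hz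
  have hm1 : s / (2 * ‖v‖) < (⌊s / (2 * ‖v‖)⌋₊ : ℝ) + 1 := Nat.lt_floor_add_one _
  have hm2 : (⌊s / (2 * ‖v‖)⌋₊ : ℝ) ≤ s / (2 * ‖v‖) := Nat.floor_le (by positivity)
  have hks : (k : ℝ) * 2 * ‖v‖ ≤ s := by
    have h1 : (k : ℝ) ≤ s / (2 * ‖v‖) := le_trans (by exact_mod_cast hk) hm2
    rw [le_div_iff₀ (by positivity)] at h1
    linarith
  have hzn : ‖z - (p - y)‖ ≤ s := by
    rw [hz, add_sub_cancel_left, norm_smul, Real.norm_of_nonneg (by positivity)]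
    exact hks
  have hsd : sd z ((2 : ℝ) • v) ≤ 8 * ‖v‖ ^ 2 / s := by
    have h1 : Vale.Agent.P084G.Dq 2 z v = sd z ((2 : ℝ) • v) / 2 := by
      unfold Vale.Agent.P084G.Dq sd
      ring
    rw [h1] at hD
    have h2 : 2 * ‖v‖ / ((⌊s / (2 * ‖v‖)⌋₊ : ℝ) + 1) ≤ 2 * ‖v‖ / (s / (2 * ‖v‖)) :=
      div_le_div_of_nonneg_left (by positivity) (by positivity) hm1.le
    have h3 : 2 * ‖v‖ / (s / (2 * ‖v‖)) = 4 * ‖v‖ ^ 2 / s := by
      field_simp
      ring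
    have h4 : 8 * ‖v‖ ^ 2 / s = 2 * (4 * ‖v‖ ^ 2 / s) := by ring
    rw [h4]
    linarith
  obtain ⟨l, hl1, hl2, hl3, hl4⟩ := Vale.Agent.P084G.reproj hp hy hg hgap
    (u := z) (hzn.trans hs2)
  refine ⟨p - l • z, hl3, ?_, ?_⟩
  · refine hl4.trans (mul_le_mul_of_nonneg_left hzn (by positivity))
  · have hl0 : 0 < l := by linarith
    have e1 : p - (p - l • z) = l • z := by abel
    have e2 : v = l • ((1 / (2 * l)) • ((2 : ℝ) • v)) := by
      rw [smul_smul, smul_smul]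
      have : l * (1 / (2 * l)) * 2 = 1 := by field_simp
      rw [this, one_smul]
    have h1 : sd (l • z) v = l * sd z ((1 / (2 * l)) • ((2 : ℝ) • v)) := by
      conv_lhs => rw [e2]
      exact sd_smul hl0 _ _
    have h2 := CaseG1_conv z ((2 : ℝ) • v) (c := 1 / (2 * l)) (by positivity)
      ((div_le_one (by positivity)).2 (by linarith))
    have h3 : l * (1 / (2 * l) * sd z ((2 : ℝ) • v)) = sd z ((2 : ℝ) • v) / 2 := by
      field_simp
    have h4 := mul_le_mul_of_nonneg_left h2 hl0.le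
    rw [h3] at h4
    rw [e1, h1]
    have h5 : 16 * ‖v‖ ^ 2 / s = 2 * (8 * ‖v‖ ^ 2 / s) := by ring
    have h6 : 0 ≤ 8 * ‖v‖ ^ 2 / s := by positivity
    rw [h5]
    linarith

end P084GII
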