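import Vale.Agent.Lib.P084G.II.DiffLip

/-! Part II, case H (2-uniformly smooth, not asymptotically quadratic): second differences. -/

open Filter Topology

namespace P084GII

variable {X Y : Type*} [NormedAddCommGroup X] [NormedSpace ℝ X] [NormedAddCommGroup Y]
  [NormedSpace ℝ Y] {J : X → X →L[ℝ] ℝ} {K : Y → Y →L[ℝ] ℝ} {T : X → Y} {S : Y → X} {C C' : ℝ}

/-- Lipschitz dependence of `J` -/
private theorem CaseH1_J (hJ : Dual2 J C) {c : ℝ} (hc : 0 < c) {x : X} (hx : c ≤ ‖x‖) (y z : X) :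
    |J y z - J x z| ≤ C / c * (‖y - x‖ * ‖z‖) := by
  have hx0 : x ≠ 0 := norm_pos_iff.1 (hc.trans_le hx)
  have h1 := hJ.lip' hx0 y
  have h2 : C * ‖x - y‖ / ‖x‖ ≤ C * ‖x - y‖ / c :=
    div_le_div_of_nonneg_left (mul_nonneg hJ.nonneg (norm_nonneg _)) hc hx
  have h3 := (J x - J y).le_opNorm z
  have h4 : (J x - J y) z = J x z - J y z := rfl
  rw [h4, Real.norm_eq_abs, abs_sub_comm] at h3
  refine h3.trans ((mul_le_mul_of_nonneg_right (h1.trans h2) (norm_nonneg z)).trans (le_of_eq ?_))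
  rw [norm_sub_rev x y]
  ring

/-- increments of the norm -/
private theorem CaseH1_inc (hJ : Dual2 J C) (x h : X) :
    J x h ≤ ‖x + h‖ - ‖x‖ ∧ ‖x + h‖ - ‖x‖ ≤ J (x + h) h := by
  have h1 := hJ.toDual.lower x h
  have h2 := hJ.toDual.lower (x + h) (-h)
  rw [map_neg, add_neg_cancel_right] at h2
  constructor <;> linarith

private theorem CaseH1_bd (hJ : Dual2 J C) {c : ℝ} (hc : 0 < c) (x k : X) (hx : c ≤ ‖x‖) :
    sd x k ≤ 2 * C / c * ‖k‖ ^ 2 := by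
  obtain ⟨-, h1⟩ := CaseH1_inc hJ x k
  obtain ⟨-, h2⟩ := CaseH1_inc hJ x (-k)
  have h3 := (abs_le.1 (CaseH1_J hJ hc hx (x + k) k)).2
  have h4 := (abs_le.1 (CaseH1_J hJ hc hx (x + -k) (-k))).2
  rw [add_sub_cancel_left] at h3 h4
  rw [norm_neg, map_neg (J x)] at h4
  unfold sd
  rw [sub_eq_add_neg x k]
  have e : 2 * C / c * ‖k‖ ^ 2 = C / c * (‖k‖ * ‖k‖) + C / c * (‖k‖ * ‖k‖) := by ring
  rw [e]
  linarith

private theorem CaseH1_lip (hJ : Dual2 J C) {c : ℝ} (hc : 0 < c) (x e k : X) (hx : c ≤ ‖x‖) :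
    |sd (x + e) k - sd x k| ≤ 2 * C / c * (‖e‖ * (‖e‖ + ‖k‖)) := by
  have hC : 0 ≤ C / c := div_nonneg hJ.nonneg hc.le
  have e1 : sd (x + e) k - sd x k = (‖x + k + e‖ - ‖x + k‖) + (‖x - k + e‖ - ‖x - k‖) -
      2 * (‖x + e‖ - ‖x‖) := by
    unfold sd
    have a1 : x + e + k = x + k + e := by abel
    have a2 : x + e - k = x - k + e := by abel
    rw [a1, a2]
    ring
  obtain ⟨l1, u1⟩ := CaseH1_inc hJ (x + k) e
  obtain ⟨l2, u2⟩ := CaseH1_inc hJ (x - k) e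
  obtain ⟨l3, u3⟩ := CaseH1_inc hJ x e
  have n1 : C / c * (‖x + k + e - x‖ * ‖e‖) ≤ C / c * ((‖k‖ + ‖e‖) * ‖e‖) := by
    refine mul_le_mul_of_nonneg_left (mul_le_mul_of_nonneg_right ?_ (norm_nonneg e)) hC
    have : x + k + e - x = k + e := by abel
    rw [this]
    exact norm_add_le _ _
  have n2 : C / c * (‖x - k + e - x‖ * ‖e‖) ≤ C / c * ((‖k‖ + ‖e‖) * ‖e‖) := by
    refine mul_le_mul_of_nonneg_left (mul_le_mul_of_nonneg_right ?_ (norm_nonneg e)) hC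
    have : x - k + e - x = -k + e := by abel
    rw [this, ← norm_neg k]
    exact norm_add_le _ _
  have b1 := (abs_le.1 (CaseH1_J hJ hc hx (x + k + e) e)).2
  have b2 := (abs_le.1 (CaseH1_J hJ hc hx (x - k + e) e)).2
  have b3 := (abs_le.1 (CaseH1_J hJ hc hx (x + k) e)).1
  have b4 := (abs_le.1 (CaseH1_J hJ hc hx (x - k) e)).1
  have b5 := (abs_le.1 (CaseH1_J hJ hc hx (x + e) e)).2
  rw [add_sub_cancel_left] at b3 b5
  have m4 : ‖x - k - x‖ = ‖k‖ := by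
    have : x - k - x = -k := by abel
    rw [this, norm_neg]
  rw [m4] at b4
  have e2 : 2 * C / c * (‖e‖ * (‖e‖ + ‖k‖)) =
      C / c * ((‖k‖ + ‖e‖) * ‖e‖) + C / c * ((‖k‖ + ‖e‖) * ‖e‖) := by ring
  have e3 : C / c * ((‖k‖ + ‖e‖) * ‖e‖) = C / c * (‖k‖ * ‖e‖) + C / c * (‖e‖ * ‖e‖) := by ring
  rw [e1, e2, abs_le]
  constructor
  · rw [e3]
    linarith
  · linarith

private theorem CaseH1_dir (hJ : Dual2 J C) {c : ℝ} (hc : 0 < c) (x k e : X) (hx : c ≤ ‖x‖) :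
    |sd x (k + e) - sd x k| ≤ 2 * C / c * (‖e‖ * (‖e‖ + ‖k‖)) := by
  have hC : 0 ≤ C / c := div_nonneg hJ.nonneg hc.le
  have e1 : sd x (k + e) - sd x k = (‖x + k + e‖ - ‖x + k‖) + (‖x - k + -e‖ - ‖x - k‖) := by
    unfold sd
    have a1 : x + (k + e) = x + k + e := by abel
    have a2 : x - (k + e) = x - k + -e := by abel
    rw [a1, a2]
    ring
  obtain ⟨l1, u1⟩ := CaseH1_inc hJ (x + k) e
  obtain ⟨l2, u2⟩ := CaseH1_inc hJ (x - k) (-e)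
  have n1 : C / c * (‖x + k + e - x‖ * ‖e‖) ≤ C / c * ((‖k‖ + ‖e‖) * ‖e‖) := by
    refine mul_le_mul_of_nonneg_left (mul_le_mul_of_nonneg_right ?_ (norm_nonneg e)) hC
    have : x + k + e - x = k + e := by abel
    rw [this]
    exact norm_add_le _ _
  have n2 : C / c * (‖x - k + -e - x‖ * ‖e‖) ≤ C / c * ((‖k‖ + ‖e‖) * ‖e‖) := by
    refine mul_le_mul_of_nonneg_left (mul_le_mul_of_nonneg_right ?_ (norm_nonneg e)) hC
    have : x - k + -e - x = -k + -e := by abel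
    rw [this, ← norm_neg k, ← norm_neg e]
    exact norm_add_le _ _
  have n3 : C / c * (‖k‖ * ‖e‖) ≤ C / c * ((‖k‖ + ‖e‖) * ‖e‖) := by
    refine mul_le_mul_of_nonneg_left (mul_le_mul_of_nonneg_right ?_ (norm_nonneg e)) hC
    linarith [norm_nonneg e]
  have b1 := (abs_le.1 (CaseH1_J hJ hc hx (x + k + e) e)).2
  have b2 := (abs_le.1 (CaseH1_J hJ hc hx (x - k + -e) e)).1
  have b3 := (abs_le.1 (CaseH1_J hJ hc hx (x + k) e)).1
  have b4 := (abs_le.1 (CaseH1_J hJ hc hx (x - k) e)).2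
  rw [add_sub_cancel_left] at b3
  have m4 : ‖x - k - x‖ = ‖k‖ := by
    have : x - k - x = -k := by abel
    rw [this, norm_neg]
  rw [m4] at b4
  rw [map_neg] at l2 u2
  have e2 : 2 * C / c * (‖e‖ * (‖e‖ + ‖k‖)) =
      C / c * ((‖k‖ + ‖e‖) * ‖e‖) + C / c * ((‖k‖ + ‖e‖) * ‖e‖) := by ring
  rw [e1, e2, abs_le]
  constructor <;> linarith

theorem sd_bd (hJ : Dual2 J C) {c : ℝ} (hc : 0 < c) :
    ∃ C1 : ℝ, 0 ≤ C1 ∧ ∀ x k : X, c ≤ ‖x‖ → sd x k ≤ C1 * ‖k‖ ^ 2 := by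
  have hC := hJ.nonneg
  exact ⟨2 * C / c, by positivity, fun x k hx => CaseH1_bd hJ hc x k hx⟩

/-- `‖x+e+k‖ - ‖x+k‖ ≤ J (x+e+k) e`, `‖x+e-k‖ - ‖x-k‖ ≤ J (x+e-k) e`, `-2 (‖x+e‖ - ‖x‖) ≤ -2 J x e`, and symmetric. -/
theorem sd_lip (hJ : Dual2 J C) {c : ℝ} (hc : 0 < c) :
    ∃ C1 : ℝ, 0 ≤ C1 ∧ ∀ x e k : X, c ≤ ‖x‖ → ‖e‖ ≤ c / 4 → ‖k‖ ≤ c / 4 →
      |sd (x + e) k - sd x k| ≤ C1 * (‖e‖ * (‖e‖ + ‖k‖)) := by
  have hC := hJ.nonneg
  exact ⟨2 * C / c, by positivity, fun x e k hx _ _ => CaseH1_lip hJ hc x e k hx⟩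

/-- `‖x + (1+s) k‖ - ‖x + k‖ ≤ s J (x + (1+s) k) k`, `‖x - (1+s) k‖ - ‖x - k‖ ≤ - s J (x - (1+s) k) k` etc. -/
theorem sd_scale (hJ : Dual2 J C) {c : ℝ} (hc : 0 < c) :
    ∃ C1 : ℝ, 0 ≤ C1 ∧ ∀ (x k : X) (s : ℝ), c ≤ ‖x‖ → ‖k‖ ≤ c / 4 → |s| ≤ 1 / 2 →
      |sd x ((1 + s) • k) - sd x k| ≤ C1 * (|s| * ‖k‖ ^ 2) := by
  have hC := hJ.nonneg
  refine ⟨2 * (2 * C / c), by positivity, fun x k s hx _ hs => ?_⟩
  have h1 := CaseH1_dir hJ hc x k (s • k) hx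
  have e1 : (1 + s) • k = k + s • k := by rw [add_smul, one_smul]
  rw [e1]
  refine h1.trans ?_
  rw [norm_smul, Real.norm_eq_abs]
  have h2 : 0 ≤ 2 * C / c := by positivity
  have h3 : |s| * ‖k‖ * (|s| * ‖k‖ + ‖k‖) ≤ 2 * (|s| * ‖k‖ ^ 2) := by
    have h4 : |s| * ‖k‖ * (|s| * ‖k‖ + ‖k‖) = (|s| * ‖k‖ ^ 2) * (|s| + 1) := by ring
    rw [h4]
    have h5 : 0 ≤ |s| * ‖k‖ ^ 2 := by positivity
    nlinarith
  calc 2 * C / c * (|s| * ‖k‖ * (|s| * ‖k‖ + ‖k‖)) ≤ 2 * C / c * (2 * (|s| * ‖k‖ ^ 2)) :=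
        mul_le_mul_of_nonneg_left h3 h2
    _ = 2 * (2 * C / c) * (|s| * ‖k‖ ^ 2) := by ring

/-- change of a direction by a small vector -/
theorem sd_dir (hJ : Dual2 J C) {c : ℝ} (hc : 0 < c) :
    ∃ C1 : ℝ, 0 ≤ C1 ∧ ∀ x k e : X, c ≤ ‖x‖ → ‖k‖ ≤ c / 4 → ‖e‖ ≤ c / 4 →
      |sd x (k + e) - sd x k| ≤ C1 * (‖e‖ * (‖e‖ + ‖k‖)) := by
  have hC := hJ.nonneg
  exact ⟨2 * C / c, by positivity, fun x k e hx _ _ => CaseH1_dir hJ hc x k e hx⟩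

/-- `J x p` is close to one at `x = a p + k`, `7/8 ≤ a` -/
private theorem CaseH1_near (hJ : Dual2 J C) {p : X} (hp : ‖p‖ = 1) {a : ℝ} (ha : 7 / 8 ≤ a)
    (k : X) : 0 ≤ 1 - J (a • p + k) p ∧ 1 - J (a • p + k) p ≤ C * (4 / 3 * ‖k‖ ^ 2) := by
  have ha0 : 0 < a := by linarith
  constructor
  · have := hJ.le (a • p + k) p
    rw [hp] at this
    linarith
  · have h1 : J (a • p + k) = J (p + a⁻¹ • k) := by
      have e : a • p + k = a • (p + a⁻¹ • k) := by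
        rw [smul_add, smul_smul, mul_inv_cancel₀ ha0.ne', one_smul]
      rw [e, hJ.smul a ha0]
    have h2 := hJ.near hp (p + a⁻¹ • k)
    rw [add_sub_cancel_left, norm_smul, Real.norm_of_nonneg (inv_pos.2 ha0).le, mul_pow] at h2
    rw [h1]
    refine h2.trans (mul_le_mul_of_nonneg_left ?_ hJ.nonneg)
    refine mul_le_mul_of_nonneg_right ?_ (sq_nonneg _)
    have h3 : a⁻¹ ≤ 8 / 7 := by
      rw [inv_le_comm₀ ha0 (by norm_num)]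
      norm_num
      exact ha
    have h4 : 0 < a⁻¹ := inv_pos.2 ha0
    nlinarith

/-- Tangential reduction: with `s = J p u`, `u0 = u - s p`: `d/dσ (‖p + t u0 + t σ p‖ + ‖p - t u0 - t σ p‖)
= t (J x+ p - J x- p)`, `x± = (1 ± tσ) p ± t u0`, and `0 ≤ 1 - J x± p ≤ 4 C t^2` (`Dual2.near` at `x±/(1 ± tσ)`).  Or
directly: `(1+τ) (‖p + k/(1+τ)‖ - 1) + (1-τ) (‖p - k/(1-τ)‖ - 1)`, `τ = t s`, `k = t u0`, with
`0 ≤ ‖p ± k‖ - 1 ≤ C ‖k‖^2` and Lipschitz dependence. -/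
theorem sd_tan (hJ : Dual2 J C) :
    ∃ C1 : ℝ, 0 ≤ C1 ∧ ∀ (p u : X) (t : ℝ), ‖p‖ = 1 → ‖u‖ ≤ 1 → 0 < t → t ≤ 1 / 8 →
      |sd p (t • u) - sd p (t • (u - J p u • p))| ≤ C1 * t ^ 3 := by
  have hC := hJ.nonneg
  refine ⟨6 * C, by positivity, fun p u t hp hu ht ht8 => ?_⟩
  obtain ⟨s, hs⟩ : ∃ s : ℝ, s = J p u := ⟨_, rfl⟩
  have hs1 : |s| ≤ 1 := by
    rw [hs]
    exact (hJ.toDual.abs_le p u).trans hu
  obtain ⟨k, hk⟩ : ∃ k : X, k = t • (u - J p u • p) := ⟨_, rfl⟩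
  obtain ⟨τ, hτ⟩ : ∃ τ : ℝ, τ = t * s := ⟨_, rfl⟩
  have hτt : |τ| ≤ t := by
    rw [hτ, abs_mul, abs_of_pos ht]
    nlinarith
  obtain ⟨hτ1, hτ2⟩ := abs_le.1 hτt
  have hkn : ‖k‖ ≤ 2 * t := by
    rw [hk, norm_smul, Real.norm_of_nonneg ht.le, mul_comm 2 t]
    refine mul_le_mul_of_nonneg_left ?_ ht.le
    refine (norm_sub_le _ _).trans ?_
    rw [norm_smul, hp, mul_one, ← hs, Real.norm_eq_abs]
    linarith
  have hk2 : ‖k‖ ^ 2 ≤ 4 * t ^ 2 := by nlinarith [norm_nonneg k]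
  have htu : t • u = k + τ • p := by
    rw [hk, hτ, smul_sub, smul_smul, ← hs, sub_add_cancel]
  rw [← hk, htu]
  have e1 : sd p (k + τ • p) - sd p k =
      (‖p + k + τ • p‖ - ‖p + k‖) + (‖p - k + (-τ) • p‖ - ‖p - k‖) := by
    unfold sd
    have a1 : p + (k + τ • p) = p + k + τ • p := by abel
    have a2 : p - (k + τ • p) = p - k + (-τ) • p := by rw [neg_smul]; abel
    rw [a1, a2]
    ring
  obtain ⟨l1, u1⟩ := CaseH1_inc hJ (p + k) (τ • p)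
  obtain ⟨l2, u2⟩ := CaseH1_inc hJ (p - k) ((-τ) • p)
  rw [map_smul, smul_eq_mul] at l1 l2
  rw [map_smul (J (p + k + τ • p)), smul_eq_mul] at u1
  rw [map_smul (J (p - k + (-τ) • p)), smul_eq_mul] at u2
  have a1 : p + k + τ • p = (1 + τ) • p + k := by rw [add_smul, one_smul]; abel
  have a2 : p - k + (-τ) • p = (1 - τ) • p + (-k) := by
    rw [sub_smul, one_smul, neg_smul]; abel
  have a3 : p + k = (1 : ℝ) • p + k := by rw [one_smul]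
  have a4 : p - k = (1 : ℝ) • p + (-k) := by rw [one_smul]; abel
  obtain ⟨c1, c1'⟩ := CaseH1_near hJ hp (a := 1 + τ) (by linarith) k
  obtain ⟨c2, c2'⟩ := CaseH1_near hJ hp (a := 1 - τ) (by linarith) (-k)
  obtain ⟨c3, c3'⟩ := CaseH1_near hJ hp (a := 1) (by norm_num) k
  obtain ⟨c4, c4'⟩ := CaseH1_near hJ hp (a := 1) (by norm_num) (-k)
  rw [← a1] at c1 c1'
  rw [← a2, norm_neg] at c2'
  rw [← a2] at c2
  rw [← a3] at c3 c3'
  rw [← a4, norm_neg] at c4'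
  rw [← a4] at c4
  have hB : C * (4 / 3 * ‖k‖ ^ 2) ≤ 6 * C * t ^ 2 := by nlinarith [mul_nonneg hC (sq_nonneg t)]
  -- product bound
  have key : ∀ a b : ℝ, 0 ≤ 1 - a → 1 - a ≤ 6 * C * t ^ 2 → 0 ≤ 1 - b → 1 - b ≤ 6 * C * t ^ 2 →
      |τ * a + (-τ) * b| ≤ 6 * C * t ^ 3 := by
    intro a b ha1 ha2 hb1 hb2
    have h1 : τ * a + (-τ) * b = τ * ((1 - b) - (1 - a)) := by ring
    have h2 : |(1 - b) - (1 - a)| ≤ 6 * C * t ^ 2 := by
      rw [abs_le]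
      constructor <;> linarith
    rw [h1, abs_mul]
    calc |τ| * |(1 - b) - (1 - a)| ≤ t * (6 * C * t ^ 2) :=
          mul_le_mul hτt h2 (abs_nonneg _) ht.le
      _ = 6 * C * t ^ 3 := by ring
  have k1 := key _ _ c1 (c1'.trans hB) c2 (c2'.trans hB)
  have k2 := key _ _ c3 (c3'.trans hB) c4 (c4'.trans hB)
  rw [e1, abs_le]
  constructor
  · linarith [(abs_le.1 k2).1]
  · linarith [(abs_le.1 k1).2]

/-- exact identity -/
theorem sd_par (x h k : X) :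
    sd x (h + k) + sd x (h - k) - 2 * sd x h - 2 * sd x k
      = sd (x + k) h + sd (x - k) h - 2 * sd x h := by
  unfold sd
  have a1 : x + (h + k) = x + k + h := by abel
  have a2 : x - (h + k) = x - k - h := by abel
  have a3 : x + (h - k) = x - k + h := by abel
  have a4 : x - (h - k) = x + k - h := by abel
  rw [a1, a2, a3, a4]
  ring

/-- moving along the ray: if `x2 = (1 + τ) x1 + e` with `|τ| ≤ R t`, `‖e‖ ≤ R t^2`, `‖k‖ ≤ R t` then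
`|sd x2 k - sd x1 k| ≤ C1 t^3` (`sd_smul`, `sd_scale`, `sd_bd`, `sd_lip`). -/
theorem sd_ray (hJ : Dual2 J C) {c R : ℝ} (hc : 0 < c) (hR : 0 ≤ R) :
    ∃ C1 t1 : ℝ, 0 ≤ C1 ∧ 0 < t1 ∧ ∀ (x1 x2 e k : X) (τ t : ℝ), c ≤ ‖x1‖ → ‖x1‖ ≤ 4 → 0 < t →
      t ≤ t1 → |τ| ≤ R * t → ‖e‖ ≤ R * t ^ 2 → ‖k‖ ≤ R * t → x2 = (1 + τ) • x1 + e →
      |sd x2 k - sd x1 k| ≤ C1 * t ^ 3 := by
  have hC := hJ.nonneg
  refine ⟨6 * R ^ 3 * (2 * C / c) + R ^ 3 * (2 * C / c) + 2 * R ^ 2 * (2 * C / (c / 2)),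
    1 / (2 * (R + 1)), by positivity, by positivity, ?_⟩
  intro x1 x2 e k τ t hx1 _ ht htt hτ he hk hx2
  have hR1 : 0 < 2 * (R + 1) := by positivity
  have htR : t * (2 * (R + 1)) ≤ 1 := by rwa [le_div_iff₀ hR1] at htt
  have hRt : R * t ≤ 1 / 2 := by nlinarith
  have ht1 : t ≤ 1 := by nlinarith [mul_nonneg ht.le hR]
  obtain ⟨hτ1, hτ2⟩ := abs_le.1 (hτ.trans hRt)
  have h1τ : 0 < 1 + τ := by linarith
  have hB : 0 ≤ 2 * C / c := by positivity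
  -- step 1: from `(1+τ) x1` to `x2`
  have s1 : |sd x2 k - sd ((1 + τ) • x1) k| ≤ 2 * C / (c / 2) * (2 * R ^ 2 * t ^ 3) := by
    have hn : c / 2 ≤ ‖(1 + τ) • x1‖ := by
      rw [norm_smul, Real.norm_of_nonneg h1τ.le]
      nlinarith
    have h1 := CaseH1_lip hJ (half_pos hc) ((1 + τ) • x1) e k hn
    rw [← hx2] at h1
    refine h1.trans (mul_le_mul_of_nonneg_left ?_ (by positivity))
    have h2 : ‖e‖ + ‖k‖ ≤ 2 * (R * t) := by nlinarith [mul_nonneg hR ht.le]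
    calc ‖e‖ * (‖e‖ + ‖k‖) ≤ (R * t ^ 2) * (2 * (R * t)) :=
          mul_le_mul he h2 (by positivity) (by positivity)
      _ = 2 * R ^ 2 * t ^ 3 := by ring
  -- step 2: change of the direction
  have hk' : ‖k‖ ^ 2 ≤ (R * t) ^ 2 := pow_le_pow_left₀ (norm_nonneg k) hk 2
  have s2 : |sd x1 ((1 + τ)⁻¹ • k) - sd x1 k| ≤ 2 * C / c * (4 * R ^ 3 * t ^ 3) := by
    have e1 : (1 + τ)⁻¹ • k = k + ((1 + τ)⁻¹ - 1) • k := by
      rw [sub_smul, one_smul]; abel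
    rw [e1]
    refine (CaseH1_dir hJ hc x1 k _ hx1).trans (mul_le_mul_of_nonneg_left ?_ hB)
    have h2 : |(1 + τ)⁻¹ - 1| ≤ 2 * |τ| := by
      have h3 : (1 + τ)⁻¹ - 1 = -τ * (1 + τ)⁻¹ := by
        field_simp
        ring
      have h4 : (1 + τ)⁻¹ ≤ 2 := by
        rw [inv_le_comm₀ h1τ (by norm_num)]
        linarith
      rw [h3, abs_mul, abs_neg, abs_of_pos (inv_pos.2 h1τ)]
      nlinarith [abs_nonneg τ]
    have h3 : ‖((1 + τ)⁻¹ - 1) • k‖ ≤ 2 * (R * t) * (R * t) := by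
      rw [norm_smul, Real.norm_eq_abs]
      exact mul_le_mul (h2.trans (by linarith)) hk (norm_nonneg k) (by positivity)
    have h4 : 2 * (R * t) * (R * t) ≤ R * t := by nlinarith [mul_nonneg hR ht.le]
    calc ‖((1 + τ)⁻¹ - 1) • k‖ * (‖((1 + τ)⁻¹ - 1) • k‖ + ‖k‖)
        ≤ (2 * (R * t) * (R * t)) * (R * t + R * t) :=
          mul_le_mul h3 (add_le_add (h3.trans h4) hk) (by positivity) (by positivity)
      _ = 4 * R ^ 3 * t ^ 3 := by ring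
  -- step 3: scaling
  have s3 : sd ((1 + τ) • x1) k = (1 + τ) * sd x1 ((1 + τ)⁻¹ • k) := by
    rw [← sd_smul h1τ, smul_smul, mul_inv_cancel₀ h1τ.ne', one_smul]
  have s4 : sd x1 k ≤ 2 * C / c * (R * t) ^ 2 :=
    (CaseH1_bd hJ hc x1 k hx1).trans (mul_le_mul_of_nonneg_left hk' hB)
  have s5 : |sd ((1 + τ) • x1) k - sd x1 k| ≤
      3 / 2 * (2 * C / c * (4 * R ^ 3 * t ^ 3)) + (R * t) * (2 * C / c * (R * t) ^ 2) := by
    rw [s3]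
    have e1 : (1 + τ) * sd x1 ((1 + τ)⁻¹ • k) - sd x1 k =
        (1 + τ) * (sd x1 ((1 + τ)⁻¹ • k) - sd x1 k) + τ * sd x1 k := by ring
    rw [e1]
    refine (abs_add_le _ _).trans (add_le_add ?_ ?_)
    · rw [abs_mul, abs_of_pos h1τ]
      exact mul_le_mul (by linarith) s2 (abs_nonneg _) (by norm_num)
    · rw [abs_mul, abs_of_nonneg (sd_nonneg _ _)]
      exact mul_le_mul hτ s4 (sd_nonneg _ _) (by positivity)
  have s6 : |sd x2 k - sd x1 k| ≤ |sd x2 k - sd ((1 + τ) • x1) k| +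
      |sd ((1 + τ) • x1) k - sd x1 k| := abs_sub_le _ _ _
  refine s6.trans ((add_le_add s1 s5).trans (le_of_eq ?_))
  ring

end P084GII
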