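import Vale.Agent.Lib.P084G.II.CaseH1

/-! Part II, case H: the second order relation and the shift. -/

open Filter Topology

namespace P084GII

variable {X Y : Type*} [NormedAddCommGroup X] [NormedSpace ℝ X] [NormedAddCommGroup Y]
  [NormedSpace ℝ Y] {J : X → X →L[ℝ] ℝ} {K : Y → Y →L[ℝ] ℝ} {T : X → Y} {S : Y → X} {C C' : ℝ}

omit [NormedSpace ℝ X] in
private theorem H2_ne {c : ℝ} (hc : 0 < c) {w : X} (hw : c ≤ ‖w‖) : w ≠ 0 := by
  rintro rfl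
  rw [norm_zero] at hw
  linarith

private theorem H2_taylor (hJ : Dual2 J C) {c : ℝ} (hc : 0 < c) {w : X} (k : X) (hw : c ≤ ‖w‖) :
    |‖w + k‖ - ‖w‖ - J w k| ≤ C / c * ‖k‖ ^ 2 := by
  have h1 := hJ.toDual.lower w k
  have h2 := hJ.taylor (H2_ne hc hw) k
  have hC := hJ.nonneg
  have h3 : C * ‖k‖ ^ 2 / ‖w‖ ≤ C / c * ‖k‖ ^ 2 := by
    rw [div_mul_eq_mul_div]
    exact div_le_div_of_nonneg_left (by positivity) hc hw
  have h4 : 0 ≤ C / c * ‖k‖ ^ 2 := by positivity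
  rw [abs_le]
  constructor <;> linarith

private theorem H2_lip (hJ : Dual2 J C) {c : ℝ} (hc : 0 < c) {w : X} (w' : X) (hw : c ≤ ‖w‖) :
    ‖J w - J w'‖ ≤ C / c * ‖w - w'‖ := by
  have h2 := hJ.lip' (H2_ne hc hw) w'
  have hC := hJ.nonneg
  refine h2.trans ?_
  rw [div_mul_eq_mul_div]
  exact div_le_div_of_nonneg_left (by positivity) hc hw

private theorem H2_lip2 (hJ : Dual2 J C) {c : ℝ} (hc : 0 < c) {w : X} (w' e : X) (hw : c ≤ ‖w‖) :
    |J w e - J w' e| ≤ C / c * ‖w - w'‖ * ‖e‖ := by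
  have h1 := (J w - J w').le_opNorm e
  rw [Real.norm_eq_abs] at h1
  exact h1.trans (mul_le_mul_of_nonneg_right (H2_lip hJ hc w' hw) (norm_nonneg e))

private theorem H2_exp (hJ : Dual2 J C) {c : ℝ} (hc : 0 < c) {z m : X} (e : X) (hz : c ≤ ‖z‖)
    (hm : ‖m‖ ≤ c / 2) :
    |‖z + m + e‖ - ‖z + m‖ - J z e| ≤ 2 * C / c * ‖e‖ ^ 2 + C / c * (‖m‖ * ‖e‖) := by
  have h0 : c / 2 ≤ ‖z + m‖ := by
    have h2 : ‖z‖ ≤ ‖z + m‖ + ‖m‖ := by
      have h3 := norm_sub_le (z + m) m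
      rwa [add_sub_cancel_right] at h3
    linarith
  have h1 := H2_taylor hJ (half_pos hc) e h0
  have h2 := H2_lip2 hJ hc (z + m) e hz
  rw [sub_add_cancel_left, norm_neg] at h2
  have e1 : C / (c / 2) = 2 * C / c := by
    field_simp
  rw [e1] at h1
  have e2 : C / c * ‖m‖ * ‖e‖ = C / c * (‖m‖ * ‖e‖) := by ring
  rw [e2] at h2
  rw [abs_le] at h1 h2 ⊢
  constructor <;> linarith [h1.1, h1.2, h2.1, h2.2]

private theorem H2_rad (hJ : Dual2 J C) {R : ℝ} {p u : X} {t : ℝ} (hp : ‖p‖ = 1)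
    (hu : J p u = 0) (huR : ‖u‖ ≤ R) (ht : 0 < t) :
    0 ≤ ‖p + t • u‖ - 1 ∧ ‖p + t • u‖ - 1 ≤ C * R ^ 2 * t ^ 2 := by
  have hp0 : p ≠ 0 := by
    rintro rfl
    rw [norm_zero] at hp
    exact zero_ne_one hp
  have hC := hJ.nonneg
  have h1 := hJ.toDual.lower p (t • u)
  have h2 := hJ.taylor hp0 (t • u)
  rw [map_smul, hu, smul_zero, hp] at h1 h2
  rw [norm_smul, Real.norm_eq_abs, abs_of_pos ht] at h2
  refine ⟨by linarith, ?_⟩
  have h3 : C * (t * ‖u‖) ^ 2 ≤ C * R ^ 2 * t ^ 2 := by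
    have h4 : ‖u‖ ^ 2 ≤ R ^ 2 := pow_le_pow_left₀ (norm_nonneg u) huR 2
    calc C * (t * ‖u‖) ^ 2 = C * t ^ 2 * ‖u‖ ^ 2 := by ring
      _ ≤ C * t ^ 2 * R ^ 2 := mul_le_mul_of_nonneg_left h4 (by positivity)
      _ = C * R ^ 2 * t ^ 2 := by ring
  linarith

private theorem H2_one (hJ : Dual2 J C) (hK : Dual2 K C') (h : HI T S) {c R L : ℝ} (hc : 0 < c)
    (hR : 0 ≤ R) (hL : 0 ≤ L)
    (hT : ∀ x u : X, ‖x‖ = 1 → ‖T (x + u) - T x - fderiv ℝ T x u‖ ≤ L * ‖u‖ ^ 2)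
    {p y u : X} {t : ℝ} (hp : ‖p‖ = 1) (hy : ‖y‖ = 1) (hz : c ≤ ‖p - y‖) (hu : J p u = 0)
    (huR : ‖u‖ ≤ R) (ht : 0 < t) (ht1 : t ≤ 1) (ht2 : t * (6 * R) ≤ c) :
    |K (T p - T y) (T (p + t • u) - T p - t • fderiv ℝ T p u)
      - (‖p + t • u‖ - 1) * (K (T p - T y) (T y) - J (p - y) y)
      - (‖p - y + t • u‖ - ‖T p - T y + t • fderiv ℝ T p u‖)|
      ≤ (2 * C' / c * (L * R ^ 2 + C * R ^ 2) ^ 2 + C' / c * (3 * R * (L * R ^ 2 + C * R ^ 2))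
        + 2 * C / c * (C * R ^ 2) ^ 2 + C / c * (R * (C * R ^ 2))) * t ^ 3 := by
  have hC := hJ.nonneg
  have hC' := hK.nonneg
  obtain ⟨F, hF⟩ : ∃ F : ℝ, F = C * R ^ 2 := ⟨_, rfl⟩
  obtain ⟨E, hE⟩ : ∃ E : ℝ, E = L * R ^ 2 + C * R ^ 2 := ⟨_, rfl⟩
  have hF0 : 0 ≤ F := by rw [hF]; positivity
  have hE0 : 0 ≤ E := by rw [hE]; positivity
  obtain ⟨r0, r1⟩ := H2_rad hJ hp hu huR ht
  obtain ⟨r, hr⟩ : ∃ r : ℝ, r = ‖p + t • u‖ - 1 := ⟨_, rfl⟩
  rw [← hr] at r0 r1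
  rw [← hE, ← hF]
  rw [← hF] at r1
  rw [← hr]
  obtain ⟨D, hD⟩ : ∃ D : Y, D = T (p + t • u) - T p - t • fderiv ℝ T p u := ⟨_, rfl⟩
  have hD1 : ‖D‖ ≤ L * R ^ 2 * t ^ 2 := by
    have h1 := hT p (t • u) hp
    rw [map_smul, ← hD, norm_smul, Real.norm_eq_abs, abs_of_pos ht] at h1
    refine h1.trans ?_
    have h4 : ‖u‖ ^ 2 ≤ R ^ 2 := pow_le_pow_left₀ (norm_nonneg u) huR 2
    calc L * (t * ‖u‖) ^ 2 = L * t ^ 2 * ‖u‖ ^ 2 := by ring
      _ ≤ L * t ^ 2 * R ^ 2 := mul_le_mul_of_nonneg_left h4 (by positivity)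
      _ = L * R ^ 2 * t ^ 2 := by ring
  have htu : ‖t • u‖ ≤ R * t := by
    rw [norm_smul, Real.norm_eq_abs, abs_of_pos ht, mul_comm]
    exact mul_le_mul_of_nonneg_right huR ht.le
  have htA : ‖t • fderiv ℝ T p u‖ ≤ 3 * R * t := by
    rw [norm_smul, Real.norm_eq_abs, abs_of_pos ht]
    have h1 := (fderiv ℝ T p).le_opNorm u
    have h2 : ‖fderiv ℝ T p‖ * ‖u‖ ≤ 3 * R :=
      mul_le_mul (fd_norm h p) huR (norm_nonneg u) (by norm_num)
    calc t * ‖fderiv ℝ T p u‖ ≤ t * (3 * R) := mul_le_mul_of_nonneg_left (h1.trans h2) ht.le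
      _ = 3 * R * t := by ring
  have hzz : ‖T p - T y‖ = ‖p - y‖ := h.dist p y (by rw [hp, hy])
  have hRt : 0 ≤ R * t := by positivity
  -- the relation
  have hrel := h.rel (p + t • u) hy
  obtain ⟨e, he⟩ : ∃ e : Y, e = D - r • T y := ⟨_, rfl⟩
  obtain ⟨f, hf⟩ : ∃ f : X, f = -(r • y) := ⟨_, rfl⟩
  have e1 : T (p + t • u) - ‖p + t • u‖ • T y = T p - T y + t • fderiv ℝ T p u + e := by
    have : ‖p + t • u‖ = r + 1 := by rw [hr]; ring
    rw [this, he, hD]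
    module
  have e2 : p + t • u - ‖p + t • u‖ • y = p - y + t • u + f := by
    have : ‖p + t • u‖ = r + 1 := by rw [hr]; ring
    rw [this, hf]
    module
  rw [e1, e2] at hrel
  have hfn : ‖f‖ ≤ F * t ^ 2 := by
    rw [hf, norm_neg, norm_smul, hy, mul_one, Real.norm_eq_abs, abs_of_nonneg r0]
    exact r1
  have hen : ‖e‖ ≤ E * t ^ 2 := by
    rw [he]
    refine (norm_sub_le _ _).trans ?_
    rw [norm_smul, h.norm, hy, mul_one, Real.norm_eq_abs, abs_of_nonneg r0]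
    have : E * t ^ 2 = L * R ^ 2 * t ^ 2 + F * t ^ 2 := by rw [hE, hF]; ring
    rw [this]
    exact add_le_add hD1 r1
  have h1 := H2_exp hK hc (z := T p - T y) (m := t • fderiv ℝ T p u) e (by rw [hzz]; exact hz)
    (by linarith)
  have h2 := H2_exp hJ hc (z := p - y) (m := t • u) f hz (by linarith)
  have t43 : t ^ 4 ≤ t ^ 3 := pow_le_pow_of_le_one ht.le ht1 (by norm_num)
  have c1 : 2 * C' / c * ‖e‖ ^ 2 ≤ 2 * C' / c * E ^ 2 * t ^ 3 := by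
    have b1 : ‖e‖ ^ 2 ≤ (E * t ^ 2) ^ 2 := pow_le_pow_left₀ (norm_nonneg e) hen 2
    have b2 : (E * t ^ 2) ^ 2 ≤ E ^ 2 * t ^ 3 := by
      calc (E * t ^ 2) ^ 2 = E ^ 2 * t ^ 4 := by ring
        _ ≤ E ^ 2 * t ^ 3 := mul_le_mul_of_nonneg_left t43 (sq_nonneg E)
    calc 2 * C' / c * ‖e‖ ^ 2 ≤ 2 * C' / c * (E ^ 2 * t ^ 3) :=
          mul_le_mul_of_nonneg_left (b1.trans b2) (by positivity)
      _ = _ := by ring
  have c2 : C' / c * (‖t • fderiv ℝ T p u‖ * ‖e‖) ≤ C' / c * (3 * R * E) * t ^ 3 := by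
    have b1 : ‖t • fderiv ℝ T p u‖ * ‖e‖ ≤ 3 * R * t * (E * t ^ 2) :=
      mul_le_mul htA hen (norm_nonneg _) (by positivity)
    calc C' / c * (‖t • fderiv ℝ T p u‖ * ‖e‖) ≤ C' / c * (3 * R * t * (E * t ^ 2)) :=
          mul_le_mul_of_nonneg_left b1 (by positivity)
      _ = _ := by ring
  have c3 : 2 * C / c * ‖f‖ ^ 2 ≤ 2 * C / c * F ^ 2 * t ^ 3 := by
    have b1 : ‖f‖ ^ 2 ≤ (F * t ^ 2) ^ 2 := pow_le_pow_left₀ (norm_nonneg f) hfn 2
    have b2 : (F * t ^ 2) ^ 2 ≤ F ^ 2 * t ^ 3 := by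
      calc (F * t ^ 2) ^ 2 = F ^ 2 * t ^ 4 := by ring
        _ ≤ F ^ 2 * t ^ 3 := mul_le_mul_of_nonneg_left t43 (sq_nonneg F)
    calc 2 * C / c * ‖f‖ ^ 2 ≤ 2 * C / c * (F ^ 2 * t ^ 3) :=
          mul_le_mul_of_nonneg_left (b1.trans b2) (by positivity)
      _ = _ := by ring
  have c4 : C / c * (‖t • u‖ * ‖f‖) ≤ C / c * (R * F) * t ^ 3 := by
    have b1 : ‖t • u‖ * ‖f‖ ≤ R * t * (F * t ^ 2) :=
      mul_le_mul htu hfn (norm_nonneg _) (by positivity)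
    calc C / c * (‖t • u‖ * ‖f‖) ≤ C / c * (R * t * (F * t ^ 2)) :=
          mul_le_mul_of_nonneg_left b1 (by positivity)
      _ = _ := by ring
  have k1 : K (T p - T y) e = K (T p - T y) D - r * K (T p - T y) (T y) := by
    rw [he, map_sub, map_smul, smul_eq_mul]
  have k2 : J (p - y) f = -(r * J (p - y) y) := by
    rw [hf, map_neg, map_smul, smul_eq_mul]
  rw [hrel, k1] at h1
  rw [k2] at h2
  rw [← hD]
  have hfin : (2 * C' / c * E ^ 2 + C' / c * (3 * R * E) + 2 * C / c * F ^ 2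
      + C / c * (R * F)) * t ^ 3 = 2 * C' / c * E ^ 2 * t ^ 3 + C' / c * (3 * R * E) * t ^ 3
      + 2 * C / c * F ^ 2 * t ^ 3 + C / c * (R * F) * t ^ 3 := by ring
  rw [hfin]
  rw [abs_le] at h1 h2 ⊢
  constructor <;> linarith [h1.1, h1.2, h2.1, h2.2]

/-- **Second order relation.**  `z = p - y`, `z' = T p - T y`, `A = fderiv ℝ T p`, `J p u = 0`, `r± = ‖p ± t u‖`,
`0 ≤ r± - 1 ≤ C t^2 ‖u‖^2`.  `HI.rel`: `‖z' + a±‖ = ‖z + b±‖`, `b± = ± t u - (r± - 1) y`,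
`a± = ± t A u + e±`, `e± = (T (p ± t u) - T p ∓ t A u) - (r± - 1) T y = O(t^2)` (`taylorT`).
`‖z + b±‖ = ‖z ± t u‖ - (r± - 1) J z y + O(t^3)`, `‖z' + a±‖ = ‖z' ± t A u‖ + K z' e± + O(t^3)` (`Dual2.lip'`).
Sum of the two signs. -/
theorem h_id [CompleteSpace X] [CompleteSpace Y] (hJ : Dual2 J C) (hK : Dual2 K C')
    (h : HI T S) {c R : ℝ} (hc : 0 < c) (hR : 0 ≤ R) :
    ∃ C1 t1 : ℝ, 0 ≤ C1 ∧ 0 < t1 ∧ ∀ (p y u : X) (t : ℝ), ‖p‖ = 1 → ‖y‖ = 1 → c ≤ ‖p - y‖ →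
      J p u = 0 → ‖u‖ ≤ R → 0 < t → t ≤ t1 →
      |K (T p - T y) (T (p + t • u) + T (p - t • u) - (2 : ℝ) • T p)
        - (sd (p - y) (t • u) - sd (T p - T y) (t • fderiv ℝ T p u)
            + sd p (t • u) * (K (T p - T y) (T y) - J (p - y) y))| ≤ C1 * t ^ 3 := by
  have hC := hJ.nonneg
  have hC' := hK.nonneg
  obtain ⟨L, hL, hT⟩ := taylorT hJ hK h
  obtain ⟨Q, hQ⟩ : ∃ Q : ℝ, Q = 2 * C' / c * (L * R ^ 2 + C * R ^ 2) ^ 2
      + C' / c * (3 * R * (L * R ^ 2 + C * R ^ 2))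
      + 2 * C / c * (C * R ^ 2) ^ 2 + C / c * (R * (C * R ^ 2)) := ⟨_, rfl⟩
  have hQ0 : 0 ≤ Q := by rw [hQ]; positivity
  refine ⟨2 * Q, min 1 (c / (6 * R + 1)), by positivity, by positivity, ?_⟩
  intro p y u t hp hy hz hu huR ht ht'
  have ht1 : t ≤ 1 := ht'.trans (min_le_left _ _)
  have ht2 : t * (6 * R) ≤ c := by
    have h1 : t ≤ c / (6 * R + 1) := ht'.trans (min_le_right _ _)
    rw [le_div_iff₀ (by positivity)] at h1
    nlinarith
  have hzz : ‖T p - T y‖ = ‖p - y‖ := h.dist p y (by rw [hp, hy])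
  have h1 := H2_one hJ hK h hc hR hL hT hp hy hz hu huR ht ht1 ht2
  have h2 := H2_one hJ hK h hc hR hL hT hp hy hz (u := -u) (by rw [map_neg, hu, neg_zero])
    (by rw [norm_neg]; exact huR) ht ht1 ht2
  rw [← hQ] at h1 h2
  rw [map_neg, smul_neg, smul_neg, ← sub_eq_add_neg, ← sub_eq_add_neg, ← sub_eq_add_neg,
    sub_neg_eq_add] at h2
  have e1 : K (T p - T y) (T (p + t • u) + T (p - t • u) - (2 : ℝ) • T p) =
      K (T p - T y) (T (p + t • u) - T p - t • fderiv ℝ T p u) +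
      K (T p - T y) (T (p - t • u) - T p + t • fderiv ℝ T p u) := by
    rw [← map_add]
    congr 1
    module
  rw [e1]
  unfold sd
  rw [hp, hzz]
  rw [abs_le] at h1 h2 ⊢
  constructor <;> nlinarith [h1.1, h1.2, h2.1, h2.2]

/-- **Shift of `y`.**  For `J y a = 0`, `‖a‖ ≤ R`, apply `h_id` at `y` and at `y' = (y - t a)/‖y - t a‖`
(`‖y' - (y - t a)‖ ≤ C t^2 ‖a‖^2`, `‖T y' - (T y - t fderiv ℝ T y a)‖ = O(t^2)`); `K z'`, `J z` change by `O(t)` and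
`‖T (p + t u) + T (p - t u) - 2 T p‖`, `sd p (t u)` are `O(t^2)`; `sd_lip` for the base points. -/
theorem h_shift [CompleteSpace X] [CompleteSpace Y] (hJ : Dual2 J C) (hK : Dual2 K C')
    (h : HI T S) {c R : ℝ} (hc : 0 < c) (hR : 0 ≤ R) :
    ∃ C1 t1 : ℝ, 0 ≤ C1 ∧ 0 < t1 ∧ ∀ (p y u a : X) (t : ℝ), ‖p‖ = 1 → ‖y‖ = 1 → c ≤ ‖p - y‖ →
      J p u = 0 → ‖u‖ ≤ R → J y a = 0 → ‖a‖ ≤ R → 0 < t → t ≤ t1 →
      |K (T p - T y) (T (p + t • u) + T (p - t • u) - (2 : ℝ) • T p)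
        - (sd (p - y + t • a) (t • u)
            - sd (T p - T y + t • fderiv ℝ T y a) (t • fderiv ℝ T p u)
            + sd p (t • u) * (K (T p - T y) (T y) - J (p - y) y))| ≤ C1 * t ^ 3 := by
  have hC := hJ.nonneg
  have hC' := hK.nonneg
  obtain ⟨L, hL, hT⟩ := taylorT hJ hK h
  obtain ⟨Q, t0, hQ, ht0, hid⟩ := h_id hJ hK h (half_pos hc) hR
  obtain ⟨Q1, hQ1, hs1⟩ := sd_lip hJ (half_pos hc)
  obtain ⟨Q2, hQ2, hs2⟩ := sd_lip hK (half_pos hc)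
  obtain ⟨F, hF⟩ : ∃ F : ℝ, F = C * R ^ 2 := ⟨_, rfl⟩
  have hF0 : 0 ≤ F := by rw [hF]; positivity
  obtain ⟨E, hE⟩ : ∃ E : ℝ, E = L * R ^ 2 + F := ⟨_, rfl⟩
  have hE0 : 0 ≤ E := by rw [hE]; positivity
  obtain ⟨G, hG⟩ : ∃ G : ℝ, G = R + F := ⟨_, rfl⟩
  have hG0 : 0 ≤ G := by rw [hG]; positivity
  refine ⟨Q + C' / c * G * (2 * L * R ^ 2) + Q1 * (F * (F + R)) + Q2 * (E * (E + 3 * R))
      + 2 * F * (C' / c * G + G + (C / c * G + G)),
    min (min 1 t0) (c / (8 * (E + F + 3 * R + 1))), by positivity, by positivity, ?_⟩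
  intro p y u a t hp hy hz hu huR ha haR ht ht'
  have ht1 : t ≤ 1 := (ht'.trans (min_le_left _ _)).trans (min_le_left _ _)
  have htt0 : t ≤ t0 := (ht'.trans (min_le_left _ _)).trans (min_le_right _ _)
  have ht8 : t * (8 * (E + F + 3 * R + 1)) ≤ c := by
    have h1 : t ≤ c / (8 * (E + F + 3 * R + 1)) := ht'.trans (min_le_right _ _)
    rwa [le_div_iff₀ (by positivity)] at h1
  have tE : 0 ≤ E * t := by positivity
  have tF : 0 ≤ F * t := by positivity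
  have tR : 0 ≤ R * t := by positivity
  have ht8' : E * t + F * t + 3 * (R * t) ≤ c / 8 := by nlinarith
  have t21 : t ^ 2 ≤ t := by nlinarith
  have hFt : F * t ^ 2 ≤ F * t := mul_le_mul_of_nonneg_left t21 hF0
  have hEt : E * t ^ 2 ≤ E * t := mul_le_mul_of_nonneg_left t21 hE0
  have hzz : ‖T p - T y‖ = ‖p - y‖ := h.dist p y (by rw [hp, hy])
  -- sizes
  have htu : ‖t • u‖ ≤ R * t := by
    rw [norm_smul, Real.norm_eq_abs, abs_of_pos ht, mul_comm]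
    exact mul_le_mul_of_nonneg_right huR ht.le
  have hta : ‖t • a‖ ≤ R * t := by
    rw [norm_smul, Real.norm_eq_abs, abs_of_pos ht, mul_comm]
    exact mul_le_mul_of_nonneg_right haR ht.le
  have hAn : ∀ (q v : X), ‖v‖ ≤ R → ‖t • fderiv ℝ T q v‖ ≤ 3 * (R * t) := by
    intro q v hv
    rw [norm_smul, Real.norm_eq_abs, abs_of_pos ht]
    have h1 := (fderiv ℝ T q).le_opNorm v
    have h2 : ‖fderiv ℝ T q‖ * ‖v‖ ≤ 3 * R :=
      mul_le_mul (fd_norm h q) hv (norm_nonneg v) (by norm_num)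
    calc t * ‖fderiv ℝ T q v‖ ≤ t * (3 * R) := mul_le_mul_of_nonneg_left (h1.trans h2) ht.le
      _ = 3 * (R * t) := by ring
  have htA := hAn p u huR
  have htB := hAn y a haR
  have hTay : ∀ (q v : X), ‖q‖ = 1 → ‖v‖ ≤ R * t →
      ‖T (q + v) - T q - fderiv ℝ T q v‖ ≤ L * R ^ 2 * t ^ 2 := by
    intro q v hq hv
    refine (hT q v hq).trans ?_
    have h4 : ‖v‖ ^ 2 ≤ (R * t) ^ 2 := pow_le_pow_left₀ (norm_nonneg v) hv 2
    calc L * ‖v‖ ^ 2 ≤ L * (R * t) ^ 2 := mul_le_mul_of_nonneg_left h4 hL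
      _ = L * R ^ 2 * t ^ 2 := by ring
  -- the point y'
  obtain ⟨r0, r1⟩ := H2_rad hJ (R := R) hy (u := -a) (by rw [map_neg, ha, neg_zero])
    (by rw [norm_neg]; exact haR) ht
  rw [smul_neg, ← sub_eq_add_neg, ← hF] at r1
  rw [smul_neg, ← sub_eq_add_neg] at r0
  obtain ⟨ρ, hρ⟩ : ∃ ρ : ℝ, ρ = ‖y - t • a‖ := ⟨_, rfl⟩
  rw [← hρ] at r0 r1
  have hρ0 : 0 < ρ := by linarith
  obtain ⟨y', hy'⟩ : ∃ y' : X, y' = ρ⁻¹ • (y - t • a) := ⟨_, rfl⟩
  have hy'1 : ‖y'‖ = 1 := by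
    rw [hy', norm_smul, norm_inv, Real.norm_eq_abs, abs_of_pos hρ0, ← hρ,
      inv_mul_cancel₀ hρ0.ne']
  have hyy : y - t • a = ρ • y' := by
    rw [hy', smul_inv_smul₀ hρ0.ne']
  have hTyy : T (y - t • a) = ρ • T y' := by rw [hyy, h.smul ρ hρ0.le]
  obtain ⟨e1, he1⟩ : ∃ e1 : X, e1 = (ρ - 1) • y' := ⟨_, rfl⟩
  have he1n : ‖e1‖ ≤ F * t ^ 2 := by
    rw [he1, norm_smul, hy'1, mul_one, Real.norm_eq_abs, abs_of_nonneg r0]
    exact r1
  have hz1 : p - y' = p - y + t • a + e1 := by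
    have h1 : y = ρ • y' + t • a := by rw [← hyy]; abel
    rw [he1, h1]
    module
  obtain ⟨D, hD⟩ : ∃ D : Y, D = T (y + -(t • a)) - T y - fderiv ℝ T y (-(t • a)) := ⟨_, rfl⟩
  have hDn : ‖D‖ ≤ L * R ^ 2 * t ^ 2 := by
    rw [hD]
    exact hTay y (-(t • a)) hy (by rw [norm_neg]; exact hta)
  obtain ⟨e2, he2⟩ : ∃ e2 : Y, e2 = (ρ - 1) • T y' - D := ⟨_, rfl⟩
  have he2n : ‖e2‖ ≤ E * t ^ 2 := by
    rw [he2]
    refine (norm_sub_le _ _).trans ?_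
    rw [norm_smul, h.norm, hy'1, mul_one, Real.norm_eq_abs, abs_of_nonneg r0]
    have : E * t ^ 2 = L * R ^ 2 * t ^ 2 + F * t ^ 2 := by rw [hE]; ring
    rw [this]
    linarith
  have hz2 : T p - T y' = T p - T y + t • fderiv ℝ T y a + e2 := by
    have h1 : D = ρ • T y' - T y + t • fderiv ℝ T y a := by
      rw [hD, ← sub_eq_add_neg, hTyy, map_neg, map_smul, sub_neg_eq_add]
    rw [he2, h1]
    module
  have hyd : ‖y' - y‖ ≤ G * t := by
    have h1 : y' - y = -(t • a) - e1 := by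
      have h2 : y = ρ • y' + t • a := by rw [← hyy]; abel
      rw [he1, h2]
      module
    rw [h1]
    refine (norm_sub_le _ _).trans ?_
    rw [norm_neg, hG, add_mul]
    linarith
  have hTyd : ‖T y' - T y‖ ≤ G * t := by
    rw [h.dist y' y (by rw [hy, hy'1])]
    exact hyd
  have hGc : G * t ≤ c / 8 := by
    rw [hG, add_mul]
    linarith
  have hpy' : c / 2 ≤ ‖p - y'‖ := by
    have h1 : ‖p - y‖ ≤ ‖p - y'‖ + ‖y' - y‖ := norm_sub_le_norm_sub_add_norm_sub _ _ _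
    linarith
  -- the second order relation at y'
  have b1 := hid p y' u t hp hy'1 hpy' hu huR ht htt0
  -- the second differences
  have b3 := hs1 (p - y + t • a) e1 (t • u) (by
      have h1 := norm_sub_le (p - y + t • a) (t • a)
      rw [add_sub_cancel_right] at h1
      linarith) (by linarith) (by linarith)
  rw [← hz1] at b3
  have b4 := hs2 (T p - T y + t • fderiv ℝ T y a) e2 (t • fderiv ℝ T p u) (by
      have h1 := norm_sub_le (T p - T y + t • fderiv ℝ T y a) (t • fderiv ℝ T y a)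
      rw [add_sub_cancel_right, hzz] at h1
      linarith) (by linarith) (by linarith)
  rw [← hz2] at b4
  have b3' : |sd (p - y') (t • u) - sd (p - y + t • a) (t • u)| ≤ Q1 * (F * (F + R)) * t ^ 3 := by
    refine b3.trans ?_
    have h1 : ‖e1‖ * (‖e1‖ + ‖t • u‖) ≤ F * t ^ 2 * (F * t + R * t) :=
      mul_le_mul he1n (by linarith) (by positivity) (by positivity)
    calc Q1 * (‖e1‖ * (‖e1‖ + ‖t • u‖)) ≤ Q1 * (F * t ^ 2 * (F * t + R * t)) :=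
          mul_le_mul_of_nonneg_left h1 hQ1
      _ = _ := by ring
  have b4' : |sd (T p - T y') (t • fderiv ℝ T p u)
      - sd (T p - T y + t • fderiv ℝ T y a) (t • fderiv ℝ T p u)|
      ≤ Q2 * (E * (E + 3 * R)) * t ^ 3 := by
    refine b4.trans ?_
    have h1 : ‖e2‖ * (‖e2‖ + ‖t • fderiv ℝ T p u‖) ≤ E * t ^ 2 * (E * t + 3 * (R * t)) :=
      mul_le_mul he2n (by linarith) (by positivity) (by positivity)
    calc Q2 * (‖e2‖ * (‖e2‖ + ‖t • fderiv ℝ T p u‖)) ≤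
          Q2 * (E * t ^ 2 * (E * t + 3 * (R * t))) := mul_le_mul_of_nonneg_left h1 hQ2
      _ = _ := by ring
  -- the second difference of T
  obtain ⟨D2, hD2⟩ : ∃ D2 : Y, D2 = T (p + t • u) + T (p - t • u) - (2 : ℝ) • T p := ⟨_, rfl⟩
  have hD2n : ‖D2‖ ≤ 2 * L * R ^ 2 * t ^ 2 := by
    have h1 := hTay p (t • u) hp htu
    have h2 := hTay p (-(t • u)) hp (by rw [norm_neg]; exact htu)
    have h3 : D2 = (T (p + t • u) - T p - fderiv ℝ T p (t • u))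
        + (T (p + -(t • u)) - T p - fderiv ℝ T p (-(t • u))) := by
      rw [hD2, map_neg, ← sub_eq_add_neg]
      module
    rw [h3]
    refine (norm_add_le _ _).trans ?_
    linarith
  rw [← hD2] at b1 ⊢
  have dK : ‖T p - T y - (T p - T y')‖ ≤ G * t := by
    rw [sub_sub_sub_cancel_left]
    exact hTyd
  have dJ : ‖p - y - (p - y')‖ ≤ G * t := by
    rw [sub_sub_sub_cancel_left]
    exact hyd
  have lK : ∀ v : Y, |K (T p - T y) v - K (T p - T y') v| ≤ C' / c * (G * t) * ‖v‖ := by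
    intro v
    refine (H2_lip2 hK hc (T p - T y') v (by rw [hzz]; exact hz)).trans ?_
    refine mul_le_mul_of_nonneg_right ?_ (norm_nonneg v)
    exact mul_le_mul_of_nonneg_left dK (by positivity)
  have lJ : ∀ v : X, |J (p - y) v - J (p - y') v| ≤ C / c * (G * t) * ‖v‖ := by
    intro v
    refine (H2_lip2 hJ hc (p - y') v hz).trans ?_
    refine mul_le_mul_of_nonneg_right ?_ (norm_nonneg v)
    exact mul_le_mul_of_nonneg_left dJ (by positivity)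
  have b2 : |K (T p - T y) D2 - K (T p - T y') D2| ≤ C' / c * G * (2 * L * R ^ 2) * t ^ 3 := by
    refine (lK D2).trans ?_
    calc C' / c * (G * t) * ‖D2‖ ≤ C' / c * (G * t) * (2 * L * R ^ 2 * t ^ 2) :=
          mul_le_mul_of_nonneg_left hD2n (by positivity)
      _ = _ := by ring
  have b5 : |K (T p - T y') (T y') - K (T p - T y) (T y)| ≤ (C' / c * G + G) * t := by
    have h1 := lK (T y')
    rw [h.norm, hy'1, mul_one] at h1
    have h2 := hK.toDual.abs_le (T p - T y) (T y' - T y)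
    rw [map_sub] at h2
    have h3 := h2.trans hTyd
    have h4 : (C' / c * G + G) * t = C' / c * (G * t) + G * t := by ring
    rw [h4]
    rw [abs_le] at h1 h3 ⊢
    constructor <;> linarith [h1.1, h1.2, h3.1, h3.2]
  have b6 : |J (p - y') y' - J (p - y) y| ≤ (C / c * G + G) * t := by
    have h1 := lJ y'
    rw [hy'1, mul_one] at h1
    have h2 := hJ.toDual.abs_le (p - y) (y' - y)
    rw [map_sub] at h2
    have h3 := h2.trans hyd
    have h4 : (C / c * G + G) * t = C / c * (G * t) + G * t := by ring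
    rw [h4]
    rw [abs_le] at h1 h3 ⊢
    constructor <;> linarith [h1.1, h1.2, h3.1, h3.2]
  have hsd0 : 0 ≤ sd p (t • u) := sd_nonneg _ _
  have hsd1 : sd p (t • u) ≤ 2 * F * t ^ 2 := by
    obtain ⟨-, q1⟩ := H2_rad hJ hp hu huR ht
    obtain ⟨-, q2⟩ := H2_rad hJ (R := R) hp (u := -u) (by rw [map_neg, hu, neg_zero])
      (by rw [norm_neg]; exact huR) ht
    rw [smul_neg, ← sub_eq_add_neg, ← hF] at q2
    rw [← hF] at q1
    unfold sd
    rw [hp]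
    linarith
  have b7 : |sd p (t • u) * ((K (T p - T y') (T y') - K (T p - T y) (T y))
      - (J (p - y') y' - J (p - y) y))| ≤
      2 * F * (C' / c * G + G + (C / c * G + G)) * t ^ 3 := by
    rw [abs_mul, abs_of_nonneg hsd0]
    have h1 : |(K (T p - T y') (T y') - K (T p - T y) (T y))
      - (J (p - y') y' - J (p - y) y)| ≤ (C' / c * G + G) * t + (C / c * G + G) * t :=
      (abs_sub _ _).trans (add_le_add b5 b6)
    calc sd p (t • u) * |(K (T p - T y') (T y') - K (T p - T y) (T y))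
          - (J (p - y') y' - J (p - y) y)|
        ≤ 2 * F * t ^ 2 * ((C' / c * G + G) * t + (C / c * G + G) * t) :=
          mul_le_mul hsd1 h1 (abs_nonneg _) (by positivity)
      _ = _ := by ring
  have hsplit : sd p (t • u) * ((K (T p - T y') (T y') - K (T p - T y) (T y))
      - (J (p - y') y' - J (p - y) y)) =
      sd p (t • u) * (K (T p - T y') (T y') - J (p - y') y')
      - sd p (t • u) * (K (T p - T y) (T y) - J (p - y) y) := by ring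
  rw [hsplit] at b7
  have hfin : (Q + C' / c * G * (2 * L * R ^ 2) + Q1 * (F * (F + R)) + Q2 * (E * (E + 3 * R))
      + 2 * F * (C' / c * G + G + (C / c * G + G))) * t ^ 3 =
      Q * t ^ 3 + C' / c * G * (2 * L * R ^ 2) * t ^ 3 + Q1 * (F * (F + R)) * t ^ 3
      + Q2 * (E * (E + 3 * R)) * t ^ 3
      + 2 * F * (C' / c * G + G + (C / c * G + G)) * t ^ 3 := by ring
  rw [hfin]
  rw [abs_le] at b1 b2 b3' b4' b7 ⊢
  constructor <;> linarith [b1.1, b1.2, b2.1, b2.2, b3'.1, b3'.2, b4'.1, b4'.2, b7.1, b7.2]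

end P084GII
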