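import Vale.Agent.Lib.P084G.II.CaseH2

/-! Part II, case H: telescoping and conclusion. -/

open Filter Topology

namespace P084GII

open Vale.Agent.P084G

variable {X Y : Type*} [NormedAddCommGroup X] [NormedSpace ℝ X] [NormedAddCommGroup Y]
  [NormedSpace ℝ Y] {J : X → X →L[ℝ] ℝ} {K : Y → Y →L[ℝ] ℝ} {T : X → Y} {S : Y → X} {C C' : ℝ}

private theorem CaseH3_tel (f : ℕ → ℝ) (m : ℕ) :
    ∑ i ∈ Finset.range m, (f (i + 2) + f i - 2 * f (i + 1))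
      = (f (m + 1) - f m) - (f 1 - f 0) := by
  have h := Finset.sum_range_sub (fun i => f (i + 1) - f i) m
  simp only [zero_add] at h
  rw [← h]
  refine Finset.sum_congr rfl fun i _ => ?_
  ring

private theorem CaseH3_telb (f : ℕ → ℝ) (m : ℕ) {M : ℝ}
    (hf : ∀ i, i ≤ m + 1 → 0 ≤ f i ∧ f i ≤ M) :
    |∑ i ∈ Finset.range m, (f (i + 2) + f i - 2 * f (i + 1))| ≤ 2 * M := by
  rw [CaseH3_tel]
  have h0 := hf 0 (by omega)
  have h1 := hf 1 (by omega)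
  have h2 := hf m (by omega)
  have h3 := hf (m + 1) (by omega)
  rw [abs_le]
  constructor <;> linarith [h0.1, h0.2, h1.1, h1.2, h2.1, h2.2, h3.1, h3.2]

/-- two-parameter telescoping (sum the hypothesis over `1 ≤ i, j ≤ m`) -/
theorem h_tele (m : ℕ) (hm : 1 ≤ m) (s s' : ℕ → ℕ → ℝ) (P ε M : ℝ)
    (hs : ∀ i j, i ≤ m + 1 → j ≤ m + 1 → 0 ≤ s i j ∧ s i j ≤ M)
    (hs' : ∀ i j, i ≤ m + 1 → j ≤ m + 1 → 0 ≤ s' i j ∧ s' i j ≤ M)
    (hP : ∀ i j, 1 ≤ i → i ≤ m → 1 ≤ j → j ≤ m →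
      |P - ((s (i + 1) j + s (i - 1) j - 2 * s i j) - (s' i (j + 1) + s' i (j - 1) - 2 * s' i j))|
        ≤ ε) : |P| ≤ ε + 4 * M / m := by
  have hm0 : (0 : ℝ) < m := by exact_mod_cast hm
  set A : ℕ → ℕ → ℝ := fun i j => s (i + 2) (j + 1) + s i (j + 1) - 2 * s (i + 1) (j + 1) with hA
  set B : ℕ → ℕ → ℝ := fun i j => s' (i + 1) (j + 2) + s' (i + 1) j - 2 * s' (i + 1) (j + 1)
    with hB
  have h1 : |∑ i ∈ Finset.range m, ∑ j ∈ Finset.range m, (P - (A i j - B i j))|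
      ≤ m * (m * ε) := by
    refine (Finset.abs_sum_le_sum_abs _ _).trans ?_
    refine (Finset.sum_le_card_nsmul _ _ (m * ε) fun i hi => ?_).trans ?_
    · refine (Finset.abs_sum_le_sum_abs _ _).trans ?_
      refine (Finset.sum_le_card_nsmul _ _ ε fun j hj => ?_).trans ?_
      · have := hP (i + 1) (j + 1) (by omega) (by have := Finset.mem_range.1 hi; omega) (by omega)
          (by have := Finset.mem_range.1 hj; omega)
        simpa [hA, hB, add_assoc] using this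
      · rw [Finset.card_range, nsmul_eq_mul]
    · rw [Finset.card_range, nsmul_eq_mul]
  have h2 : |∑ i ∈ Finset.range m, ∑ j ∈ Finset.range m, A i j| ≤ m * (2 * M) := by
    rw [Finset.sum_comm]
    refine (Finset.abs_sum_le_sum_abs _ _).trans ?_
    refine (Finset.sum_le_card_nsmul _ _ (2 * M) fun j hj => ?_).trans ?_
    · exact CaseH3_telb (fun i => s i (j + 1)) m fun i hi =>
        hs i (j + 1) hi (by have := Finset.mem_range.1 hj; omega)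
    · rw [Finset.card_range, nsmul_eq_mul]
  have h3 : |∑ i ∈ Finset.range m, ∑ j ∈ Finset.range m, B i j| ≤ m * (2 * M) := by
    refine (Finset.abs_sum_le_sum_abs _ _).trans ?_
    refine (Finset.sum_le_card_nsmul _ _ (2 * M) fun i hi => ?_).trans ?_
    · exact CaseH3_telb (fun j => s' (i + 1) j) m fun j hj =>
        hs' (i + 1) j (by have := Finset.mem_range.1 hi; omega) hj
    · rw [Finset.card_range, nsmul_eq_mul]
  have h4 : ∑ i ∈ Finset.range m, ∑ j ∈ Finset.range m, (P - (A i j - B i j))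
      = m * (m * P) - (∑ i ∈ Finset.range m, ∑ j ∈ Finset.range m, A i j
        - ∑ i ∈ Finset.range m, ∑ j ∈ Finset.range m, B i j) := by
    simp only [Finset.sum_sub_distrib, Finset.sum_const, Finset.card_range, nsmul_eq_mul]
  rw [h4] at h1
  have h5 : |(m : ℝ) * (m * P)| ≤ m * (m * ε) + 4 * (m * M) := by
    rw [abs_le] at h1 h2 h3 ⊢
    constructor <;> linarith [h1.1, h1.2, h2.1, h2.2, h3.1, h3.2]
  rw [abs_mul, abs_mul, abs_of_pos hm0] at h5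
  have h6 : |P| * (m * m) ≤ (ε + 4 * M / m) * (m * m) := by
    have e : (ε + 4 * M / m) * (m * m) = m * (m * ε) + 4 * (m * M) := by
      field_simp
    rw [e]
    linarith
  exact le_of_mul_le_mul_right h6 (by positivity)

/-- The parallelogram defect of a function `Q` -/
def pd {V W : Type*} [AddCommGroup V] [AddCommGroup W] (Q : V → W) (h k : V) : W :=
  Q (h + k) + Q (h - k) - (Q h + Q h) - (Q k + Q k)

/-- moving along the ray, in the form used below -/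
private theorem CaseH3_ray (hJ : Dual2 J C) {g R : ℝ} (hg : 0 < g) (hR : 1 ≤ R) :
    ∃ C1 t1 : ℝ, 0 ≤ C1 ∧ 0 < t1 ∧ ∀ (z v b k : X) (κ t : ℝ), 2 * g ≤ ‖z‖ → ‖z‖ ≤ 2 →
      ‖v + b‖ ≤ R → |κ| ≤ R → ‖k‖ ≤ R * t → 0 < t → t ≤ t1 →
      |sd (z + t • v + t • (b - κ • z)) k - sd (z + t • (v + b)) k| ≤ C1 * t ^ 3 := by
  have hR0 : 0 ≤ R ^ 2 := by positivity
  obtain ⟨C1, t1, hC1, ht1, hr⟩ := sd_ray hJ hg hR0
  have hRp : 0 < R := by linarith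
  refine ⟨C1, min t1 (min (g / R) (2 / R)), hC1, by positivity, ?_⟩
  intro z v b k κ t hz hz2 hv hκ hk ht ht1'
  have h1 : t ≤ t1 := ht1'.trans (min_le_left _ _)
  have h2 : t * R ≤ g := by
    have := ht1'.trans ((min_le_right _ _).trans (min_le_left _ _))
    rwa [le_div_iff₀ hRp] at this
  have h3 : t * R ≤ 2 := by
    have := ht1'.trans ((min_le_right _ _).trans (min_le_right _ _))
    rwa [le_div_iff₀ hRp] at this
  have hRR : R ≤ R ^ 2 := by nlinarith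
  have h4 : ‖t • (v + b)‖ ≤ t * R := by
    rw [norm_smul, Real.norm_of_nonneg ht.le]
    exact mul_le_mul_of_nonneg_left hv ht.le
  have h5 : ‖z‖ - ‖t • (v + b)‖ ≤ ‖z + t • (v + b)‖ := by
    have := norm_sub_norm_le z (-(t • (v + b)))
    rwa [sub_neg_eq_add, norm_neg] at this
  have h6 := norm_add_le z (t • (v + b))
  refine hr (z + t • (v + b)) (z + t • v + t • (b - κ • z)) ((t ^ 2 * κ) • (v + b)) k
    (-(t * κ)) t (by linarith) (by linarith) ht h1 ?_ ?_ ?_ ?_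
  · rw [abs_neg, abs_mul, abs_of_pos ht, mul_comm]
    exact mul_le_mul_of_nonneg_right (hκ.trans hRR) ht.le
  · rw [norm_smul, Real.norm_eq_abs, abs_mul, abs_of_nonneg (sq_nonneg t)]
    have h7 : |κ| * ‖v + b‖ ≤ R * R := mul_le_mul hκ hv (norm_nonneg _) hRp.le
    have h8 : t ^ 2 * (|κ| * ‖v + b‖) ≤ t ^ 2 * (R * R) := mul_le_mul_of_nonneg_left h7 (sq_nonneg t)
    nlinarith
  · refine hk.trans (mul_le_mul_of_nonneg_right hRR ht.le)
  · module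

private theorem CaseH3_z {p y : X} (hp : ‖p‖ = 1) (hy : ‖y‖ = 1) {g : ℝ}
    (hpy : ‖p + y‖ ≤ 2 - 2 * g) : 2 * g ≤ ‖p - y‖ ∧ ‖p - y‖ ≤ 2 := by
  constructor
  · have h4 : ‖(2 : ℝ) • p‖ ≤ ‖p - y‖ + ‖p + y‖ := by
      have e1 : (2 : ℝ) • p = (p - y) + (p + y) := by module
      rw [e1]
      exact norm_add_le _ _
    rw [norm_smul, hp, Real.norm_of_nonneg (by norm_num : (0 : ℝ) ≤ 2)] at h4
    linarith
  · have := norm_sub_le p y
    rw [hp, hy] at this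
    linarith

/-- `J y z ≤ - 2 g` -/
private theorem CaseH3_Jz (hJ : Dual J) {p y : X} (hy : ‖y‖ = 1) {g : ℝ}
    (hpy : ‖p + y‖ ≤ 2 - 2 * g) : J y (p - y) ≤ -(2 * g) := by
  have h1 := hJ.le y (p + y)
  rw [map_add, hJ.self, hy] at h1
  rw [map_sub, hJ.self, hy]
  linarith

/-- correcting a vector along `z` so that it lies in the kernel -/
private theorem CaseH3_corr (hJ : Dual J) {y z v : X} {g M : ℝ} (hg : 0 < g)
    (hz : J y z ≤ -(2 * g)) (hz2 : ‖z‖ ≤ 2) (hv : ‖v‖ ≤ M) :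
    ∃ κ : ℝ, J y (v + κ • z) = 0 ∧ |κ| ≤ M / (2 * g) ∧ ‖v + κ • z‖ ≤ M + M / g := by
  have hne : J y z ≠ 0 := by
    intro h0
    rw [h0] at hz
    linarith
  have hM : 0 ≤ M := (norm_nonneg v).trans hv
  have hκ : |-(J y v / J y z)| ≤ M / (2 * g) := by
    rw [abs_neg, abs_div, div_le_div_iff₀ (abs_pos.2 hne) (by positivity)]
    have h1 : |J y v| ≤ M := (hJ.abs_le y v).trans hv
    have h2 : 2 * g ≤ |J y z| := by
      rw [abs_of_nonpos (by linarith)]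
      linarith
    exact mul_le_mul h1 h2 (by positivity) hM
  refine ⟨-(J y v / J y z), ?_, hκ, ?_⟩
  · rw [map_add, map_smul, smul_eq_mul]
    field_simp
    ring
  · refine (norm_add_le _ _).trans (add_le_add hv ?_)
    rw [norm_smul, Real.norm_eq_abs]
    have h3 : |-(J y v / J y z)| * ‖z‖ ≤ M / (2 * g) * 2 :=
      mul_le_mul hκ hz2 (norm_nonneg _) (by positivity)
    refine h3.trans (le_of_eq ?_)
    field_simp

/-- the vectors `a1`, `a2` -/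
private theorem CaseH3_vec [CompleteSpace X] [CompleteSpace Y] (hJ : DualU J) (hK : DualU K)
    (h : HI T S) {g : ℝ} (hg : 0 < g) :
    ∃ R : ℝ, 4 ≤ R ∧ ∀ p y v : X, ‖p‖ = 1 → ‖y‖ = 1 → ‖p + y‖ ≤ 2 - 2 * g → ‖v‖ ≤ 2 →
      ∃ (a1 a2 : X) (κ κ' : ℝ), ‖a1‖ ≤ R ∧ ‖a2‖ ≤ R ∧ |κ| ≤ R ∧ |κ'| ≤ R ∧ J y a1 = 0 ∧
        J y a2 = 0 ∧ v = a1 - κ • (p - y) ∧
        fderiv ℝ T p v = fderiv ℝ T y a2 - κ' • (T p - T y) := by
  set g' : ℝ := g ^ 2 / 8 with hg'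
  have hg'0 : 0 < g' := by positivity
  refine ⟨4 + (2 / (2 * g) + (2 + 2 / g)) + (6 / (2 * g') + 3 * (6 + 6 / g')), ?_, ?_⟩
  · have : 0 ≤ (2 / (2 * g) + (2 + 2 / g)) + (6 / (2 * g') + 3 * (6 + 6 / g')) := by positivity
    linarith
  intro p y v hp hy hpy hv
  have hy0 : y ≠ 0 := by
    intro h0
    rw [h0, norm_zero] at hy
    exact zero_ne_one hy
  obtain ⟨hz1, hz2⟩ := CaseH3_z hp hy hpy
  have hTp : ‖T p‖ = 1 := by rw [h.norm, hp]
  have hTy : ‖T y‖ = 1 := by rw [h.norm, hy]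
  have hz' : ‖T p - T y‖ ≤ 2 := by rw [h.dist p y (by rw [hp, hy])]; exact hz2
  have hT := gap_image h.siso hp hy hg.le hpy
  obtain ⟨κ, e1, e2, e3⟩ := CaseH3_corr hJ.toDual hg (CaseH3_Jz hJ.toDual hy hpy) hz2 hv
  have hA : ‖fderiv ℝ T p v‖ ≤ 6 := by
    refine ((fderiv ℝ T p).le_opNorm v).trans ?_
    have h1 := fd_norm h p
    have h2 := norm_nonneg (fderiv ℝ T p)
    have h3 := norm_nonneg v
    nlinarith
  obtain ⟨κ', f1, f2, f3⟩ := CaseH3_corr hK.toDual hg'0 (CaseH3_Jz hK.toDual hTy hT) hz' hA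
  have hinv : fderiv ℝ T y (fderiv ℝ S (T y) (fderiv ℝ T p v + κ' • (T p - T y)))
      = fderiv ℝ T p v + κ' • (T p - T y) := by
    have := fd_inv hK hJ h.symm (diff_ne h hy0) (fderiv ℝ T p v + κ' • (T p - T y))
    rwa [h.ST] at this
  have p1 : 0 ≤ 2 / (2 * g) := by positivity
  have p2 : 0 ≤ 2 / g := by positivity
  have p3 : 0 ≤ 6 / (2 * g') := by positivity
  have p4 : 0 ≤ 6 / g' := by positivity
  refine ⟨v + κ • (p - y), fderiv ℝ S (T y) (fderiv ℝ T p v + κ' • (T p - T y)), κ, κ',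
    by linarith, ?_, by linarith, by linarith, e1, ?_, ?_, ?_⟩
  · refine ((fderiv ℝ S (T y)).le_opNorm _).trans ?_
    have h1 := fd_norm h.symm (T y)
    have h4 : ‖fderiv ℝ S (T y)‖ * ‖fderiv ℝ T p v + κ' • (T p - T y)‖ ≤ 3 * (6 + 6 / g') :=
      mul_le_mul h1 f3 (norm_nonneg _) (by norm_num)
    linarith
  · rw [← fd_K hJ hK h hy0, hinv]
    exact f1
  · rw [add_sub_cancel_right]
  · rw [hinv, add_sub_cancel_right]

private theorem CaseH3_norm3 (h : HI T S) (y b : X) {R : ℝ} (hb : ‖b‖ ≤ R) :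
    ‖fderiv ℝ T y b‖ ≤ 3 * R :=
  ((fderiv ℝ T y).le_opNorm b).trans
    (mul_le_mul (fd_norm h y) hb (norm_nonneg _) (by norm_num))

/-- the difference of the two second differences with steps `± h2` -/
private theorem CaseH3_side (hJ : Dual2 J C) {g R : ℝ} (hg : 0 < g) (hR : 1 ≤ R) :
    ∃ C1 t1 : ℝ, 0 ≤ C1 ∧ 0 < t1 ∧ ∀ (z a b h1 h2 : X) (κ t : ℝ), 2 * g ≤ ‖z‖ → ‖z‖ ≤ 2 →
      ‖a + b‖ ≤ R → ‖a - b‖ ≤ R → |κ| ≤ R → ‖h1‖ ≤ R → h2 = b - κ • z → 0 < t → t ≤ t1 →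
      |(sd (z + t • a) (t • (h1 + h2)) + sd (z + t • a) (t • (h1 - h2))
          - 2 * sd (z + t • a) (t • h1) - 2 * sd (z + t • a) (t • h2))
        - (sd (z + t • (a + b)) (t • h1) + sd (z + t • (a - b)) (t • h1)
          - 2 * sd (z + t • a) (t • h1))| ≤ C1 * t ^ 3 := by
  obtain ⟨C1, t1, hC1, ht1, hr⟩ := CaseH3_ray hJ hg hR
  refine ⟨2 * C1, t1, by positivity, ht1, ?_⟩
  intro z a b h1 h2 κ t hz hz2 hab hab' hκ hh1 hh2 ht htt
  have hk : ‖t • h1‖ ≤ R * t := by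
    rw [norm_smul, Real.norm_of_nonneg ht.le, mul_comm]
    exact mul_le_mul_of_nonneg_right hh1 ht.le
  have r1 := hr z a b (t • h1) κ t hz hz2 hab hκ hk ht htt
  have r2 := hr z a (-b) (t • h1) (-κ) t hz hz2 (by rwa [← sub_eq_add_neg]) (by rwa [abs_neg]) hk
    ht htt
  have e1 : -b - (-κ) • z = -h2 := by rw [hh2]; module
  rw [← hh2] at r1
  rw [e1, ← sub_eq_add_neg a b, smul_neg, ← sub_eq_add_neg] at r2
  have e2 := sd_par (z + t • a) (t • h1) (t • h2)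
  rw [← smul_add, ← smul_sub] at e2
  rw [abs_le] at r1 r2 ⊢
  constructor <;> linarith [r1.1, r1.2, r2.1, r2.2]

private theorem CaseH3_lin {q1 q2 q3 q4 l1 l2 l3 l4 x1 x2 x3 x4 y1 y2 y3 y4 u1 u2 v1 v2 C1 C2 C3 t : ℝ}
    (s1 : |q1 - (x1 - y1 + l1)| ≤ C1 * t ^ 3) (s2 : |q2 - (x2 - y2 + l2)| ≤ C1 * t ^ 3)
    (s3 : |q3 - (x3 - y3 + l3)| ≤ C1 * t ^ 3) (s4 : |q4 - (x4 - y4 + l4)| ≤ C1 * t ^ 3)
    (r1 : |(x1 + x2 - 2 * x3 - 2 * x4) - (u1 + u2 - 2 * x3)| ≤ C2 * t ^ 3)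
    (r2 : |(y1 + y2 - 2 * y3 - 2 * y4) - (v1 + v2 - 2 * y3)| ≤ C3 * t ^ 3) :
    |((q1 - l1) + (q2 - l2) - ((q3 - l3) + (q3 - l3)) - ((q4 - l4) + (q4 - l4)))
      - ((u1 + u2 - 2 * x3) - (v1 + v2 - 2 * y3))| ≤ (6 * C1 + C2 + C3) * t ^ 3 := by
  have e : (6 * C1 + C2 + C3) * t ^ 3 = 6 * (C1 * t ^ 3) + C2 * t ^ 3 + C3 * t ^ 3 := by ring
  rw [e]
  rw [abs_le] at s1 s2 s3 s4 r1 r2 ⊢
  constructor <;>
    linarith [s1.1, s1.2, s2.1, s2.2, s3.1, s3.2, s4.1, s4.2, r1.1, r1.2, r2.1, r2.2]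

/-- one step of the telescoping -/
private theorem CaseH3_step [CompleteSpace X] [CompleteSpace Y] (hJ : Dual2 J C)
    (hK : Dual2 K C') (h : HI T S) {g R : ℝ} (hg : 0 < g) (hR : 4 ≤ R) :
    ∃ C1 t1 : ℝ, 0 ≤ C1 ∧ 0 < t1 ∧ ∀ (p y h1 h2 a a1 a2 : X) (κ κ' t : ℝ), ‖p‖ = 1 → ‖y‖ = 1 →
      ‖p + y‖ ≤ 2 - 2 * g → J p h1 = 0 → J p h2 = 0 → ‖h1‖ ≤ 2 → ‖h2‖ ≤ 2 → J y a = 0 →
      ‖a‖ ≤ R → ‖a + a1‖ ≤ R → ‖a - a1‖ ≤ R → ‖a + a2‖ ≤ R → ‖a - a2‖ ≤ R → |κ| ≤ R →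
      |κ'| ≤ R → h2 = a1 - κ • (p - y) →
      fderiv ℝ T p h2 = fderiv ℝ T y a2 - κ' • (T p - T y) → 0 < t → t ≤ t1 →
      |pd (fun u => K (T p - T y) (T (p + t • u) + T (p - t • u) - (2 : ℝ) • T p)
        - sd p (t • u) * (K (T p - T y) (T y) - J (p - y) y)) h1 h2
        - ((sd (p - y + t • (a + a1)) (t • h1) + sd (p - y + t • (a - a1)) (t • h1)
            - 2 * sd (p - y + t • a) (t • h1))
          - (sd (T p - T y + t • fderiv ℝ T y (a + a2)) (t • fderiv ℝ T p h1)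
            + sd (T p - T y + t • fderiv ℝ T y (a - a2)) (t • fderiv ℝ T p h1)
            - 2 * sd (T p - T y + t • fderiv ℝ T y a) (t • fderiv ℝ T p h1)))| ≤ C1 * t ^ 3 := by
  have hR1 : 1 ≤ R := by linarith
  have hR3 : 1 ≤ 3 * R := by linarith
  have hR0 : 0 ≤ R := by linarith
  obtain ⟨C1, t1, hC1, ht1, hs⟩ := h_shift hJ hK h (c := 2 * g) (by positivity) hR0
  obtain ⟨C2, t2, hC2, ht2, hr⟩ := CaseH3_side hJ hg hR1
  obtain ⟨C3, t3, hC3, ht3, hr'⟩ := CaseH3_side hK hg hR3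
  refine ⟨6 * C1 + C2 + C3, min t1 (min t2 t3), by positivity, by positivity, ?_⟩
  intro p y h1 h2 a a1 a2 κ κ' t hp hy hpy hJ1 hJ2 hh1 hh2 hya ha ha1 ha1' ha2 ha2' hκ hκ'
    he he' ht htt
  have htt1 : t ≤ t1 := htt.trans (min_le_left _ _)
  have htt2 : t ≤ t2 := htt.trans ((min_le_right _ _).trans (min_le_left _ _))
  have htt3 : t ≤ t3 := htt.trans ((min_le_right _ _).trans (min_le_right _ _))
  obtain ⟨hz1, hz2⟩ := CaseH3_z hp hy hpy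
  have hzz : ‖T p - T y‖ = ‖p - y‖ := h.dist p y (by rw [hp, hy])
  have hpl : ‖h1 + h2‖ ≤ R := (norm_add_le _ _).trans (by linarith)
  have hmi : ‖h1 - h2‖ ≤ R := (norm_sub_le _ _).trans (by linarith)
  have s1 := hs p y (h1 + h2) a t hp hy hz1 (by rw [map_add, hJ1, hJ2, add_zero]) hpl hya ha ht
    htt1
  have s2 := hs p y (h1 - h2) a t hp hy hz1 (by rw [map_sub, hJ1, hJ2, sub_zero]) hmi hya ha ht
    htt1
  have s3 := hs p y h1 a t hp hy hz1 hJ1 (by linarith) hya ha ht htt1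
  have s4 := hs p y h2 a t hp hy hz1 hJ2 (by linarith) hya ha ht htt1
  have r1 := hr (p - y) a a1 h1 h2 κ t hz1 hz2 ha1 ha1' hκ (by linarith) he ht htt2
  have r2 := hr' (T p - T y) (fderiv ℝ T y a) (fderiv ℝ T y a2) (fderiv ℝ T p h1)
    (fderiv ℝ T p h2) κ' t (by rw [hzz]; exact hz1) (by rw [hzz]; exact hz2)
    (by rw [← map_add]; exact CaseH3_norm3 h y _ ha2)
    (by rw [← map_sub]; exact CaseH3_norm3 h y _ ha2') (by linarith)
    (CaseH3_norm3 h p _ (by linarith)) he' ht htt3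
  rw [← map_add (fderiv ℝ T p), ← map_sub (fderiv ℝ T p), ← map_add (fderiv ℝ T y),
    ← map_sub (fderiv ℝ T y)] at r2
  simp only [pd]
  generalize K (T p - T y) (T y) - J (p - y) y = lam at *
  exact CaseH3_lin s1 s2 s3 s4 r1 r2

private theorem CaseH3_num {C1 t ε M0 m : ℝ} (hm0 : 0 < m) (hmε : 8 * M0 < m * ε) (ht : 0 < t)
    (h3 : t * (2 * (C1 + 1)) ≤ ε) : C1 * t ^ 3 + 4 * (M0 * t ^ 2) / m ≤ ε * t ^ 2 := by
  have k1 : C1 * t ^ 3 ≤ ε / 2 * t ^ 2 := by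
    have h5 : C1 * t ≤ ε / 2 := by linarith
    have h6 := mul_le_mul_of_nonneg_right h5 (sq_nonneg t)
    have e : C1 * t * t ^ 2 = C1 * t ^ 3 := by ring
    linarith
  have k2 : 4 * (M0 * t ^ 2) / m ≤ ε / 2 * t ^ 2 := by
    rw [div_le_iff₀ hm0]
    have := mul_le_mul_of_nonneg_right hmε.le (sq_nonneg t)
    linarith
  linarith

private theorem CaseH3_comb {a1 a2 : X} {R0 : ℝ} (h1 : ‖a1‖ ≤ R0) (h2 : ‖a2‖ ≤ R0) {m : ℕ}
    {i j : ℕ} (hi : i ≤ m + 1) (hj : j ≤ m + 1) :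
    ‖(i : ℝ) • a1 + (j : ℝ) • a2‖ ≤ 2 * (m + 1) * R0 := by
  have hR0 : 0 ≤ R0 := (norm_nonneg _).trans h1
  have hi' : (i : ℝ) ≤ m + 1 := by exact_mod_cast hi
  have hj' : (j : ℝ) ≤ m + 1 := by exact_mod_cast hj
  have hi0 : (0 : ℝ) ≤ i := Nat.cast_nonneg i
  have hj0 : (0 : ℝ) ≤ j := Nat.cast_nonneg j
  refine (norm_add_le _ _).trans ?_
  rw [norm_smul, norm_smul, Real.norm_of_nonneg hi0, Real.norm_of_nonneg hj0]
  have e1 : (i : ℝ) * ‖a1‖ ≤ (m + 1) * R0 := mul_le_mul hi' h1 (norm_nonneg _) (by positivity)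
  have e2 : (j : ℝ) * ‖a2‖ ≤ (m + 1) * R0 := mul_le_mul hj' h2 (norm_nonneg _) (by positivity)
  linarith

private theorem CaseH3_sbd {g CJ r t D : ℝ} (hCJ : 0 ≤ CJ)
    (hb : ∀ x k : X, g ≤ ‖x‖ → sd x k ≤ CJ * ‖k‖ ^ 2) {z v k : X} (hz : 2 * g ≤ ‖z‖)
    (ht : 0 < t) (hv : ‖v‖ ≤ D) (htD : t * D ≤ g) (hk : ‖k‖ ≤ r) :
    sd (z + t • v) (t • k) ≤ (r ^ 2 * CJ) * t ^ 2 := by
  have h4 : ‖t • v‖ ≤ g := by
    rw [norm_smul, Real.norm_of_nonneg ht.le]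
    exact (mul_le_mul_of_nonneg_left hv ht.le).trans htD
  have h5 : ‖z‖ - ‖t • v‖ ≤ ‖z + t • v‖ := by
    have := norm_sub_norm_le z (-(t • v))
    rwa [sub_neg_eq_add, norm_neg] at this
  refine (hb _ _ (by linarith)).trans ?_
  rw [norm_smul, Real.norm_of_nonneg ht.le, mul_pow]
  have h6 : ‖k‖ ^ 2 ≤ r ^ 2 := pow_le_pow_left₀ (norm_nonneg _) hk 2
  have h7 : CJ * (t ^ 2 * ‖k‖ ^ 2) ≤ CJ * (t ^ 2 * r ^ 2) :=
    mul_le_mul_of_nonneg_left (mul_le_mul_of_nonneg_left h6 (sq_nonneg t)) hCJ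
  linarith

/-- **Parallelogram defect.**  `Q u = K z' (T (p + t u) + T (p - t u) - 2 T p) - λ sd p (t u)`; for `h1 h2` in `ker (J p)`
of norm `≤ 1`, `‖p + y‖ ≤ 2 - 2 g`: `|pd Q h1 h2| ≤ ε t^2` for `t ≤ t1(g, ε)`.
Proof: `a1 = h2 + κ z`, `κ = - J y h2 / J y z`, `J y z = J y p - 1 ≤ - 2 g` (`J y p ≤ ‖y + p‖ - 1`), so `J y a1 = 0`;
`a2 ∈ ker (J y)` with `fderiv ℝ T y a2 = fderiv ℝ T p h2 + κ' z'`, `κ' = - K (T y) (fderiv ℝ T p h2) / K (T y) z'`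
(`fd_K`, `fd_inv`; `K (T y) (T p) ≤ ‖T y + T p‖ - 1`, `gap_image`).  `‖a1‖, ‖a2‖ ≤ R(g)`.
`x i j = z + t (i a1 + j a2)`, `x' i j = z' + t fderiv ℝ T y (i a1 + j a2)`, `i, j ≤ m + 1`;
`s i j = sd (x i j) (t h1)`, `s' i j = sd (x' i j) (t fderiv ℝ T p h1)`, `0 ≤ s, s' ≤ M t^2` (`sd_bd`).
`h_shift` at `a = i a1 + j a2` for `u = h1 ± h2, h1, h2`, `sd_par`, and `sd_ray`:
`x i j ± t h2 = (1 ∓ t κ) x (i ± 1) j + O(t^2)`, `x' i j ± t fderiv ℝ T p h2 = (1 ∓ t κ') x' i (j ± 1) + O(t^2)`.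
Then `h_tele` with `P = pd Q h1 h2`, error `C(m) t^3`, `M t^2`; `m` large, then `t` small. -/
theorem h_pd [CompleteSpace X] [CompleteSpace Y] (hJ : Dual2 J C) (hK : Dual2 K C')
    (h : HI T S) {g ε : ℝ} (hg : 0 < g) (hε : 0 < ε) :
    ∃ t1 : ℝ, 0 < t1 ∧ ∀ (p y h1 h2 : X) (t : ℝ), ‖p‖ = 1 → ‖y‖ = 1 → ‖p + y‖ ≤ 2 - 2 * g →
      J p h1 = 0 → J p h2 = 0 → ‖h1‖ ≤ 2 → ‖h2‖ ≤ 2 → 0 < t → t ≤ t1 →
      |pd (fun u => K (T p - T y) (T (p + t • u) + T (p - t • u) - (2 : ℝ) • T p)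
        - sd p (t • u) * (K (T p - T y) (T y) - J (p - y) y)) h1 h2| ≤ ε * t ^ 2 := by
  obtain ⟨R0, hR0, hvec⟩ := CaseH3_vec hJ.toU hK.toU h hg
  obtain ⟨CJ, hCJ, hbJ⟩ := sd_bd hJ hg
  obtain ⟨CK, hCK, hbK⟩ := sd_bd hK hg
  obtain ⟨M0, hM0⟩ : ∃ M0 : ℝ, M0 = 2 ^ 2 * CJ + 6 ^ 2 * CK := ⟨_, rfl⟩
  have hM00 : 0 ≤ M0 := by rw [hM0]; positivity
  obtain ⟨m, hm⟩ := exists_nat_gt (8 * M0 / ε)
  have hm0 : (0 : ℝ) < m := lt_of_le_of_lt (by positivity) hm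
  have hm1 : 1 ≤ m := by
    have : 0 < m := by exact_mod_cast hm0
    omega
  have hmε : 8 * M0 < m * ε := by rwa [div_lt_iff₀ hε] at hm
  obtain ⟨R, hR⟩ : ∃ R : ℝ, R = 2 * (m + 1) * R0 := ⟨_, rfl⟩
  have hRR0 : R0 ≤ R := by
    rw [hR]
    have : 0 ≤ (2 * (m : ℝ) + 1) * R0 := by positivity
    linarith
  have hR4 : 4 ≤ R := hR0.trans hRR0
  obtain ⟨C1, t1, hC1, ht1, hst⟩ := CaseH3_step hJ hK h hg hR4
  have hRp : 0 < R := by linarith
  refine ⟨min t1 (min (g / (3 * R)) (ε / (2 * (C1 + 1)))), by positivity, ?_⟩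
  intro p y h1 h2 t hp hy hpy hJ1 hJ2 hh1 hh2 ht htt
  have htt1 : t ≤ t1 := htt.trans (min_le_left _ _)
  have htt2 : t * (3 * R) ≤ g := by
    have := htt.trans ((min_le_right _ _).trans (min_le_left _ _))
    rwa [le_div_iff₀ (by positivity)] at this
  have htt3 : t * (2 * (C1 + 1)) ≤ ε := by
    have := htt.trans ((min_le_right _ _).trans (min_le_right _ _))
    rwa [le_div_iff₀ (by positivity)] at this
  have htR : t * R ≤ g := by
    have : 0 ≤ t * R := by positivity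
    linarith
  obtain ⟨a1, a2, κ, κ', ha1, ha2, hκ, hκ', hya1, hya2, e1, e2⟩ := hvec p y h2 hp hy hpy hh2
  obtain ⟨hz1, hz2⟩ := CaseH3_z hp hy hpy
  have hzz : ‖T p - T y‖ = ‖p - y‖ := h.dist p y (by rw [hp, hy])
  have hAh : ‖fderiv ℝ T p h1‖ ≤ 6 := by
    refine (CaseH3_norm3 h p h1 hh1).trans (by norm_num)
  have hcomb : ∀ i j : ℕ, i ≤ m + 1 → j ≤ m + 1 → ‖(i : ℝ) • a1 + (j : ℝ) • a2‖ ≤ R := by
    intro i j hi hj
    rw [hR]
    exact CaseH3_comb ha1 ha2 hi hj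
  have key := h_tele m hm1
    (fun i j => sd (p - y + t • ((i : ℝ) • a1 + (j : ℝ) • a2)) (t • h1))
    (fun i j => sd (T p - T y + t • fderiv ℝ T y ((i : ℝ) • a1 + (j : ℝ) • a2))
      (t • fderiv ℝ T p h1))
    (pd (fun u => K (T p - T y) (T (p + t • u) + T (p - t • u) - (2 : ℝ) • T p)
        - sd p (t • u) * (K (T p - T y) (T y) - J (p - y) y)) h1 h2)
    (C1 * t ^ 3) (M0 * t ^ 2) ?_ ?_ ?_
  · exact key.trans (CaseH3_num hm0 hmε ht htt3)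
  · intro i j hi hj
    refine ⟨sd_nonneg _ _, ?_⟩
    refine (CaseH3_sbd hCJ hbJ hz1 ht (hcomb i j hi hj) htR hh1).trans ?_
    refine mul_le_mul_of_nonneg_right ?_ (sq_nonneg t)
    rw [hM0]
    have : 0 ≤ 6 ^ 2 * CK := by positivity
    linarith
  · intro i j hi hj
    refine ⟨sd_nonneg _ _, ?_⟩
    refine (CaseH3_sbd hCK hbK (by rw [hzz]; exact hz1) ht
      (CaseH3_norm3 h y _ (hcomb i j hi hj)) htt2 hAh).trans ?_
    refine mul_le_mul_of_nonneg_right ?_ (sq_nonneg t)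
    rw [hM0]
    have : 0 ≤ 2 ^ 2 * CJ := by positivity
    linarith
  · intro i j hi hi' hj hj'
    obtain ⟨i, rfl⟩ : ∃ i', i = i' + 1 := ⟨i - 1, by omega⟩
    obtain ⟨j, rfl⟩ : ∃ j', j = j' + 1 := ⟨j - 1, by omega⟩
    have c1 : ((i + 1 + 1 : ℕ) : ℝ) • a1 + ((j + 1 : ℕ) : ℝ) • a2
        = ((i + 1 : ℕ) : ℝ) • a1 + ((j + 1 : ℕ) : ℝ) • a2 + a1 := by
      push_cast
      module
    have c2 : ((i : ℕ) : ℝ) • a1 + ((j + 1 : ℕ) : ℝ) • a2
        = ((i + 1 : ℕ) : ℝ) • a1 + ((j + 1 : ℕ) : ℝ) • a2 - a1 := by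
      push_cast
      module
    have c3 : ((i + 1 : ℕ) : ℝ) • a1 + ((j + 1 + 1 : ℕ) : ℝ) • a2
        = ((i + 1 : ℕ) : ℝ) • a1 + ((j + 1 : ℕ) : ℝ) • a2 + a2 := by
      push_cast
      module
    have c4 : ((i + 1 : ℕ) : ℝ) • a1 + ((j : ℕ) : ℝ) • a2
        = ((i + 1 : ℕ) : ℝ) • a1 + ((j + 1 : ℕ) : ℝ) • a2 - a2 := by
      push_cast
      module
    have n0 := hcomb (i + 1) (j + 1) (by omega) (by omega)
    have n1 := hcomb (i + 1 + 1) (j + 1) (by omega) (by omega)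
    have n2 := hcomb i (j + 1) (by omega) (by omega)
    have n3 := hcomb (i + 1) (j + 1 + 1) (by omega) (by omega)
    have n4 := hcomb (i + 1) j (by omega) (by omega)
    rw [c1] at n1
    rw [c2] at n2
    rw [c3] at n3
    rw [c4] at n4
    have hs := hst p y h1 h2 (((i + 1 : ℕ) : ℝ) • a1 + ((j + 1 : ℕ) : ℝ) • a2) a1 a2 κ κ' t hp hy
      hpy hJ1 hJ2 hh1 hh2 (by rw [map_add, map_smul, map_smul, hya1, hya2]; simp) n0 n1 n2 n3 n4
      (hκ.trans hRR0) (hκ'.trans hRR0) e1 e2 ht htt1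
    simp only [Nat.add_sub_cancel]
    rw [c1, c2, c3, c4]
    exact hs

private theorem CaseH3_pdsub {V : Type*} [AddCommGroup V] (K : Y →L[ℝ] ℝ) (E : V → Y) (f : V → ℝ)
    (lam : ℝ) (h k : V) :
    pd (fun u => K (E u) - f u * lam) h k = K (pd E h k) - pd f h k * lam := by
  simp only [pd, map_sub, map_add]
  ring

/-- the tangential reduction of the defect -/
private theorem CaseH3_tan (hJ : Dual2 J C) :
    ∃ C1 : ℝ, 0 ≤ C1 ∧ ∀ (p u v : X) (t : ℝ), ‖p‖ = 1 → ‖u‖ ≤ 1 → ‖v‖ ≤ 1 → 0 < t → t ≤ 1 / 16 →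
      |(sd p (t • (u + v)) + sd p (t • (u - v)) - 2 * sd p (t • u) - 2 * sd p (t • v))
        - pd (fun w => sd p (t • w)) (u - J p u • p) (v - J p v • p)| ≤ C1 * t ^ 3 := by
  obtain ⟨C1, hC1, hs⟩ := sd_tan hJ
  refine ⟨20 * C1, by positivity, ?_⟩
  intro p u v t hp hu hv ht ht16
  have g1 : ∀ w : X, ‖w‖ ≤ 2 → |sd p (t • w) - sd p (t • (w - J p w • p))| ≤ 8 * C1 * t ^ 3 := by
    intro w hw
    have h1 := hs p ((1 / 2 : ℝ) • w) (2 * t) hp (by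
      rw [norm_smul, Real.norm_of_nonneg (by norm_num : (0 : ℝ) ≤ 1 / 2)]
      linarith) (by linarith) (by linarith)
    have e1 : (2 * t) • ((1 / 2 : ℝ) • w) = t • w := by
      rw [smul_smul]
      ring_nf
    have e2 : (2 * t) • ((1 / 2 : ℝ) • w - J p ((1 / 2 : ℝ) • w) • p) = t • (w - J p w • p) := by
      rw [map_smul, smul_eq_mul]
      module
    rw [e1, e2] at h1
    have e3 : C1 * (2 * t) ^ 3 = 8 * C1 * t ^ 3 := by ring
    rwa [e3] at h1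
  have s1 := g1 (u + v) ((norm_add_le _ _).trans (by linarith))
  have s2 := g1 (u - v) ((norm_sub_le _ _).trans (by linarith))
  have s3 := hs p u t hp hu ht (by linarith)
  have s4 := hs p v t hp hv ht (by linarith)
  have e4 : u + v - J p (u + v) • p = (u - J p u • p) + (v - J p v • p) := by
    rw [map_add]
    module
  have e5 : u - v - J p (u - v) • p = (u - J p u • p) - (v - J p v • p) := by
    rw [map_sub]
    module
  rw [e4] at s1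
  rw [e5] at s2
  simp only [pd]
  rw [abs_le] at s1 s2 s3 s4 ⊢
  constructor <;> linarith [s1.1, s1.2, s2.1, s2.2, s3.1, s3.2, s4.1, s4.2]

private theorem CaseH3_ker (hJ : Dual J) {p u : X} (hp : ‖p‖ = 1) (hu : ‖u‖ ≤ 1) :
    J p (u - J p u • p) = 0 ∧ ‖u - J p u • p‖ ≤ 2 := by
  constructor
  · rw [map_sub, map_smul, hJ.self, hp, smul_eq_mul, mul_one, sub_self]
  · refine (norm_sub_le _ _).trans ?_
    rw [norm_smul, hp, mul_one, Real.norm_eq_abs]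
    have := hJ.abs_le p u
    linarith

/-- `λ = K z' (T p) - J z p` -/
private theorem CaseH3_lam (hJ : Dual J) (hK : Dual K) (h : HI T S) {p y : X} (hp : ‖p‖ = 1)
    (hy : ‖y‖ = 1) : K (T p - T y) (T y) - J (p - y) y = K (T p - T y) (T p) - J (p - y) p := by
  have h1 := hK.self (T p - T y)
  rw [h.dist p y (by rw [hp, hy]), ← hJ.self (p - y), map_sub, map_sub] at h1
  linarith

/-- bound of `w` -/
private theorem CaseH3_bls (hJ : Dual J) (hK : Dual K) (h : HI T S) {p : X} {w : Y} {g : ℝ}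
    (hp : ‖p‖ = 1) (hg : g ≤ (1 / 36) ^ 2 / 8)
    (hw : ∀ y : X, ‖y‖ = 1 → ‖p + y‖ ≤ 2 - 2 * g →
      |K (T p - T y) w - (K (T p - T y) (T y) - J (p - y) y)| ≤ 1) : ‖w‖ ≤ 48 := by
  have hTp : ‖T p‖ = 1 := by rw [h.norm, hp]
  obtain ⟨y', h1, h2, -, h4⟩ := bls hK hTp w
  have hSy : ‖S y'‖ = 1 := by rw [h.symm.norm, h1]
  have h5 := gap_image h.symm.siso hTp h1 (c := 1 / 36) (by norm_num) (by linarith)
  rw [h.ST] at h5
  have h6 := hw (S y') hSy (by linarith)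
  rw [h.TS] at h6
  have h7 := hK.abs_le (T p - y') y'
  have h8 := hJ.abs_le (p - S y') (S y')
  rw [h1] at h7
  rw [hSy] at h8
  have h9 : |K (T p - y') w| ≤ 3 := by
    rw [abs_le] at h6 h7 h8 ⊢
    constructor <;> linarith [h6.1, h6.2, h7.1, h7.2, h8.1, h8.2]
  linarith

/-- **Case H.**  `¬ AQ X`: `η`, arbitrarily small `t` and `p`, `u`, `v` with defect `> η t^2`; by `sd_tan` also for
`h1 = u - J p u p`, `h2 = v - J p v p` (defect `Δ`, `|Δ| > (η/2) t^2`).  `w = Δ⁻¹ • pd (fun u => T (p+tu) + T (p-tu) - 2 T p) h1 h2`;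
`h_pd` gives `|K z' w - λ| ≤ 2 ε / η`.  Bound `‖w‖ ≤ 48` by `bls`.  `λ = K z' (T p) - J z p` as in case G. -/
theorem caseH [CompleteSpace X] [CompleteSpace Y] (hJ : Dual2 J C) (hK : Dual2 K C')
    (h : HI T S) (hX : ¬ AQ X) : AR T J K := by
  unfold AQ at hX
  push Not at hX
  obtain ⟨η, hη, hX⟩ := hX
  obtain ⟨C1, hC1, htan⟩ := CaseH3_tan hJ
  refine ⟨48, fun δ hδ => ?_⟩
  obtain ⟨g, hg⟩ : ∃ g : ℝ, g = min (δ / 2) ((1 / 36) ^ 2 / 8) := ⟨_, rfl⟩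
  have hg0 : 0 < g := by rw [hg]; positivity
  have hgδ : g ≤ δ / 2 := by rw [hg]; exact min_le_left _ _
  have hg2 : g ≤ (1 / 36) ^ 2 / 8 := by rw [hg]; exact min_le_right _ _
  obtain ⟨d, hd⟩ : ∃ d : ℝ, d = min δ 1 := ⟨_, rfl⟩
  have hd0 : 0 < d := by rw [hd]; positivity
  have hdδ : d ≤ δ := by rw [hd]; exact min_le_left _ _
  have hd1 : d ≤ 1 := by rw [hd]; exact min_le_right _ _
  obtain ⟨t1, ht1, hpd⟩ := h_pd hJ hK h hg0 (ε := η / 2 * d) (by positivity)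
  obtain ⟨t, ht, htt, p, u, v, hp, hu, hv, hdef⟩ := hX (min t1 (min (1 / 16) (η / (2 * (C1 + 1)))))
    (by positivity)
  have htt1 : t ≤ t1 := htt.le.trans (min_le_left _ _)
  have htt2 : t ≤ 1 / 16 := htt.le.trans ((min_le_right _ _).trans (min_le_left _ _))
  have htt3 : t * (2 * (C1 + 1)) ≤ η := by
    have := htt.le.trans ((min_le_right _ _).trans (min_le_right _ _))
    rwa [le_div_iff₀ (by positivity)] at this
  obtain ⟨hJ1, hh1⟩ := CaseH3_ker hJ.toDual hp hu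
  obtain ⟨hJ2, hh2⟩ := CaseH3_ker hJ.toDual hp hv
  have ht3 := htan p u v t hp hu hv ht htt2
  generalize u - J p u • p = h1 at *
  generalize v - J p v • p = h2 at *
  obtain ⟨D, hD⟩ : ∃ D : ℝ, D = pd (fun w => sd p (t • w)) h1 h2 := ⟨_, rfl⟩
  rw [← hD] at ht3
  have hDb : η / 2 * t ^ 2 < |D| := by
    have k1 : C1 * t ^ 3 ≤ η / 2 * t ^ 2 := by
      have h5 : C1 * t ≤ η / 2 := by linarith
      have h6 := mul_le_mul_of_nonneg_right h5 (sq_nonneg t)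
      have e : C1 * t * t ^ 2 = C1 * t ^ 3 := by ring
      linarith
    have k2 := abs_sub_abs_le_abs_sub
      (sd p (t • (u + v)) + sd p (t • (u - v)) - 2 * sd p (t • u) - 2 * sd p (t • v)) D
    linarith
  have hD0 : 0 < |D| := lt_of_le_of_lt (by positivity) hDb
  have hDne : D ≠ 0 := abs_pos.1 hD0
  obtain ⟨w, hw⟩ : ∃ w : Y, w = D⁻¹ • pd (fun u => T (p + t • u) + T (p - t • u) - (2 : ℝ) • T p)
    h1 h2 := ⟨_, rfl⟩
  have hmain : ∀ y : X, ‖y‖ = 1 → ‖p + y‖ ≤ 2 - 2 * g →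
      |K (T p - T y) w - (K (T p - T y) (T y) - J (p - y) y)| ≤ d := by
    intro y hy hpy
    have k1 := hpd p y h1 h2 t hp hy hpy hJ1 hJ2 hh1 hh2 ht htt1
    rw [CaseH3_pdsub (K (T p - T y)) (fun u => T (p + t • u) + T (p - t • u) - (2 : ℝ) • T p)
      (fun u => sd p (t • u)), ← hD] at k1
    have k2 : K (T p - T y) w - (K (T p - T y) (T y) - J (p - y) y)
        = D⁻¹ * (K (T p - T y) (pd (fun u => T (p + t • u) + T (p - t • u) - (2 : ℝ) • T p) h1 h2)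
          - D * (K (T p - T y) (T y) - J (p - y) y)) := by
      rw [hw, map_smul, smul_eq_mul, mul_sub, inv_mul_cancel_left₀ hDne]
    rw [k2, abs_mul, abs_inv, inv_mul_le_iff₀ hD0]
    refine k1.trans ?_
    have k3 := mul_le_mul_of_nonneg_right hDb.le hd0.le
    linarith
  refine ⟨p, w, hp, ?_, ?_⟩
  · exact CaseH3_bls hJ.toDual hK.toDual h hp hg2 fun y hy hpy => (hmain y hy hpy).trans hd1
  · intro y hy hpy
    rw [← CaseH3_lam hJ.toDual hK.toDual h hp hy]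
    exact (hmain y hy (by linarith)).trans hdδ

end P084GII
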