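import Vale.Agent.Lib.P084G.A.Defs
import Vale.Agent.Lib.P084G.Ultra

/-!
# P084G, part II (uniformly smooth spaces): definitions

* `sd x h` : the second difference `‖x + h‖ + ‖x - h‖ - 2 ‖x‖`.
* `Dual J` : `J x` is a norming functional of `x`, `0`-homogeneous in `x`.
* `DualU J` : moreover uniformly continuous near the unit sphere (uniformly smooth norm).
* `Dual2 J C` : moreover Lipschitz near the unit sphere (2-uniformly smooth norm).
* `HI T S` : `T : X → Y` is positively homogeneous, norm preserving, isometric on spheres, with inverse `S`.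
* `AQ X` : the second differences of the norm are asymptotically quadratic (uniformly on the unit sphere).
* `AR T J K` : there are approximately rigid points.
-/

open Filter Topology

namespace P084GII

variable {X Y : Type*} [NormedAddCommGroup X] [NormedSpace ℝ X] [NormedAddCommGroup Y]
  [NormedSpace ℝ Y]

/-- the second difference of the norm -/
noncomputable def sd (x h : X) : ℝ := ‖x + h‖ + ‖x - h‖ - 2 * ‖x‖

/-- the norm of `X` is uniformly smooth -/
def USm (X : Type*) [NormedAddCommGroup X] [NormedSpace ℝ X] : Prop :=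
  ∀ ε : ℝ, 0 < ε → ∃ δ : ℝ, 0 < δ ∧ ∀ x h : X, ‖x‖ = 1 → ‖h‖ ≤ δ → sd x h ≤ ε * ‖h‖

/-- the norm of `X` is 2-uniformly smooth with constant `C` -/
def US2 (X : Type*) [NormedAddCommGroup X] [NormedSpace ℝ X] (C : ℝ) : Prop :=
  ∀ x h : X, ‖x‖ = 1 → sd x h ≤ C * ‖h‖ ^ 2

/-- `J` is a (0-homogeneous) duality map -/
structure Dual (J : X → X →L[ℝ] ℝ) : Prop where
  self : ∀ x, J x x = ‖x‖
  le : ∀ x v, J x v ≤ ‖v‖
  smul : ∀ c : ℝ, 0 < c → ∀ x, J (c • x) = J x

/-- `J` is a duality map, uniformly continuous near the unit sphere -/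
structure DualU (J : X → X →L[ℝ] ℝ) : Prop extends Dual J where
  unif : ∀ ε : ℝ, 0 < ε → ∃ δ : ℝ, 0 < δ ∧ ∀ x y : X, ‖x‖ = 1 → ‖x - y‖ ≤ δ → ‖J x - J y‖ ≤ ε

/-- `J` is a duality map, Lipschitz near the unit sphere -/
structure Dual2 (J : X → X →L[ℝ] ℝ) (C : ℝ) : Prop extends Dual J where
  nonneg : 0 ≤ C
  lip : ∀ x y : X, ‖x‖ = 1 → ‖J x - J y‖ ≤ C * ‖x - y‖

/-- `T` is positively homogeneous, norm preserving, isometric on spheres, with inverse `S` -/
structure HI (T : X → Y) (S : Y → X) : Prop where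
  smul : ∀ c : ℝ, 0 ≤ c → ∀ x, T (c • x) = c • T x
  norm : ∀ x, ‖T x‖ = ‖x‖
  dist : ∀ x x', ‖x‖ = ‖x'‖ → ‖T x - T x'‖ = ‖x - x'‖
  ST : ∀ x, S (T x) = x
  TS : ∀ y, T (S y) = y

theorem HI.symm {T : X → Y} {S : Y → X} (h : HI T S) : HI S T where
  smul c hc y := by
    have h1 := h.smul c hc (S y)
    rw [h.TS] at h1
    rw [← h1, h.ST]
  norm y := by
    have h1 := h.norm (S y)
    rw [h.TS] at h1
    exact h1.symm
  dist y y' hy := by
    have h1 := h.dist (S y) (S y') (by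
      have a := h.norm (S y)
      have b := h.norm (S y')
      rw [h.TS] at a b
      rw [← a, ← b, hy])
    rw [h.TS, h.TS] at h1
    exact h1.symm
  ST := h.TS
  TS := h.ST

/-- second differences of the norm are asymptotically quadratic, uniformly on the unit sphere -/
def AQ (X : Type*) [NormedAddCommGroup X] [NormedSpace ℝ X] : Prop :=
  ∀ η : ℝ, 0 < η → ∃ t₀ : ℝ, 0 < t₀ ∧ ∀ t : ℝ, 0 < t → t < t₀ → ∀ p u v : X, ‖p‖ = 1 →
    ‖u‖ ≤ 1 → ‖v‖ ≤ 1 →
    |sd p (t • (u + v)) + sd p (t • (u - v)) - 2 * sd p (t • u) - 2 * sd p (t • v)| ≤ η * t ^ 2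

/-- approximately rigid points -/
def AR (T : X → Y) (J : X → X →L[ℝ] ℝ) (K : Y → Y →L[ℝ] ℝ) : Prop :=
  ∃ C : ℝ, ∀ δ : ℝ, 0 < δ → ∃ (p : X) (w : Y), ‖p‖ = 1 ∧ ‖w‖ ≤ C ∧ ∀ y : X, ‖y‖ = 1 →
    ‖p + y‖ ≤ 2 - δ → |K (T p - T y) w - (K (T p - T y) (T p) - J (p - y) p)| ≤ δ

end P084GII
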