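import Vale.Agent.Lib.P084G.II.DiffB

/-!
Part II: `T` is Frechet differentiable off `0` (uniformly smooth `X`, `Y`).

Let `‖p‖ = 1`, `‖y‖ = 1`, `z = p - y ≠ 0`, `z' = T p - T y`, `‖z'‖ = ‖z‖`.  For `x = p + h`, `r = ‖x‖`,
`HI.rel` says `‖z' + (T x - T p - (r - 1) • T y)‖ = ‖z + (h - (r - 1) • y)‖`.
-/

open Filter Topology

namespace P084GII

variable {X Y : Type*} [NormedAddCommGroup X] [NormedSpace ℝ X] [NormedAddCommGroup Y]
  [NormedSpace ℝ Y] {J : X → X →L[ℝ] ℝ} {K : Y → Y →L[ℝ] ℝ} {T : X → Y} {S : Y → X}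

/-- the derivative is `0`-homogeneous -/
theorem diff_scale (h : HI T S) {A : X →L[ℝ] Y} {p : X} (hA : HasFDerivAt T A p) {c : ℝ}
    (hc : 0 < c) : HasFDerivAt T A (c • p) := by
  have e1 : c⁻¹ • (c • p) = p := inv_smul_smul₀ hc.ne' p
  have h1 : HasFDerivAt (fun x : X => c⁻¹ • x) (c⁻¹ • ContinuousLinearMap.id ℝ X) (c • p) :=
    (hasFDerivAt_id (c • p)).const_smul c⁻¹
  have h2 : HasFDerivAt T A (c⁻¹ • (c • p)) := by rw [e1]; exact hA
  have h3 := (h2.comp (c • p) h1).const_smul c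
  have e2 : c • (A.comp (c⁻¹ • ContinuousLinearMap.id ℝ X)) = A := by
    ext v
    simp [smul_smul, hc.ne']
  rw [e2] at h3
  refine h3.congr_of_eventuallyEq (Eventually.of_forall fun x => ?_)
  simp only [Pi.smul_apply, Function.comp_apply]
  rw [h.smul c⁻¹ (by positivity), smul_inv_smul₀ hc.ne']

/-- differentiability at unit points -/
theorem diff_unit [CompleteSpace Y] (hJ : DualU J) (hK : DualU K) (h : HI T S) {p : X}
    (hp : ‖p‖ = 1) : HasFDerivAt T (fderiv ℝ T p) p := by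
  rw [hasFDerivAt_iff_isLittleO_nhds_zero, Asymptotics.isLittleO_iff]
  intro ε hε
  obtain ⟨δ, hδ, h1⟩ := diff_unif' hJ hK h hε
  filter_upwards [Metric.closedBall_mem_nhds (0 : X) hδ] with v hv
  exact h1 p hp v (by simpa using hv)

/-- differentiability at every nonzero point (homogeneity) -/
theorem hasFD [CompleteSpace Y] (hJ : DualU J) (hK : DualU K) (h : HI T S) {p : X}
    (hp : p ≠ 0) : HasFDerivAt T (fderiv ℝ T p) p := by
  have hp0 : 0 < ‖p‖ := norm_pos_iff.2 hp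
  have h1 : ‖(‖p‖⁻¹ • p : X)‖ = 1 := by
    rw [norm_smul, norm_inv, norm_norm, inv_mul_cancel₀ hp0.ne']
  have h2 := diff_scale h (diff_unit hJ hK h h1) hp0
  rw [smul_inv_smul₀ hp0.ne'] at h2
  exact h2.differentiableAt.hasFDerivAt

theorem fd_smul [CompleteSpace Y] (hJ : DualU J) (hK : DualU K) (h : HI T S) {p : X}
    (hp : p ≠ 0) {c : ℝ} (hc : 0 < c) : fderiv ℝ T (c • p) = fderiv ℝ T p :=
  (diff_scale h (hasFD hJ hK h hp) hc).fderiv

theorem fd_self [CompleteSpace Y] (hJ : DualU J) (hK : DualU K) (h : HI T S) {p : X}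
    (hp : p ≠ 0) : fderiv ℝ T p p = T p := by
  have h1 := hasFD hJ hK h hp
  have h2 : HasDerivAt (fun t : ℝ => (1 + t) • p) ((1 : ℝ) • p) 0 := by
    have := ((hasDerivAt_id (0 : ℝ)).const_add 1).smul_const p
    simpa using this
  have h1' : HasFDerivAt T (fderiv ℝ T p) ((fun t : ℝ => (1 + t) • p) 0) := by
    simpa using h1
  have h3 := h1'.comp_hasDerivAt (0 : ℝ) h2
  have h4 : HasDerivAt (fun t : ℝ => (1 + t) • T p) ((1 : ℝ) • T p) 0 := by
    have := ((hasDerivAt_id (0 : ℝ)).const_add 1).smul_const (T p)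
    simpa using this
  have h5 : (T ∘ fun t : ℝ => (1 + t) • p) =ᶠ[𝓝 0] fun t : ℝ => (1 + t) • T p := by
    have : Set.Ioi (-1 : ℝ) ∈ 𝓝 (0 : ℝ) := Ioi_mem_nhds (by norm_num)
    filter_upwards [this] with t ht
    have ht' : (-1 : ℝ) < t := ht
    simp only [Function.comp_apply]
    exact h.smul (1 + t) (by linarith) p
  have h6 := h3.unique (h4.congr_of_eventuallyEq h5)
  simpa using h6

theorem fd_norm (h : HI T S) (p : X) : ‖fderiv ℝ T p‖ ≤ 3 := by
  have h1 : LipschitzWith 3 T := LipschitzWith.of_dist_le_mul fun x y => by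
    rw [dist_eq_norm, dist_eq_norm]
    simpa using h.lip x y
  simpa using norm_fderiv_le_of_lipschitz ℝ h1 (x₀ := p)

theorem diff_ne (h : HI T S) {p : X} (hp : p ≠ 0) : T p ≠ 0 := by
  intro h0
  have := h.norm p
  rw [h0, norm_zero] at this
  exact hp (norm_eq_zero.1 this.symm)

/-- differentiate `‖T x‖ = ‖x‖` -/
theorem fd_K [CompleteSpace Y] (hJ : DualU J) (hK : DualU K) (h : HI T S) {p : X}
    (hp : p ≠ 0) (v : X) : K (T p) (fderiv ℝ T p v) = J p v := by
  have h1 := hasFD hJ hK h hp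
  have h2 := (hK.hasFDerivAt (diff_ne h hp)).comp p h1
  have h3 : ((fun y : Y => ‖y‖) ∘ T) = fun x : X => ‖x‖ := by
    funext x
    exact h.norm x
  rw [h3] at h2
  have h4 := h2.unique (hJ.hasFDerivAt hp)
  have := congrArg (fun L : X →L[ℝ] ℝ => L v) h4
  simpa using this

/-- **(D1)** differentiate `‖T x - ‖x‖ • T y‖ = ‖x - ‖x‖ • y‖` at `x = p` -/
theorem fd_D1 [CompleteSpace Y] (hJ : DualU J) (hK : DualU K) (h : HI T S) {p y : X}
    (hp : ‖p‖ = 1) (hy : ‖y‖ = 1) (hpy : p ≠ y) (v : X) :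
    K (T p - T y) (fderiv ℝ T p v)
      = J (p - y) v + J p v * (K (T p - T y) (T y) - J (p - y) y) := by
  have hp0 : p ≠ 0 := by
    intro h0
    rw [h0, norm_zero] at hp
    exact zero_ne_one hp
  have hN := hJ.hasFDerivAt hp0
  have h1 : HasFDerivAt (fun x : X => T x - ‖x‖ • T y)
      (fderiv ℝ T p - (J p).smulRight (T y)) p :=
    (hasFD hJ hK h hp0).sub (hN.smul_const (T y))
  have h2 : HasFDerivAt (fun x : X => x - ‖x‖ • y)
      (ContinuousLinearMap.id ℝ X - (J p).smulRight y) p :=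
    (hasFDerivAt_id p).sub (hN.smul_const y)
  have e1 : T p - ‖p‖ • T y = T p - T y := by rw [hp, one_smul]
  have e2 : p - ‖p‖ • y = p - y := by rw [hp, one_smul]
  have n1 : T p - T y ≠ 0 := fun h0 => hpy (h.inj (sub_eq_zero.1 h0))
  have n2 : p - y ≠ 0 := sub_ne_zero.2 hpy
  have h3 : HasFDerivAt (fun z : Y => ‖z‖) (K (T p - T y)) (T p - ‖p‖ • T y) := by
    rw [e1]; exact hK.hasFDerivAt n1
  have h4 : HasFDerivAt (fun z : X => ‖z‖) (J (p - y)) (p - ‖p‖ • y) := by
    rw [e2]; exact hJ.hasFDerivAt n2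
  have h5 := h3.comp p h1
  have h6 := h4.comp p h2
  have h7 : ((fun z : Y => ‖z‖) ∘ fun x : X => T x - ‖x‖ • T y)
      = ((fun z : X => ‖z‖) ∘ fun x : X => x - ‖x‖ • y) := by
    funext x
    exact h.rel x hy
  rw [h7] at h5
  have h8 := congrArg (fun L : X →L[ℝ] ℝ => L v) (h5.unique h6)
  simp only [ContinuousLinearMap.comp_apply, sub_apply,
    ContinuousLinearMap.smulRight_apply, map_sub, map_smul, smul_eq_mul,
    ContinuousLinearMap.id_apply] at h8
  linear_combination h8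

/-- `fderiv ℝ S (T p)` is the inverse of `fderiv ℝ T p` -/
theorem fd_inv [CompleteSpace X] [CompleteSpace Y] (hJ : DualU J) (hK : DualU K) (h : HI T S)
    {p : X} (hp : p ≠ 0) (v : X) : fderiv ℝ S (T p) (fderiv ℝ T p v) = v := by
  have h1 := hasFD hJ hK h hp
  have h2 := hasFD hK hJ h.symm (diff_ne h hp)
  have h3 := h2.comp p h1
  have h4 : S ∘ T = id := by
    funext x
    exact h.ST x
  rw [h4] at h3
  have h5 := congrArg (fun L : X →L[ℝ] X => L v) (h3.unique (hasFDerivAt_id p))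
  simpa using h5

/-- two curves with the same norm have derivatives with the same norm -/
theorem diff_norm_eq {g : ℝ → Y} {w : ℝ → X} {a : Y} {b : X} (hg : HasDerivAt g a 0)
    (hw : HasDerivAt w b 0) (g0 : g 0 = 0) (w0 : w 0 = 0) (he : ∀ s, ‖g s‖ = ‖w s‖) :
    ‖a‖ = ‖b‖ := by
  have h1 := (hasDerivAt_iff_tendsto_slope.1 hg).norm
  have h2 := (hasDerivAt_iff_tendsto_slope.1 hw).norm
  refine tendsto_nhds_unique h1 (h2.congr fun s => ?_)
  rw [slope_def_module, slope_def_module, g0, w0, norm_smul, norm_smul]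
  rw [sub_zero (w s), sub_zero (g s), he s]

/-- `fderiv ℝ T p` is isometric on `ker (J p)`: take `x_s = p + s v`, `x_s' = ‖x_s‖ • p`, `‖T x_s - T x_s'‖ = ‖x_s - x_s'‖`,
divide by `s → 0` (`‖p + s v‖ = 1 + o(s)`). -/
theorem fd_iso [CompleteSpace Y] (hJ : DualU J) (hK : DualU K) (h : HI T S) {p : X}
    (hp : ‖p‖ = 1) {v : X} (hv : J p v = 0) : ‖fderiv ℝ T p v‖ = ‖v‖ := by
  have hp0 : p ≠ 0 := by
    intro h0
    rw [h0, norm_zero] at hp
    exact zero_ne_one hp
  have hN := hJ.hasFDerivAt hp0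
  have hline : HasDerivAt (fun s : ℝ => p + s • v) v 0 := by
    have := ((hasDerivAt_id (0 : ℝ)).smul_const v).const_add p
    simpa using this
  have e0 : (fun s : ℝ => p + s • v) 0 = p := by simp
  have h1 : HasFDerivAt (fun x : X => T x - ‖x‖ • T p)
      (fderiv ℝ T p - (J p).smulRight (T p)) ((fun s : ℝ => p + s • v) 0) := by
    rw [e0]
    exact (hasFD hJ hK h hp0).sub (hN.smul_const (T p))
  have h2 : HasFDerivAt (fun x : X => x - ‖x‖ • p)
      (ContinuousLinearMap.id ℝ X - (J p).smulRight p) ((fun s : ℝ => p + s • v) 0) := by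
    rw [e0]
    exact (hasFDerivAt_id p).sub (hN.smul_const p)
  have h3 := h1.comp_hasDerivAt (0 : ℝ) hline
  have h4 := h2.comp_hasDerivAt (0 : ℝ) hline
  have h5 := diff_norm_eq h3 h4 (by simp [hp]) (by simp [hp]) (fun s => h.rel _ hp)
  simpa [hv] using h5

/-- derivative of `fd_iso` in the direction `w` -/
theorem fd_iso' [CompleteSpace Y] (hJ : DualU J) (hK : DualU K) (h : HI T S) {p : X}
    (hp : ‖p‖ = 1) {v w : X} (hv : J p v = 0) (hw : J p w = 0) (hv0 : v ≠ 0) :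
    K (fderiv ℝ T p v) (fderiv ℝ T p w) = J v w := by
  have hA0 : fderiv ℝ T p v ≠ 0 := by
    intro h0
    have := fd_iso hJ hK h hp hv
    rw [h0, norm_zero] at this
    exact hv0 (norm_eq_zero.1 this.symm)
  have l1 : HasDerivAt (fun s : ℝ => v + s • w) w 0 := by
    have := ((hasDerivAt_id (0 : ℝ)).smul_const w).const_add v
    simpa using this
  have l2 : HasDerivAt (fun s : ℝ => fderiv ℝ T p v + s • fderiv ℝ T p w) (fderiv ℝ T p w) 0 := by
    have := ((hasDerivAt_id (0 : ℝ)).smul_const (fderiv ℝ T p w)).const_add (fderiv ℝ T p v)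
    simpa using this
  have n1 : HasFDerivAt (fun x : X => ‖x‖) (J v) ((fun s : ℝ => v + s • w) 0) := by
    simpa using hJ.hasFDerivAt hv0
  have n2 : HasFDerivAt (fun y : Y => ‖y‖) (K (fderiv ℝ T p v))
      ((fun s : ℝ => fderiv ℝ T p v + s • fderiv ℝ T p w) 0) := by
    simpa using hK.hasFDerivAt hA0
  have h1 := n1.comp_hasDerivAt (0 : ℝ) l1
  have h2 := n2.comp_hasDerivAt (0 : ℝ) l2
  have h3 : ((fun y : Y => ‖y‖) ∘ fun s : ℝ => fderiv ℝ T p v + s • fderiv ℝ T p w)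
      = ((fun x : X => ‖x‖) ∘ fun s : ℝ => v + s • w) := by
    funext s
    simp only [Function.comp_apply]
    have h4 : fderiv ℝ T p v + s • fderiv ℝ T p w = fderiv ℝ T p (v + s • w) := by
      rw [map_add, map_smul]
    rw [h4]
    exact fd_iso hJ hK h hp (by rw [map_add, map_smul, hv, hw, smul_zero, add_zero])
  rw [h3] at h2
  exact h2.unique h1

end P084GII
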