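import Vale.Agent.Lib.P084G.II.SmA
import Vale.Agent.Lib.P084G.II.HomT

/-!
Part II: `T` is Frechet differentiable off `0` (uniformly smooth `X`, `Y`).

Let `‖p‖ = 1`, `‖y‖ = 1`, `z = p - y ≠ 0`, `z' = T p - T y`, `‖z'‖ = ‖z‖`.  For `x = p + h`, `r = ‖x‖`,
`HI.rel` says `‖z' + (T x - T p - (r - 1) • T y)‖ = ‖z + (h - (r - 1) • y)‖`.
-/

open Filter Topology

namespace P084GII

variable {X Y : Type*} [NormedAddCommGroup X] [NormedSpace ℝ X] [NormedAddCommGroup Y]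
  [NormedSpace ℝ Y] {J : X → X →L[ℝ] ℝ} {K : Y → Y →L[ℝ] ℝ} {T : X → Y} {S : Y → X}

omit [NormedAddCommGroup Y] [NormedSpace ℝ Y] in
theorem DiffA_fo (hJ : DualU J) {ε : ℝ} (hε : 0 < ε) :
    ∃ δ : ℝ, 0 < δ ∧ ∀ x u : X, x ≠ 0 → ‖u‖ ≤ δ * ‖x‖ → |‖x + u‖ - ‖x‖ - J x u| ≤ ε * ‖u‖ := by
  obtain ⟨δ, hδ, h⟩ := hJ.unif' hε
  refine ⟨δ, hδ, fun x u hx hu => ?_⟩
  have h1 := hJ.toDual.lower x u
  have h2 := hJ.toDual.upper x u
  have h3 : ‖J x - J (x + u)‖ ≤ ε := h x (x + u) hx (by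
    rw [sub_add_cancel_left, norm_neg]
    exact hu)
  have h4 : ‖J x - J (x + u)‖ * ‖u‖ ≤ ε * ‖u‖ := mul_le_mul_of_nonneg_right h3 (norm_nonneg u)
  rw [abs_le]
  have h5 : 0 ≤ ε * ‖u‖ := mul_nonneg hε.le (norm_nonneg u)
  constructor <;> linarith

/-- **First order relation, uniform.**  For every `ε > 0` there is `δ > 0` such that for all unit `p`, `y`
with `1/18 ≤ ‖p - y‖` and all `‖h‖ ≤ δ`:
`|K z' (T (p+h) - T p) - (J z h + J p h * (K z' (T y) - J z y))| ≤ ε ‖h‖`.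
Proof: `a = T x - T p - (r-1) T y`, `b = h - (r-1) y`, `‖a‖, ‖b‖ ≤ 4 ‖h‖`; by `Dual.lower`/`Dual.upper` and
`DualU.unif'` at `z`, `z'`: `|‖z + b‖ - ‖z‖ - J z b| ≤ ε' ‖b‖`, same for `z'`, `a`; and
`|r - 1 - J p h| ≤ ε' ‖h‖`. -/
theorem first_order (hJ : DualU J) (hK : DualU K) (h : HI T S) {ε : ℝ} (hε : 0 < ε) :
    ∃ δ : ℝ, 0 < δ ∧ ∀ p y : X, ‖p‖ = 1 → ‖y‖ = 1 → 1 / 18 ≤ ‖p - y‖ → ∀ u : X, ‖u‖ ≤ δ →
      |K (T p - T y) (T (p + u) - T p)
        - (J (p - y) u + J p u * (K (T p - T y) (T y) - J (p - y) y))| ≤ ε * ‖u‖ := by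
  obtain ⟨δJ, hδJ, h1⟩ := DiffA_fo hJ (show 0 < ε / 8 by linarith)
  obtain ⟨δK, hδK, h2⟩ := DiffA_fo hK (show 0 < ε / 8 by linarith)
  refine ⟨min (δJ / 36) (δK / 72), lt_min (by linarith) (by linarith), ?_⟩
  intro p y hp hy hz u hu
  have huJ : ‖u‖ ≤ δJ / 36 := hu.trans (min_le_left _ _)
  have huK : ‖u‖ ≤ δK / 72 := hu.trans (min_le_right _ _)
  have hu0 : 0 ≤ ‖u‖ := norm_nonneg u
  have hzz : ‖T p - T y‖ = ‖p - y‖ := h.dist p y (by rw [hp, hy])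
  have hz0 : p - y ≠ 0 := fun h0 => by
    rw [h0, norm_zero] at hz
    norm_num at hz
  have hz'0 : T p - T y ≠ 0 := fun h0 => by
    rw [h0, norm_zero] at hzz
    rw [← hzz] at hz
    norm_num at hz
  have hp0 : p ≠ 0 := fun h0 => by
    rw [h0, norm_zero] at hp
    norm_num at hp
  -- the radius
  obtain ⟨r, hr⟩ : ∃ r : ℝ, r = ‖p + u‖ := ⟨_, rfl⟩
  have hr1 : |r - 1| ≤ ‖u‖ := by
    have := abs_norm_sub_norm_le (p + u) p
    rwa [add_sub_cancel_left, hp, ← hr] at this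
  have h3 : |r - 1 - J p u| ≤ ε / 8 * ‖u‖ := by
    have := h1 p u hp0 (by rw [hp]; linarith)
    rwa [hp, ← hr] at this
  -- the vectors a and b
  obtain ⟨a, ha⟩ : ∃ a : Y, a = T (p + u) - T p - (r - 1) • T y := ⟨_, rfl⟩
  obtain ⟨b, hb⟩ : ∃ b : X, b = u - (r - 1) • y := ⟨_, rfl⟩
  have hbn : ‖b‖ ≤ 2 * ‖u‖ := by
    rw [hb]
    refine (norm_sub_le _ _).trans ?_
    rw [norm_smul, hy, mul_one, Real.norm_eq_abs]
    linarith
  have han : ‖a‖ ≤ 4 * ‖u‖ := by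
    rw [ha]
    refine (norm_sub_le _ _).trans ?_
    rw [norm_smul, h.norm y, hy, mul_one, Real.norm_eq_abs]
    have := h.lip (p + u) p
    rw [add_sub_cancel_left] at this
    linarith
  have hrel : ‖(T p - T y) + a‖ = ‖(p - y) + b‖ := by
    have := h.rel (p + u) hy
    rw [← hr] at this
    have e1 : (T p - T y) + a = T (p + u) - r • T y := by
      rw [ha]
      module
    have e2 : (p - y) + b = p + u - r • y := by
      rw [hb]
      module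
    rw [e1, e2, this]
  have h4 := h1 (p - y) b hz0 (by nlinarith)
  have h5 := h2 (T p - T y) a hz'0 (by rw [hzz]; nlinarith)
  rw [hrel, hzz] at h5
  have h6 : ε / 8 * ‖b‖ ≤ ε / 8 * (2 * ‖u‖) := mul_le_mul_of_nonneg_left hbn (by linarith)
  have h7 : ε / 8 * ‖a‖ ≤ ε / 8 * (4 * ‖u‖) := mul_le_mul_of_nonneg_left han (by linarith)
  have h8 : K (T p - T y) a = K (T p - T y) (T (p + u) - T p) - (r - 1) * K (T p - T y) (T y) := by
    rw [ha, map_sub, map_smul, smul_eq_mul]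
  have h9 : J (p - y) b = J (p - y) u - (r - 1) * J (p - y) y := by
    rw [hb, map_sub, map_smul, smul_eq_mul]
  have h10 : |K (T p - T y) (T y) - J (p - y) y| ≤ 2 := by
    have a1 := hK.toDual.abs_le (T p - T y) (T y)
    have a2 := hJ.toDual.abs_le (p - y) y
    rw [h.norm y, hy] at a1
    rw [hy] at a2
    refine (abs_sub _ _).trans ?_
    linarith
  have h11 : |(r - 1 - J p u) * (K (T p - T y) (T y) - J (p - y) y)| ≤ ε / 8 * ‖u‖ * 2 := by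
    rw [abs_mul]
    exact mul_le_mul h3 h10 (abs_nonneg _) (mul_nonneg (by linarith) hu0)
  have h12 : K (T p - T y) (T (p + u) - T p)
        - (J (p - y) u + J p u * (K (T p - T y) (T y) - J (p - y) y)) =
      (K (T p - T y) a - J (p - y) b) +
        (r - 1 - J p u) * (K (T p - T y) (T y) - J (p - y) y) := by
    rw [h8, h9]
    ring
  rw [h12]
  have h13 : |K (T p - T y) a - J (p - y) b| ≤ ε / 8 * (6 * ‖u‖) := by
    rw [abs_le] at h4 h5 ⊢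
    constructor <;> linarith [h4.1, h4.2, h5.1, h5.2]
  refine (abs_add_le _ _).trans ?_
  linarith

end P084GII
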