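import Vale.Agent.Lib.P084G.II.DiffA

/-!
Part II: `T` is Frechet differentiable off `0` (uniformly smooth `X`, `Y`).

Let `‖p‖ = 1`, `‖y‖ = 1`, `z = p - y ≠ 0`, `z' = T p - T y`, `‖z'‖ = ‖z‖`.  For `x = p + h`, `r = ‖x‖`,
`HI.rel` says `‖z' + (T x - T p - (r - 1) • T y)‖ = ‖z + (h - (r - 1) • y)‖`.
-/

open Filter Topology

namespace P084GII

variable {X Y : Type*} [NormedAddCommGroup X] [NormedSpace ℝ X] [NormedAddCommGroup Y]
  [NormedSpace ℝ Y] {J : X → X →L[ℝ] ℝ} {K : Y → Y →L[ℝ] ℝ} {T : X → Y} {S : Y → X}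

/-- the test vectors of `bls`, pulled back -/
theorem DiffB_test (hK : DualU K) (h : HI T S) {p : X} (hp : ‖p‖ = 1) (ξ : Y) :
    ∃ y : X, ‖y‖ = 1 ∧ 1 / 18 ≤ ‖p - y‖ ∧ ‖ξ‖ ≤ 16 * |K (T p - T y) ξ| := by
  obtain ⟨y', h1, -, h3, h4⟩ := bls hK.toDual (by rw [h.norm p, hp] : ‖T p‖ = 1) ξ
  have hy : ‖S y'‖ = 1 := by
    have := h.symm.norm y'
    rw [this, h1]
  have hT : T (S y') = y' := h.TS y'
  refine ⟨S y', hy, ?_, ?_⟩
  · rw [← h.dist p (S y') (by rw [hp, hy]), hT]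
    exact h3
  · rw [hT]
    exact h4

/-- the value of the derivative on the test functionals -/
theorem DiffB_dir [CompleteSpace Y] (hJ : DualU J) (hK : DualU K) (h : HI T S) {p : X}
    (hp : ‖p‖ = 1) (v : X) : ∃ a : Y, ‖a‖ ≤ 3 * ‖v‖ ∧ ∀ y : X, ‖y‖ = 1 → 1 / 18 ≤ ‖p - y‖ →
      K (T p - T y) a = J (p - y) v + J p v * (K (T p - T y) (T y) - J (p - y) y) := by
  obtain ⟨s, hs⟩ : ∃ s : ℕ → ℝ, ∀ n, s n = 1 / ((n : ℝ) + 1) := ⟨_, fun _ => rfl⟩
  have hs0 : ∀ n, 0 < s n := fun n => by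
    rw [hs]
    exact Nat.one_div_pos_of_nat
  have hst : Tendsto s atTop (𝓝 0) := by
    have : s = fun n : ℕ => 1 / ((n : ℝ) + 1) := funext hs
    rw [this]
    exact tendsto_one_div_add_atTop_nhds_zero_nat
  obtain ⟨u, hu⟩ : ∃ u : ℕ → Y, ∀ n, u n = (s n)⁻¹ • (T (p + s n • v) - T p) := ⟨_, fun _ => rfl⟩
  -- the estimate of the test functionals
  have key : ∀ ε : ℝ, 0 < ε → ∃ N : ℕ, ∀ n, N ≤ n → ∀ y : X, ‖y‖ = 1 → 1 / 18 ≤ ‖p - y‖ →
      |K (T p - T y) (u n) - (J (p - y) v + J p v * (K (T p - T y) (T y) - J (p - y) y))| ≤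
        ε * ‖v‖ := by
    intro ε hε
    obtain ⟨δ, hδ, hfo⟩ := first_order hJ hK h hε
    have h1 : Tendsto (fun n => s n * ‖v‖) atTop (𝓝 (0 * ‖v‖)) := hst.mul_const _
    rw [zero_mul] at h1
    obtain ⟨N, hN⟩ := eventually_atTop.1 (h1.eventually (gt_mem_nhds hδ))
    refine ⟨N, fun n hn y hy hpy => ?_⟩
    have h2 : ‖s n • v‖ ≤ δ := by
      rw [norm_smul, Real.norm_of_nonneg (hs0 n).le]
      exact (hN n hn).le
    have h3 := hfo p y hp hy hpy (s n • v) h2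
    have e1 : K (T p - T y) (T (p + s n • v) - T p) = s n * K (T p - T y) (u n) := by
      rw [hu, map_smul, smul_eq_mul, ← mul_assoc, mul_inv_cancel₀ (hs0 n).ne', one_mul]
    rw [e1, map_smul, map_smul, smul_eq_mul, smul_eq_mul, norm_smul,
      Real.norm_of_nonneg (hs0 n).le] at h3
    have e2 : s n * K (T p - T y) (u n) - (s n * J (p - y) v + s n * J p v *
        (K (T p - T y) (T y) - J (p - y) y)) = s n * (K (T p - T y) (u n) -
        (J (p - y) v + J p v * (K (T p - T y) (T y) - J (p - y) y))) := by ring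
    rw [e2, abs_mul, abs_of_pos (hs0 n)] at h3
    have e3 : ε * (s n * ‖v‖) = s n * (ε * ‖v‖) := by ring
    rw [e3] at h3
    exact le_of_mul_le_mul_left h3 (hs0 n)
  have hcau : CauchySeq u := by
    rw [Metric.cauchySeq_iff]
    intro ε hε
    have hv : 0 < ‖v‖ + 1 := by positivity
    obtain ⟨N, hN⟩ := key (ε / (64 * (‖v‖ + 1))) (by positivity)
    refine ⟨N, fun m hm n hn => ?_⟩
    obtain ⟨y, hy, hpy, hb⟩ := DiffB_test hK h hp (u m - u n)
    have h1 := hN m hm y hy hpy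
    have h2 := hN n hn y hy hpy
    rw [dist_eq_norm]
    have h3 : |K (T p - T y) (u m - u n)| ≤ 2 * (ε / (64 * (‖v‖ + 1)) * ‖v‖) := by
      rw [map_sub]
      rw [abs_le] at h1 h2 ⊢
      constructor <;> linarith [h1.1, h1.2, h2.1, h2.2]
    have h4 : ε / (64 * (‖v‖ + 1)) * ‖v‖ ≤ ε / 64 := by
      rw [div_mul_eq_mul_div, div_le_div_iff₀ (by positivity) (by norm_num)]
      nlinarith [norm_nonneg v]
    linarith
  obtain ⟨a, ha⟩ := cauchySeq_tendsto_of_complete hcau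
  refine ⟨a, ?_, fun y hy hpy => ?_⟩
  · refine le_of_tendsto ha.norm (Eventually.of_forall fun n => ?_)
    rw [hu, norm_smul, norm_inv, Real.norm_of_nonneg (hs0 n).le, inv_mul_le_iff₀ (hs0 n)]
    have h1 := h.lip (p + s n • v) p
    rw [add_sub_cancel_left, norm_smul, Real.norm_of_nonneg (hs0 n).le] at h1
    linarith
  · have h1 : Tendsto (fun n => K (T p - T y) (u n)) atTop (𝓝 (K (T p - T y) a)) :=
      ((K (T p - T y)).continuous.tendsto a).comp ha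
    refine tendsto_nhds_unique h1 ?_
    rw [Metric.tendsto_atTop]
    intro ε hε
    obtain ⟨N, hN⟩ := key (ε / (2 * (‖v‖ + 1))) (by positivity)
    refine ⟨N, fun n hn => ?_⟩
    rw [Real.dist_eq]
    refine (hN n hn y hy hpy).trans_lt ?_
    have h4 : ε / (2 * (‖v‖ + 1)) * ‖v‖ ≤ ε / 2 := by
      rw [div_mul_eq_mul_div, div_le_div_iff₀ (by positivity) (by norm_num)]
      nlinarith [norm_nonneg v]
    linarith

theorem DiffB_uniq (hK : DualU K) (h : HI T S) {p : X} (hp : ‖p‖ = 1) {a b : Y}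
    (hab : ∀ y : X, ‖y‖ = 1 → 1 / 18 ≤ ‖p - y‖ → K (T p - T y) a = K (T p - T y) b) : a = b := by
  obtain ⟨y, hy, hpy, hb⟩ := DiffB_test hK h hp (a - b)
  have h1 : K (T p - T y) (a - b) = 0 := by
    rw [map_sub, hab y hy hpy, sub_self]
  rw [h1, abs_zero, mul_zero] at hb
  exact sub_eq_zero.1 (norm_le_zero_iff.1 hb)

theorem DiffB_lin [CompleteSpace Y] (hJ : DualU J) (hK : DualU K) (h : HI T S) {p : X}
    (hp : ‖p‖ = 1) : ∃ L : X →L[ℝ] Y, ∀ v y : X, ‖y‖ = 1 → 1 / 18 ≤ ‖p - y‖ →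
      K (T p - T y) (L v) = J (p - y) v + J p v * (K (T p - T y) (T y) - J (p - y) y) := by
  choose L0 hn hL using fun v => DiffB_dir hJ hK h hp v
  refine ⟨LinearMap.mkContinuous (⟨⟨L0, fun v w => ?_⟩, fun c v => ?_⟩ : X →ₗ[ℝ] Y) 3 hn, hL⟩
  · refine DiffB_uniq hK h hp fun y hy hpy => ?_
    rw [map_add, hL v y hy hpy, hL w y hy hpy, hL (v + w) y hy hpy, map_add, map_add]
    ring
  · refine DiffB_uniq hK h hp fun y hy hpy => ?_
    change K (T p - T y) (L0 (c • v)) = K (T p - T y) (c • L0 v)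
    rw [map_smul, hL v y hy hpy, hL (c • v) y hy hpy, map_smul, map_smul, smul_eq_mul, smul_eq_mul,
      smul_eq_mul]
    ring

/-- **Directional derivative**: `t⁻¹ • (T (p + t v) - T p)` is Cauchy as `t → 0+`, uniformly in `‖v‖ ≤ 1`
(`bls` at `q = T p` applied to the difference `ξ` of two quotients; `y = S y'`).  The limit `A v` satisfies
`K z' (A v) = J z v + J p v (K z' (T y) - J z y)` for all `y` with `1/18 ≤ ‖p - y‖`, hence is linear by `bls`,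
bounded by `3 ‖v‖` (`HI.lip`), and `‖T (p+v) - T p - A v‖ ≤ ε ‖v‖` for `‖v‖ ≤ δ` (uniform Cauchy estimate).  The
same `δ` works for all unit `p`. -/
theorem diff_unif [CompleteSpace Y] (hJ : DualU J) (hK : DualU K) (h : HI T S) :
    ∃ A : X → X →L[ℝ] Y, ∀ ε : ℝ, 0 < ε → ∃ δ : ℝ, 0 < δ ∧ ∀ p : X, ‖p‖ = 1 → ∀ v : X, ‖v‖ ≤ δ →
      ‖T (p + v) - T p - A p v‖ ≤ ε * ‖v‖ := by
  have hex : ∀ p : X, ∃ L : X →L[ℝ] Y, ‖p‖ = 1 → ∀ v y : X, ‖y‖ = 1 → 1 / 18 ≤ ‖p - y‖ →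
      K (T p - T y) (L v) = J (p - y) v + J p v * (K (T p - T y) (T y) - J (p - y) y) := by
    intro p
    by_cases hp : ‖p‖ = 1
    · obtain ⟨L, hL⟩ := DiffB_lin hJ hK h hp
      exact ⟨L, fun _ => hL⟩
    · exact ⟨0, fun h' => absurd h' hp⟩
  choose A hA using hex
  refine ⟨A, fun ε hε => ?_⟩
  obtain ⟨δ, hδ, hfo⟩ := first_order hJ hK h (show 0 < ε / 16 by linarith)
  refine ⟨δ, hδ, fun p hp v hv => ?_⟩
  obtain ⟨y, hy, hpy, hb⟩ := DiffB_test hK h hp (T (p + v) - T p - A p v)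
  have h1 := hfo p y hp hy hpy v hv
  rw [map_sub, hA p hp v y hy hpy] at hb
  linarith

/-- with Mathlib's `fderiv` (uniqueness of the derivative) -/
theorem diff_unif' [CompleteSpace Y] (hJ : DualU J) (hK : DualU K) (h : HI T S) {ε : ℝ}
    (hε : 0 < ε) :
    ∃ δ : ℝ, 0 < δ ∧ ∀ p : X, ‖p‖ = 1 → ∀ v : X, ‖v‖ ≤ δ →
      ‖T (p + v) - T p - fderiv ℝ T p v‖ ≤ ε * ‖v‖ := by
  obtain ⟨A, hA⟩ := diff_unif hJ hK h
  have hfd : ∀ p : X, ‖p‖ = 1 → fderiv ℝ T p = A p := by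
    intro p hp
    refine HasFDerivAt.fderiv ?_
    rw [hasFDerivAt_iff_isLittleO, Asymptotics.isLittleO_iff]
    intro η hη
    obtain ⟨δ, hδ, hb⟩ := hA η hη
    filter_upwards [Metric.ball_mem_nhds p hδ] with x hx
    rw [Metric.mem_ball, dist_eq_norm] at hx
    have h1 := hb p hp (x - p) hx.le
    rwa [add_sub_cancel] at h1
  obtain ⟨δ, hδ, hb⟩ := hA ε hε
  refine ⟨δ, hδ, fun p hp v hv => ?_⟩
  rw [hfd p hp]
  exact hb p hp v hv

end P084GII
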