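import Vale.Agent.Lib.P084G.II.Diff

/-! Part II: 2-uniformly smooth spaces: `T` is `C^{1,1}`. -/

open Filter Topology

namespace P084GII

variable {X Y : Type*} [NormedAddCommGroup X] [NormedSpace ℝ X] [NormedAddCommGroup Y]
  [NormedSpace ℝ Y] {J : X → X →L[ℝ] ℝ} {K : Y → Y →L[ℝ] ℝ} {T : X → Y} {S : Y → X} {C C' : ℝ}

/-- the Lipschitz estimate for unit vectors at distance at most `1/36` -/
private theorem DiffLip_near [CompleteSpace X] [CompleteSpace Y] (hJ : Dual2 J C)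
    (hK : Dual2 K C') (h : HI T S) {p p' : X} (hp : ‖p‖ = 1) (hp' : ‖p'‖ = 1)
    (hpp : ‖p - p'‖ ≤ 1 / 36) (v : X) :
    ‖(fderiv ℝ T p - fderiv ℝ T p') v‖ ≤ 16 * (38 * C + 72 * C') * ‖p - p'‖ * ‖v‖ := by
  have hC := hJ.nonneg
  have hC' := hK.nonneg
  have hJU := hJ.toU
  have hKU := hK.toU
  have hTp : ‖T p‖ = 1 := by rw [h.norm, hp]
  obtain ⟨y', hy', -, hd, hb⟩ := bls hK.toDual hTp ((fderiv ℝ T p - fderiv ℝ T p') v)
  obtain ⟨y, hy⟩ : ∃ y : X, y = S y' := ⟨_, rfl⟩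
  have hTy : T y = y' := by rw [hy, h.TS]
  have hyn : ‖y‖ = 1 := by rw [← h.norm y, hTy, hy']
  rw [← hTy] at hd hb hy'
  have hdp : ‖T p - T y‖ = ‖p - y‖ := h.dist p y (by rw [hp, hyn])
  rw [hdp] at hd
  have hp'y : 1 / 36 ≤ ‖p' - y‖ := by
    have h1 : ‖p - y‖ ≤ ‖p - p'‖ + ‖p' - y‖ := by
      have e : p - y = (p - p') + (p' - y) := by abel
      rw [e]
      exact norm_add_le _ _
    linarith
  have hpy : p ≠ y := by
    rintro rfl
    rw [sub_self, norm_zero] at hd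
    norm_num at hd
  have hpy' : p' ≠ y := by
    rintro rfl
    rw [sub_self, norm_zero] at hp'y
    norm_num at hp'y
  have hz0 : p - y ≠ 0 := sub_ne_zero.2 hpy
  have hzp : 0 < ‖p - y‖ := norm_pos_iff.2 hz0
  have hTz0 : T p - T y ≠ 0 := by
    rw [← norm_pos_iff, hdp]
    exact hzp
  have h1 := fd_D1 hJU hKU h hp hyn hpy v
  have h2 := fd_D1 hJU hKU h hp' hyn hpy' v
  have hv0 : 0 ≤ ‖v‖ := norm_nonneg v
  obtain ⟨ρ, hρ⟩ : ∃ ρ : ℝ, ρ = ‖p - p'‖ := ⟨_, rfl⟩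
  have hρ0 : 0 ≤ ρ := hρ ▸ norm_nonneg _
  -- the operator bounds
  have hdiv : ∀ c : ℝ, 0 ≤ c → c * ρ / ‖p - y‖ ≤ 18 * c * ρ := by
    intro c hc
    rw [div_le_iff₀ hzp]
    have h3 : 0 ≤ c * ρ := mul_nonneg hc hρ0
    nlinarith
  have hJd : ‖J (p - y) - J (p' - y)‖ ≤ 18 * C * ρ := by
    have h3 := hJ.lip' hz0 (p' - y)
    rw [sub_sub_sub_cancel_right, ← hρ] at h3
    exact h3.trans (hdiv C hC)
  have hKd : ‖K (T p - T y) - K (T p' - T y)‖ ≤ 18 * C' * ρ := by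
    have h3 := hK.lip' hTz0 (T p' - T y)
    rw [sub_sub_sub_cancel_right, h.dist p p' (by rw [hp, hp']), ← hρ, hdp] at h3
    exact h3.trans (hdiv C' hC')
  have hJp : ‖J p - J p'‖ ≤ C * ρ := by
    have h3 := hJ.lip p p' hp
    rwa [← hρ] at h3
  have a1 : |J (p - y) v - J (p' - y) v| ≤ 18 * C * ρ * ‖v‖ :=
    ((J (p - y) - J (p' - y)).le_opNorm v).trans (mul_le_mul_of_nonneg_right hJd hv0)
  have a2 : |J (p - y) y - J (p' - y) y| ≤ 18 * C * ρ := by
    have h3 := ((J (p - y) - J (p' - y)).le_opNorm y).trans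
      (mul_le_mul_of_nonneg_right hJd (norm_nonneg y))
    rw [hyn, mul_one] at h3
    exact h3
  have a3 : |K (T p - T y) (T y) - K (T p' - T y) (T y)| ≤ 18 * C' * ρ := by
    have h3 := ((K (T p - T y) - K (T p' - T y)).le_opNorm (T y)).trans
      (mul_le_mul_of_nonneg_right hKd (norm_nonneg (T y)))
    rw [h.norm, hyn, mul_one] at h3
    exact h3
  have a4 : |K (T p - T y) (fderiv ℝ T p' v) - K (T p' - T y) (fderiv ℝ T p' v)| ≤
      18 * C' * ρ * (3 * ‖v‖) := by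
    have h3 : ‖fderiv ℝ T p' v‖ ≤ 3 * ‖v‖ :=
      ((fderiv ℝ T p').le_opNorm v).trans (mul_le_mul_of_nonneg_right (fd_norm h p') hv0)
    exact ((K (T p - T y) - K (T p' - T y)).le_opNorm (fderiv ℝ T p' v)).trans
      (mul_le_mul hKd h3 (norm_nonneg _) (by positivity))
  have a5 : |J p v - J p' v| ≤ C * ρ * ‖v‖ :=
    ((J p - J p').le_opNorm v).trans (mul_le_mul_of_nonneg_right hJp hv0)
  have a6 : |J p' v| ≤ ‖v‖ := hJ.toDual.abs_le p' v
  have a7 : |K (T p - T y) (T y) - J (p - y) y| ≤ 2 := by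
    have b1 := hK.toDual.abs_le (T p - T y) (T y)
    have b2 := hJ.toDual.abs_le (p - y) y
    rw [h.norm y, hyn] at b1
    rw [hyn] at b2
    refine (abs_sub _ _).trans ?_
    linarith
  -- the identity
  have e1 : K (T p - T y) ((fderiv ℝ T p - fderiv ℝ T p') v) =
      (J (p - y) v - J (p' - y) v) +
      (J p v - J p' v) * (K (T p - T y) (T y) - J (p - y) y) +
      J p' v * ((K (T p - T y) (T y) - K (T p' - T y) (T y)) -
        (J (p - y) y - J (p' - y) y)) -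
      (K (T p - T y) (fderiv ℝ T p' v) - K (T p' - T y) (fderiv ℝ T p' v)) := by
    have e2 : (fderiv ℝ T p - fderiv ℝ T p') v = fderiv ℝ T p v - fderiv ℝ T p' v := rfl
    rw [e2, map_sub, h1, h2]
    ring
  have c1 : |(J p v - J p' v) * (K (T p - T y) (T y) - J (p - y) y)| ≤ C * ρ * ‖v‖ * 2 := by
    rw [abs_mul]
    exact mul_le_mul a5 a7 (abs_nonneg _) (by positivity)
  have c2 : |J p' v * ((K (T p - T y) (T y) - K (T p' - T y) (T y)) -
        (J (p - y) y - J (p' - y) y))| ≤ ‖v‖ * (18 * C' * ρ + 18 * C * ρ) := by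
    rw [abs_mul]
    refine mul_le_mul a6 ?_ (abs_nonneg _) hv0
    exact (abs_sub _ _).trans (add_le_add a3 a2)
  have c3 : |K (T p - T y) ((fderiv ℝ T p - fderiv ℝ T p') v)| ≤
      (38 * C + 72 * C') * ρ * ‖v‖ := by
    rw [e1]
    rw [abs_le] at a1 c1 c2 a4 ⊢
    constructor <;> linarith [a1.1, a1.2, c1.1, c1.2, c2.1, c2.2, a4.1, a4.2]
  rw [← hρ]
  refine hb.trans ?_
  linarith

/-- Unit `p`, `p'`, and `y` with `1/18 ≤ ‖p - y‖`; `v` arbitrary, `ξ = (fderiv T p - fderiv T p') v`, `y` from `bls` at `ξ`.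
If `‖p - p'‖ ≤ 1/36` then `K (T p - T y) (fderiv T p v)` and `K (T p' - T y) (fderiv T p' v)` are given by `fd_D1`; all terms
are Lipschitz in `p` (`Dual2.lip'`), so `‖ξ‖ ≤ L ‖p - p'‖ ‖v‖`.  Otherwise trivial.  For non-unit second point use
`fd_smul` (`‖y/‖y‖ - x‖ ≤ 2 ‖x - y‖`). -/
theorem fd_lip [CompleteSpace X] [CompleteSpace Y] (hJ : Dual2 J C) (hK : Dual2 K C')
    (h : HI T S) :
    ∃ L : ℝ, 0 ≤ L ∧ ∀ x y : X, ‖x‖ = 1 → ‖fderiv ℝ T x - fderiv ℝ T y‖ ≤ L * ‖x - y‖ := by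
  have hC := hJ.nonneg
  have hC' := hK.nonneg
  obtain ⟨L₁, hL₁⟩ : ∃ L₁ : ℝ, L₁ = 16 * (38 * C + 72 * C') + 216 := ⟨_, rfl⟩
  have hL₁0 : 216 ≤ L₁ := by
    rw [hL₁]
    have : 0 ≤ 16 * (38 * C + 72 * C') := by positivity
    linarith
  have h6 : ∀ x y : X, ‖fderiv ℝ T x - fderiv ℝ T y‖ ≤ 6 := by
    intro x y
    refine (norm_sub_le _ _).trans ?_
    have a1 := fd_norm h x
    have a2 := fd_norm h y
    linarith
  have hunit : ∀ p p' : X, ‖p‖ = 1 → ‖p'‖ = 1 →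
      ‖fderiv ℝ T p - fderiv ℝ T p'‖ ≤ L₁ * ‖p - p'‖ := by
    intro p p' hp hp'
    have hn := norm_nonneg (p - p')
    rcases le_total ‖p - p'‖ (1 / 36) with h1 | h1
    · refine ContinuousLinearMap.opNorm_le_bound _ (by positivity) fun v => ?_
      refine (DiffLip_near hJ hK h hp hp' h1 v).trans ?_
      refine mul_le_mul_of_nonneg_right ?_ (norm_nonneg v)
      refine mul_le_mul_of_nonneg_right ?_ hn
      rw [hL₁]
      linarith
    · refine (h6 p p').trans ?_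
      nlinarith
  refine ⟨2 * L₁, by linarith, fun x y hx => ?_⟩
  have hn := norm_nonneg (x - y)
  rcases eq_or_ne y 0 with rfl | hy
  · refine (h6 x 0).trans ?_
    rw [sub_zero, hx]
    linarith
  · have hy0 : 0 < ‖y‖ := norm_pos_iff.2 hy
    have h1 := fd_smul hJ.toU hK.toU h hy (inv_pos.2 hy0)
    have h2 : ‖‖y‖⁻¹ • y‖ = 1 := by
      rw [norm_smul, norm_inv, norm_norm, inv_mul_cancel₀ hy0.ne']
    have h3 : ‖x - ‖y‖⁻¹ • y‖ ≤ 2 * ‖x - y‖ := by
      have e : x - ‖y‖⁻¹ • y = (x - y) + (y - ‖y‖⁻¹ • y) := by abel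
      have h4 : ‖y - ‖y‖⁻¹ • y‖ ≤ ‖x - y‖ := by
        have e2 : y - ‖y‖⁻¹ • y = (1 - ‖y‖⁻¹) • y := by rw [sub_smul, one_smul]
        rw [e2, norm_smul, Real.norm_eq_abs]
        have e3 : |1 - ‖y‖⁻¹| * ‖y‖ = |‖y‖ - 1| := by
          rw [← abs_of_pos hy0, ← abs_mul, abs_of_pos hy0, sub_mul, one_mul,
            inv_mul_cancel₀ hy0.ne']
        rw [e3, ← hx, norm_sub_rev]
        exact abs_norm_sub_norm_le y x
      rw [e]
      refine (norm_add_le _ _).trans ?_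
      linarith
    rw [← h1]
    refine (hunit x _ hx h2).trans ?_
    nlinarith

/-- mean value inequality on the segment for `‖h‖ ≤ 1/2`, trivial bound otherwise -/
theorem taylorT [CompleteSpace X] [CompleteSpace Y] (hJ : Dual2 J C) (hK : Dual2 K C')
    (h : HI T S) :
    ∃ L : ℝ, 0 ≤ L ∧ ∀ x u : X, ‖x‖ = 1 → ‖T (x + u) - T x - fderiv ℝ T x u‖ ≤ L * ‖u‖ ^ 2 := by
  obtain ⟨L, hL, hlip⟩ := fd_lip hJ hK h
  refine ⟨L + 12, by linarith, fun x u hx => ?_⟩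
  have hn := norm_nonneg u
  rcases le_total ‖u‖ (1 / 2) with hu | hu
  · have hmem : ∀ z ∈ Metric.closedBall x ‖u‖, z ≠ 0 := by
      intro z hz hz0
      rw [hz0, Metric.mem_closedBall, dist_zero_left, hx] at hz
      linarith
    have h1 := (convex_closedBall x ‖u‖).norm_image_sub_le_of_norm_hasFDerivWithin_le'
      (f := T) (f' := fderiv ℝ T) (φ := fderiv ℝ T x) (C := L * ‖u‖) (x := x) (y := x + u)
      (fun z hz => (hasFD hJ.toU hK.toU h (hmem z hz)).hasFDerivWithinAt)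
      (fun z hz => by
        rw [norm_sub_rev]
        refine (hlip x z hx).trans (mul_le_mul_of_nonneg_left ?_ hL)
        rw [Metric.mem_closedBall, dist_comm, dist_eq_norm] at hz
        exact hz)
      (Metric.mem_closedBall_self hn)
      (by rw [Metric.mem_closedBall, dist_eq_norm, add_sub_cancel_left])
    rw [add_sub_cancel_left] at h1
    refine h1.trans ?_
    nlinarith [sq_nonneg ‖u‖]
  · have h1 := h.lip (x + u) x
    rw [add_sub_cancel_left] at h1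
    have h2 : ‖fderiv ℝ T x u‖ ≤ 3 * ‖u‖ :=
      ((fderiv ℝ T x).le_opNorm u).trans (mul_le_mul_of_nonneg_right (fd_norm h x) hn)
    refine (norm_sub_le _ _).trans ?_
    have h3 : 0 ≤ L * ‖u‖ ^ 2 := by positivity
    nlinarith

end P084GII
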