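import Vale.Agent.Lib.P084G.II.K0a

/-! Part II, case C: the slice theorem. -/

open Filter Topology

namespace P084GII

variable {X W : Type*} [NormedAddCommGroup X] [NormedSpace ℝ X] [NormedAddCommGroup W]
  [NormedSpace ℝ W]

theorem K0_lip {g : X → W} {L : ℝ} (hL : 0 ≤ L)
    (hg : ∀ x y : X, ‖x‖ = 1 → ‖g x - g y‖ ≤ L * ‖x - y‖)
    (hgs : ∀ c : ℝ, 0 < c → ∀ x : X, g (c • x) = g x) {r : ℝ} (hr : 0 < r) {x : X}
    (hx : r ≤ ‖x‖) (y : X) : ‖g x - g y‖ ≤ L / r * ‖x - y‖ := by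
  have hx0 : 0 < ‖x‖ := lt_of_lt_of_le hr hx
  have hc : 0 < ‖x‖⁻¹ := inv_pos.2 hx0
  have h1 := hg (‖x‖⁻¹ • x) (‖x‖⁻¹ • y) (by
    rw [norm_smul, norm_inv, norm_norm, inv_mul_cancel₀ hx0.ne'])
  rw [hgs _ hc, hgs _ hc, ← smul_sub, norm_smul, norm_inv, norm_norm] at h1
  refine h1.trans ?_
  have h2 : ‖x‖⁻¹ ≤ r⁻¹ := inv_anti₀ hr hx
  have h3 : 0 ≤ ‖x - y‖ := norm_nonneg _
  calc L * (‖x‖⁻¹ * ‖x - y‖) ≤ L * (r⁻¹ * ‖x - y‖) := by gcongr
    _ = L / r * ‖x - y‖ := by rw [div_eq_mul_inv]; ring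

theorem K0_mz {g : X → W} {j : X → ℝ}
    (hgs : ∀ c : ℝ, 0 < c → ∀ x : X, g (c • x) = g x)
    (hjs : ∀ c : ℝ, 0 < c → ∀ x : X, j (c • x) = j x)
    (mz : ∀ η : ℝ, 0 < η → ∃ t₀ : ℝ, 0 < t₀ ∧ ∀ t : ℝ, 0 < t → t < t₀ → ∀ x : X, ‖x‖ = 1 →
      ∃ z : W, ‖z‖ ≤ 3 ∧ ∀ u : X, ‖u‖ ≤ 1 →
        ‖(g (x + t • u) - g x) - (j (x + t • u) - j x) • z‖ ≤ η * t) {r : ℝ} (hr : 0 < r)
    {η : ℝ} (hη : 0 < η) : ∃ t₀ : ℝ, 0 < t₀ ∧ ∀ t : ℝ, 0 < t → t < t₀ → ∀ x : X, r ≤ ‖x‖ →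
      ∃ z : W, ‖z‖ ≤ 3 ∧ ∀ u : X, ‖u‖ ≤ t →
        ‖(g (x + u) - g x) - (j (x + u) - j x) • z‖ ≤ η * t := by
  obtain ⟨t₀, ht₀, h⟩ := mz (η * r) (by positivity)
  refine ⟨t₀ * r, by positivity, fun t ht htt x hx => ?_⟩
  have hx0 : 0 < ‖x‖ := lt_of_lt_of_le hr hx
  have hc : 0 < ‖x‖⁻¹ := inv_pos.2 hx0
  have h1 : t * ‖x‖⁻¹ < t₀ := by
    rw [← div_eq_mul_inv, div_lt_iff₀ hx0]
    exact lt_of_lt_of_le htt (by gcongr)
  obtain ⟨z, hz, hzz⟩ := h (t * ‖x‖⁻¹) (by positivity) h1 (‖x‖⁻¹ • x) (by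
    rw [norm_smul, norm_inv, norm_norm, inv_mul_cancel₀ hx0.ne'])
  refine ⟨z, hz, fun u hu => ?_⟩
  have h2 := hzz (t⁻¹ • u) (by
    rw [norm_smul, norm_inv, Real.norm_eq_abs, abs_of_pos ht, inv_mul_le_iff₀ ht, mul_one]
    exact hu)
  have h3 : ‖x‖⁻¹ • x + (t * ‖x‖⁻¹) • t⁻¹ • u = ‖x‖⁻¹ • (x + u) := by
    rw [smul_smul, smul_add]
    congr 2
    field_simp
  rw [h3, hgs _ hc, hgs _ hc, hjs _ hc, hjs _ hc] at h2
  refine h2.trans ?_
  have h4 : ‖x‖⁻¹ ≤ r⁻¹ := inv_anti₀ hr hx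
  calc η * r * (t * ‖x‖⁻¹) ≤ η * r * (t * r⁻¹) := by gcongr
    _ = η * t := by field_simp

theorem K0_xa (x1 x2 : X) {a : ℝ} (h0 : 0 ≤ a) (h1 : a ≤ 1) :
    ‖(1 - a) • x1 + a • x2‖ ≤ ‖x1‖ + ‖x2‖ := by
  refine (norm_add_le _ _).trans ?_
  rw [norm_smul, norm_smul, Real.norm_eq_abs, Real.norm_eq_abs, abs_of_nonneg h0,
    abs_of_nonneg (sub_nonneg.2 h1)]
  have a1 := norm_nonneg x1
  have a2 := norm_nonneg x2
  nlinarith

theorem K0_far (x1 x2 v : X) {a s : ℝ} (h0 : 0 ≤ a) (h1 : a ≤ 1) :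
    |s| * ‖v‖ - (‖x1‖ + ‖x2‖) ≤ ‖(1 - a) • x1 + a • x2 + s • v‖ := by
  have h2 := K0_xa x1 x2 h0 h1
  have h3 : ‖s • v‖ ≤ ‖(1 - a) • x1 + a • x2 + s • v‖ + ‖(1 - a) • x1 + a • x2‖ := by
    have := norm_sub_le ((1 - a) • x1 + a • x2 + s • v) ((1 - a) • x1 + a • x2)
    rwa [add_sub_cancel_left] at this
  rw [norm_smul, Real.norm_eq_abs] at h3
  linarith

theorem K0_r0 {x1 x2 v : X} (hv : v ≠ 0)
    (hx : ∀ a s : ℝ, 0 ≤ a → a ≤ 1 → (1 - a) • x1 + a • x2 + s • v ≠ 0) :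
    ∃ r : ℝ, 0 < r ∧ ∀ a s : ℝ, 0 ≤ a → a ≤ 1 → r ≤ ‖(1 - a) • x1 + a • x2 + s • v‖ := by
  have hv0 : 0 < ‖v‖ := norm_pos_iff.2 hv
  set S := (‖x1‖ + ‖x2‖ + 1) / ‖v‖ with hS
  have hS0 : 0 < S := by positivity
  have hK : IsCompact (Set.Icc (0 : ℝ) 1 ×ˢ Set.Icc (-S) S) := isCompact_Icc.prod isCompact_Icc
  have hne : (Set.Icc (0 : ℝ) 1 ×ˢ Set.Icc (-S) S).Nonempty :=
    ⟨(0, 0), ⟨⟨le_rfl, zero_le_one⟩, ⟨by simpa using hS0.le, hS0.le⟩⟩⟩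
  have hf : Continuous fun q : ℝ × ℝ => ‖(1 - q.1) • x1 + q.1 • x2 + q.2 • v‖ := by fun_prop
  obtain ⟨q, hq, hmin⟩ := hK.exists_isMinOn hne hf.continuousOn
  have hq0 : 0 < ‖(1 - q.1) • x1 + q.1 • x2 + q.2 • v‖ := norm_pos_iff.2 (hx q.1 q.2 hq.1.1 hq.1.2)
  refine ⟨min ‖(1 - q.1) • x1 + q.1 • x2 + q.2 • v‖ 1, lt_min hq0 one_pos, fun a s h0 h1 => ?_⟩
  by_cases hs : |s| ≤ S
  · refine (min_le_left _ _).trans ?_
    exact hmin (show (a, s) ∈ _ from ⟨⟨h0, h1⟩, abs_le.1 hs⟩)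
  · refine (min_le_right _ _).trans ?_
    push Not at hs
    have h2 := K0_far x1 x2 v (s := s) h0 h1
    rw [hS, div_lt_iff₀ hv0] at hs
    linarith

theorem K0_ineq {g : X → W} {j : X → ℝ} {v : X} {L : ℝ} (hL : 0 ≤ L)
    (hg : ∀ x y : X, ‖x‖ = 1 → ‖g x - g y‖ ≤ L * ‖x - y‖)
    (hj : ∀ x y : X, ‖x‖ = 1 → |j x - j y| ≤ L * ‖x - y‖)
    (hgs : ∀ c : ℝ, 0 < c → ∀ x : X, g (c • x) = g x)
    (hjs : ∀ c : ℝ, 0 < c → ∀ x : X, j (c • x) = j x)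
    (mono : ∀ (x : X) (s s' : ℝ), s ≤ s' → j (x + s • v) ≤ j (x + s' • v))
    {x1 x2 : X} {r δ η c t : ℝ} (hr : 0 < r) (hδ : 0 < δ) (hη : 0 < η)
    (hrr : ∀ a s : ℝ, 0 ≤ a → a ≤ 1 → r ≤ ‖(1 - a) • x1 + a • x2 + s • v‖)
    (h1 : j x1 = 0) (h2 : j x2 = 0) {N R : ℕ} (hN : 0 < N) {D : ℝ} (hD : 0 < D)
    (hRD : D ≤ R * ‖v‖ - (‖x1‖ + ‖x2‖)) (hc : c = ‖v‖ + ‖x2 - x1‖) (ht : t = c / N)
    (hz : ∀ x : X, r ≤ ‖x‖ → ∃ z : W, ‖z‖ ≤ 3 ∧ ∀ u : X, ‖u‖ ≤ t →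
        ‖(g (x + u) - g x) - (j (x + u) - j x) • z‖ ≤ η * t) :
    ‖g x1 - g x2‖ ≤ 3 * (L / D * ‖x2 - x1‖) + 2 * (3 * (δ + L / r * t) +
      ((R * N : ℕ) : ℝ) * (η * t)) + 2 * N * ((R * N + R * N : ℕ) : ℝ) *
        ((η * t) * (2 * (L / r * t) / δ + 8 * (L / r * t) ^ 2 / δ ^ 2) +
          24 * (L / r * t) ^ 3 / δ ^ 2) := by
  have hN' : (0 : ℝ) < N := by positivity
  have hNi : (0 : ℝ) < 1 / N := by positivity
  have hc0 : 0 ≤ c := by rw [hc]; positivity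
  have ht0 : 0 ≤ t := by rw [ht]; positivity
  have htvx : 1 / (N : ℝ) * ‖v‖ + 1 / (N : ℝ) * ‖x2 - x1‖ ≤ t := by
    rw [ht, hc]
    exact le_of_eq (by ring)
  have hp1 : 0 ≤ 1 / (N : ℝ) * ‖v‖ := by positivity
  have hp2 : 0 ≤ 1 / (N : ℝ) * ‖x2 - x1‖ := by positivity
  have htv : 1 / (N : ℝ) * ‖v‖ ≤ t := by linarith
  have htx : 1 / (N : ℝ) * ‖x2 - x1‖ ≤ t := by linarith
  set P : ℕ → ℕ → X := fun a b => (1 - (a : ℝ) / N) • x1 + ((a : ℝ) / N) • x2 +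
    (-(R : ℝ) + (b : ℝ) / N) • v with hP
  have hP1 : ∀ a b, P a (b + 1) = P a b + (1 / (N : ℝ)) • v := by
    intro a b
    simp only [hP]
    push_cast
    module
  have hP2 : ∀ a b, P (a + 1) b = P a b + (1 / (N : ℝ)) • (x2 - x1) := by
    intro a b
    simp only [hP]
    push_cast
    module
  have hu1 : ‖(1 / (N : ℝ)) • v‖ ≤ t := by
    rw [norm_smul, Real.norm_eq_abs, abs_of_pos hNi]
    exact htv
  have hu2 : ‖(1 / (N : ℝ)) • (x2 - x1)‖ ≤ t := by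
    rw [norm_smul, Real.norm_eq_abs, abs_of_pos hNi]
    exact htx
  have hu3 : ‖(1 / (N : ℝ)) • v + (1 / (N : ℝ)) • (x2 - x1)‖ ≤ t := by
    refine (norm_add_le _ _).trans ?_
    rw [norm_smul, norm_smul, Real.norm_eq_abs, abs_of_pos hNi]
    exact htvx
  have ha01 : ∀ a : ℕ, a ≤ N → 0 ≤ (a : ℝ) / N ∧ (a : ℝ) / N ≤ 1 := by
    intro a ha
    refine ⟨by positivity, ?_⟩
    rw [div_le_one hN']
    exact_mod_cast ha
  have hPr : ∀ a b : ℕ, a ≤ N → r ≤ ‖P a b‖ := fun a b ha =>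
    hrr _ _ (ha01 a ha).1 (ha01 a ha).2
  have hP0 : ∀ a : ℕ, a ≤ N → D ≤ ‖P a 0‖ := by
    intro a ha
    have := K0_far x1 x2 v (s := -(R : ℝ) + ((0 : ℕ) : ℝ) / N) (ha01 a ha).1 (ha01 a ha).2
    simp only [CharP.cast_eq_zero, zero_div, add_zero, abs_neg, Nat.abs_cast] at this
    have e : P a 0 = (1 - (a : ℝ) / N) • x1 + ((a : ℝ) / N) • x2 + (-(R : ℝ)) • v := by
      simp [hP]
    rw [e]
    linarith
  have hPn : ∀ a : ℕ, a ≤ N → D ≤ ‖P a (R * N + R * N)‖ := by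
    intro a ha
    have := K0_far x1 x2 v (s := (R : ℝ)) (ha01 a ha).1 (ha01 a ha).2
    rw [Nat.abs_cast] at this
    have e : P a (R * N + R * N) = (1 - (a : ℝ) / N) • x1 + ((a : ℝ) / N) • x2 + (R : ℝ) • v := by
      simp only [hP]
      congr 2
      push_cast
      field_simp
      ring
    rw [e]
    linarith
  have lg : ∀ x y : X, r ≤ ‖x‖ → ‖g x - g y‖ ≤ L / r * ‖x - y‖ := fun x y hx =>
    K0_lip hL hg hgs hr hx y
  have lj : ∀ x y : X, r ≤ ‖x‖ → |j x - j y| ≤ L / r * ‖x - y‖ := fun x y hx => by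
    have := K0_lip (g := j) hL (fun x y hx => by rw [Real.norm_eq_abs]; exact hj x y hx) hjs hr hx y
    rwa [Real.norm_eq_abs] at this
  have ljt : ∀ x u : X, r ≤ ‖x‖ → ‖u‖ ≤ t → |j (x + u) - j x| ≤ L / r * t := by
    intro x u hx hu
    rw [abs_sub_comm]
    refine (lj x (x + u) hx).trans ?_
    have : ‖x - (x + u)‖ = ‖u‖ := by rw [sub_add_cancel_left, norm_neg]
    rw [this]
    gcongr
  set ed : X → X → W := fun x y => edg δ (j x) (j y) (g x) (g y) with hed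
  have hanti : ∀ x y, ed x y = - ed y x := fun x y => edg_anti _ _ _ _ _
  have hd0 : 0 ≤ L / r * t := by positivity
  have he0 : 0 ≤ η * t := by positivity
  have hst := stokes ed hanti P N (R * N + R * N)
    ((η * t) * (2 * (L / r * t) / δ + 8 * (L / r * t) ^ 2 / δ ^ 2) + 24 * (L / r * t) ^ 3 / δ ^ 2)
    (fun a b ha hb => by
      obtain ⟨z, hz3, hzz⟩ := hz (P a b) (hPr a b ha.le)
      have e1 : P (a + 1) (b + 1) = P a b + ((1 / (N : ℝ)) • v + (1 / (N : ℝ)) • (x2 - x1)) := by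
        rw [hP2, hP1, add_assoc]
      simp only [hed]
      rw [e1, hP1]
      exact tri_est hδ hd0 he0 hz3 (hzz _ hu1) (hzz _ hu3) (ljt _ _ (hPr a b ha.le) hu1)
        (ljt _ _ (hPr a b ha.le) hu3))
    (fun a b ha hb => by
      obtain ⟨z, hz3, hzz⟩ := hz (P a b) (hPr a b ha.le)
      have e1 : P (a + 1) (b + 1) = P a b + ((1 / (N : ℝ)) • v + (1 / (N : ℝ)) • (x2 - x1)) := by
        rw [hP2, hP1, add_assoc]
      simp only [hed]
      rw [e1, hP2]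
      exact tri_est hδ hd0 he0 hz3 (hzz _ hu2) (hzz _ hu3) (ljt _ _ (hPr a b ha.le) hu2)
        (ljt _ _ (hPr a b ha.le) hu3))
  -- columns
  have hcol : ∀ n : ℕ, (∀ a : ℕ, a ≤ N → D ≤ ‖P a n‖) →
      ‖∑ a ∈ Finset.range N, ed (P a n) (P (a + 1) n)‖ ≤ L / D * ‖x2 - x1‖ := by
    intro n hn
    refine (norm_sum_le _ _).trans ?_
    calc ∑ a ∈ Finset.range N, ‖ed (P a n) (P (a + 1) n)‖ ≤
        ∑ a ∈ Finset.range N, L / D * (1 / (N : ℝ) * ‖x2 - x1‖) := by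
          refine Finset.sum_le_sum fun a ha => ?_
          rw [Finset.mem_range] at ha
          refine (edg_norm _ _ _ _ _).trans ?_
          rw [norm_sub_rev]
          refine (K0_lip hL hg hgs hD (hn a ha.le) _).trans ?_
          rw [hP2, sub_add_cancel_left, norm_neg, norm_smul, Real.norm_eq_abs, abs_of_pos hNi]
      _ = L / D * ‖x2 - x1‖ := by
          rw [Finset.sum_const, Finset.card_range, nsmul_eq_mul]
          field_simp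
  -- rows
  have hrow : ∀ a : ℕ, a ≤ N → j (P a (R * N)) = 0 →
      ‖(∑ b ∈ Finset.range (R * N + R * N), ed (P a b) (P a (b + 1))) -
        (g (P a (R * N + R * N)) - g (P a (R * N)))‖ ≤
        3 * (δ + L / r * t) + ((R * N : ℕ) : ℝ) * (η * t) := by
    intro a ha hja
    have hmon : ∀ b b' : ℕ, b ≤ b' → j (P a b) ≤ j (P a b') := by
      intro b b' hbb
      simp only [hP]
      refine mono _ _ _ ?_
      have : (b : ℝ) ≤ b' := by exact_mod_cast hbb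
      gcongr
    rw [Finset.sum_range_add]
    have hz0 : ∑ b ∈ Finset.range (R * N), ed (P a b) (P a (b + 1)) = 0 := by
      refine Finset.sum_eq_zero fun b hb => ?_
      rw [Finset.mem_range] at hb
      have m1 : j (P a b) ≤ 0 := by
        rw [← hja]; exact hmon _ _ hb.le
      have m2 : j (P a (b + 1)) ≤ 0 := by
        rw [← hja]; exact hmon _ _ hb
      simp only [hed, edg]
      rw [hst_zero (div_nonpos_of_nonpos_of_nonneg m1 hδ.le),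
        hst_zero (div_nonpos_of_nonpos_of_nonneg m2 hδ.le)]
      simp
    rw [hz0, zero_add]
    have hline := line_est hδ hd0 he0 (R * N) (fun b => j (P a (R * N + b)))
      (fun b => g (P a (R * N + b))) (by simpa using hja)
      (fun b _ => hmon _ _ (by omega))
      (fun b _ => by
        have := ljt (P a (R * N + b)) ((1 / (N : ℝ)) • v) (hPr _ _ ha) hu1
        rw [← hP1] at this
        have := (abs_le.1 this).2
        have e : R * N + (b + 1) = R * N + b + 1 := by ring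
        simp only [e]
        linarith)
      (fun b _ => by
        obtain ⟨z, hz3, hzz⟩ := hz (P a (R * N + b)) (hPr _ _ ha)
        have h3 := hzz _ hu1
        rw [← hP1] at h3
        have e : R * N + (b + 1) = R * N + b + 1 := by ring
        simp only [e]
        have h4 := hmon (R * N + b) (R * N + b + 1) (by omega)
        set q := j (P a (R * N + b + 1)) - j (P a (R * N + b)) with hq
        have hq0 : 0 ≤ q := by rw [hq]; linarith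
        have h5 : ‖q • z‖ ≤ 3 * q := by
          rw [norm_smul, Real.norm_eq_abs, abs_of_nonneg hq0]
          nlinarith
        have h6 := norm_add_le (g (P a (R * N + b + 1)) - g (P a (R * N + b)) - q • z) (q • z)
        rw [sub_add_cancel] at h6
        linarith)
    exact hline
  have hx1 : P 0 (R * N) = x1 := by
    simp only [hP]
    have : -(R : ℝ) + ((R * N : ℕ) : ℝ) / N = 0 := by
      push_cast
      field_simp
      ring
    rw [this]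
    simp
  have hx2 : P N (R * N) = x2 := by
    simp only [hP]
    have : -(R : ℝ) + ((R * N : ℕ) : ℝ) / N = 0 := by
      push_cast
      field_simp
      ring
    rw [this, div_self hN'.ne']
    simp
  have r1 := hrow 0 (Nat.zero_le _) (by rw [hx1]; exact h1)
  have r2 := hrow N le_rfl (by rw [hx2]; exact h2)
  rw [hx1] at r1
  rw [hx2] at r2
  have c0 := hcol 0 hP0
  have cn := hcol _ hPn
  have hend : ‖g (P 0 (R * N + R * N)) - g (P N (R * N + R * N))‖ ≤ L / D * ‖x2 - x1‖ := by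
    refine (K0_lip hL hg hgs hD (hPn 0 (Nat.zero_le _)) _).trans (le_of_eq ?_)
    congr 1
    rw [norm_sub_rev]
    congr 1
    simp only [hP]
    rw [div_self hN'.ne']
    push_cast
    module
  set S0 := ∑ b ∈ Finset.range (R * N + R * N), ed (P 0 b) (P 0 (b + 1))
  set SN := ∑ b ∈ Finset.range (R * N + R * N), ed (P N b) (P N (b + 1))
  set C0 := ∑ a ∈ Finset.range N, ed (P a 0) (P (a + 1) 0)
  set Cn := ∑ a ∈ Finset.range N, ed (P a (R * N + R * N)) (P (a + 1) (R * N + R * N))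
  set G0 := g (P 0 (R * N + R * N))
  set GN := g (P N (R * N + R * N))
  have key : g x1 - g x2 = (S0 - (G0 - g x1)) - (SN - (GN - g x2)) + (G0 - GN) -
      (S0 + Cn - SN - C0) + Cn - C0 := by abel
  rw [key]
  refine (norm_sub_le _ _).trans ?_
  have k1 := norm_add_le ((S0 - (G0 - g x1)) - (SN - (GN - g x2)) + (G0 - GN) -
      (S0 + Cn - SN - C0)) Cn
  have k2 := norm_sub_le ((S0 - (G0 - g x1)) - (SN - (GN - g x2)) + (G0 - GN))
      (S0 + Cn - SN - C0)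
  have k3 := norm_add_le ((S0 - (G0 - g x1)) - (SN - (GN - g x2))) (G0 - GN)
  have k4 := norm_sub_le (S0 - (G0 - g x1)) (SN - (GN - g x2))
  linarith

/-- **Slice theorem.**  `x a = (1-a) x1 + a x2`; the points `x a + s v` have norm `≥ r0 > 0` (compactness, `v ≠ 0`: as
`j v > 0 > j (-v)`...; for large `|s|` the norm is `≥ |s| ‖v‖ - const`).  Scaled forms for `‖x‖ ≥ r0`: `‖g x - g y‖ ≤ L ‖x - y‖/‖x‖`, same for
`j`, and (mz) with error `η t / r0`.  Fix a large integer `R` and `δ`; `N → ∞`; grid `P a b = x (a/N) + (-R + b/N) v`, `a ≤ N`, `b ≤ 2 R N`;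
`stokes` with `ed P Q = edg δ (j P) (j Q) (g P) (g Q)`, triangles by `tri_est` (`d = O(1/N)`, `e = η O(1/N)`, `η` arbitrary), so the error is
`2 N (2 R N) (O_{R,δ}(η/N^2) + O(1/N^3))`, small.  The two end columns (`b = 0`, `b = 2 R N`) are at distance `≥ R‖v‖ - const` from `0`: their
sums are `≤ L ‖x2 - x1‖/(R ‖v‖ - const)`.  The row through `x1` (`a = 0`): for `b < R N` the edge terms vanish (`j ≤ 0` by
monotonicity, `hst_zero`), for `b ≥ R N` `line_est` gives `g (P 0 (2RN)) - g x1 + O(3 (δ + d) + η R/r0)` (`hg` from mz: `‖g' - g‖ ≤ |j' - j| ‖z‖ + e`);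
same for the row through `x2` (`a = N`).  And `‖g (P 0 (2RN)) - g (P N (2RN))‖` is small.  So `‖g x1 - g x2‖` is arbitrarily small. -/
theorem slice (g : X → W) (j : X → ℝ) (v : X) (L : ℝ) (hv : v ≠ 0)
    (hg : ∀ x y : X, ‖x‖ = 1 → ‖g x - g y‖ ≤ L * ‖x - y‖)
    (hj : ∀ x y : X, ‖x‖ = 1 → |j x - j y| ≤ L * ‖x - y‖)
    (hgs : ∀ c : ℝ, 0 < c → ∀ x : X, g (c • x) = g x)
    (hjs : ∀ c : ℝ, 0 < c → ∀ x : X, j (c • x) = j x)
    (mz : ∀ η : ℝ, 0 < η → ∃ t₀ : ℝ, 0 < t₀ ∧ ∀ t : ℝ, 0 < t → t < t₀ → ∀ x : X, ‖x‖ = 1 →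
      ∃ z : W, ‖z‖ ≤ 3 ∧ ∀ u : X, ‖u‖ ≤ 1 →
        ‖(g (x + t • u) - g x) - (j (x + t • u) - j x) • z‖ ≤ η * t)
    (mono : ∀ (x : X) (s s' : ℝ), s ≤ s' → j (x + s • v) ≤ j (x + s' • v))
    {x1 x2 : X} (hx : ∀ a s : ℝ, 0 ≤ a → a ≤ 1 → (1 - a) • x1 + a • x2 + s • v ≠ 0)
    (h1 : j x1 = 0) (h2 : j x2 = 0) : g x1 = g x2 := by
  have hv0 : 0 < ‖v‖ := norm_pos_iff.2 hv
  have hL : 0 ≤ L := by
    have h := hg (‖v‖⁻¹ • v) 0 (by rw [norm_smul, norm_inv, norm_norm, inv_mul_cancel₀ hv0.ne'])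
    rw [sub_zero, norm_smul, norm_inv, norm_norm, inv_mul_cancel₀ hv0.ne', mul_one] at h
    exact (norm_nonneg _).trans h
  obtain ⟨r, hr, hrr⟩ := K0_r0 hv hx
  set c := ‖v‖ + ‖x2 - x1‖ with hc
  have hc0 : 0 < c := by positivity
  -- first limit: `N → ∞`
  have b1 : ∀ (R : ℕ) (D : ℝ), 0 < D → D ≤ R * ‖v‖ - (‖x1‖ + ‖x2‖) → ∀ δ : ℝ, 0 < δ →
      ∀ η : ℝ, 0 < η → ‖g x1 - g x2‖ ≤ 3 * (L / D * ‖x2 - x1‖) + 2 * (3 * δ + R * (η * c)) +
        8 * R * (η * c * (L / r * c) / δ) := by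
    intro R D hD hRD δ hδ η hη
    obtain ⟨t₀, ht₀, hz⟩ := K0_mz hgs hjs mz hr hη
    set E := 6 * (L / r * c) + 4 * R * ((η * c) * (8 * (L / r * c) ^ 2 / δ ^ 2) +
      24 * (L / r * c) ^ 3 / δ ^ 2) with hE
    have hlim : Tendsto (fun N : ℕ => 3 * (L / D * ‖x2 - x1‖) + 2 * (3 * δ + R * (η * c)) +
        8 * R * (η * c * (L / r * c) / δ) + E / (N : ℝ)) atTop
        (𝓝 (3 * (L / D * ‖x2 - x1‖) + 2 * (3 * δ + R * (η * c)) +
        8 * R * (η * c * (L / r * c) / δ) + 0)) :=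
      tendsto_const_nhds.add (tendsto_const_div_atTop_nhds_zero_nat E)
    rw [add_zero] at hlim
    refine ge_of_tendsto hlim ?_
    have hsmall : ∀ᶠ N : ℕ in atTop, c / (N : ℝ) < t₀ :=
      (tendsto_const_div_atTop_nhds_zero_nat c).eventually (gt_mem_nhds ht₀)
    filter_upwards [hsmall, eventually_gt_atTop 0] with N h3 hN
    have hN' : (0 : ℝ) < N := by exact_mod_cast hN
    have h4 := K0_ineq hL hg hj hgs hjs mono hr hδ hη hrr h1 h2 (R := R) hN hD hRD hc rfl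
      (hz (c / N) (by positivity) h3)
    refine h4.trans (le_of_eq ?_)
    rw [hE]
    push_cast
    field_simp
    ring
  -- second limit: `η → 0`
  have b2 : ∀ (R : ℕ) (D : ℝ), 0 < D → D ≤ R * ‖v‖ - (‖x1‖ + ‖x2‖) → ∀ δ : ℝ, 0 < δ →
      ‖g x1 - g x2‖ ≤ 3 * (L / D * ‖x2 - x1‖) + 6 * δ := by
    intro R D hD hRD δ hδ
    have hlim : Tendsto (fun η : ℝ => 3 * (L / D * ‖x2 - x1‖) + 2 * (3 * δ + R * (η * c)) +
        8 * R * (η * c * (L / r * c) / δ)) (𝓝[>] 0)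
        (𝓝 (3 * (L / D * ‖x2 - x1‖) + 2 * (3 * δ + R * (0 * c)) +
        8 * R * (0 * c * (L / r * c) / δ))) := by
      refine tendsto_nhdsWithin_of_tendsto_nhds ?_
      refine Continuous.tendsto' ?_ _ _ rfl
      fun_prop
    have h3 := ge_of_tendsto hlim (by
      filter_upwards [self_mem_nhdsWithin] with η hη
      exact b1 R D hD hRD δ hδ η hη)
    refine h3.trans (le_of_eq ?_)
    ring
  have b3 : ∀ (R : ℕ) (D : ℝ), 0 < D → D ≤ R * ‖v‖ - (‖x1‖ + ‖x2‖) →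
      ‖g x1 - g x2‖ ≤ 3 * (L / D * ‖x2 - x1‖) := by
    intro R D hD hRD
    refine le_of_forall_pos_le_add fun ε hε => ?_
    have := b2 R D hD hRD (ε / 6) (by positivity)
    linarith
  have b4 : ∀ D : ℝ, 0 < D → ‖g x1 - g x2‖ ≤ 3 * (L / D * ‖x2 - x1‖) := by
    intro D hD
    obtain ⟨R, hR⟩ := exists_nat_ge ((D + (‖x1‖ + ‖x2‖)) / ‖v‖)
    refine b3 R D hD ?_
    rw [div_le_iff₀ hv0] at hR
    linarith
  have b5 : ‖g x1 - g x2‖ ≤ 0 := by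
    have hlim : Tendsto (fun D : ℝ => 3 * (L / D * ‖x2 - x1‖)) atTop
        (𝓝 (3 * (0 * ‖x2 - x1‖))) :=
      ((tendsto_const_nhds.div_atTop tendsto_id).mul_const _).const_mul 3
    rw [zero_mul, mul_zero] at hlim
    exact ge_of_tendsto hlim (by
      filter_upwards [eventually_gt_atTop 0] with D hD
      exact b4 D hD)
  exact sub_eq_zero.1 (norm_le_zero_iff.1 b5)

end P084GII
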