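import Vale.Agent.Lib.P084G.II.Diff
import Vale.Agent.Lib.P084G.II.UltraD

/-!
Part II: `T (-x) = - T x` for uniformly smooth Banach spaces.

`R x := S (-T (-x))` is a homogeneous isometry of `X` onto itself with `‖x + R x‖ = 2 ‖x‖`
(`‖T x + T (R x)‖ = ‖T x - T (-x)‖ = ‖x - (-x)‖`, then `HI.add_eq_two` for `S`).  If `R ≠ id` pass to the ultrapower,
where the displacement `‖x - R x‖`, `‖x‖ = 1`, attains its maximum, and apply `odd_att`.
-/

open Filter Topology

namespace P084GII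

open P084G

variable {X Y : Type*} [NormedAddCommGroup X] [NormedSpace ℝ X] [NormedAddCommGroup Y]
  [NormedSpace ℝ Y] {J : X → X →L[ℝ] ℝ} {K : Y → Y →L[ℝ] ℝ} {T : X → Y} {S : Y → X} {C C' : ℝ}

private theorem odd_fact {R R' : X → X} (h : HI R R') (y : X)
    {d : ℝ} (hmax : ∀ x : X, ‖x‖ = 1 → ‖R x - x‖ ≤ d) : ‖R y - y‖ ≤ d * ‖y‖ := by
  rcases eq_or_ne y 0 with rfl | hy
  · rw [h.zero, sub_self, norm_zero, mul_zero]
  · have hy0 : 0 < ‖y‖ := norm_pos_iff.2 hy
    have h1 := hmax (‖y‖⁻¹ • y) (by rw [norm_smul, norm_inv, norm_norm, inv_mul_cancel₀ hy0.ne'])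
    rw [h.smul _ (inv_nonneg.2 hy0.le), ← smul_sub, norm_smul, norm_inv, norm_norm] at h1
    rwa [inv_mul_le_iff₀ hy0, mul_comm] at h1

/-- **Attained displacement.**  `x k = R^[k] x0`, `w k = x (k+1) - x k`, all `‖w k‖ = d` (`HI.dist`), the maximal
displacement.  `ψ = J (x 0) = J (x k)` for all `k` (`DualU.eq_of_add`), so `ψ (w k) = 0`.  Let `k ≥ 1` and
`ψ u = 0`, `B = fderiv ℝ R (x k)`.
* (max) `s ↦ ‖R (x k + s u) - (x k + s u)‖ ≤ d ‖x k + s u‖`, equality at `s = 0`, both sides differentiable at `0`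
  (`d > 0`): `J (w k) (B u - u) = d * J (x k) u = 0`;
* (isometry) `fd_D1`-type: `‖R (x k + s u) - ‖x k + s u‖ • R (x (k-1))‖ = ‖x k + s u - ‖x k + s u‖ • x (k-1)‖` (`HI.rel`):
  `J (w k) (B u) = J (w (k-1)) u` (this is `fd_D1` with `K = J`, `p = x k`, `y = x (k-1)`, `v = u`).
Hence `J (w (k-1)) = J (w k)` on `ker ψ`, so `J (w k) = J (w 0) + c k • ψ`, so `J (w 0) (w k) = J (w k) (w k) = d`, so
`J (w 0) (x n - x 0) = n d ≤ 2` for all `n`: `d = 0`. -/
theorem odd_att [CompleteSpace X] (hJ : DualU J) {R R' : X → X} (h : HI R R')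
    (h2 : ∀ x, ‖x‖ = 1 → ‖x + R x‖ = 2) {x0 : X} (hx0 : ‖x0‖ = 1)
    (hmax : ∀ x, ‖x‖ = 1 → ‖R x - x‖ ≤ ‖R x0 - x0‖) : R x0 = x0 := by
  set x : ℕ → X := fun k => R^[k] x0 with hx
  have hxz : x 0 = x0 := rfl
  have hxs : ∀ k, x (k + 1) = R (x k) := fun k => Function.iterate_succ_apply' R k x0
  have hxn : ∀ k, ‖x k‖ = 1 := by
    intro k
    induction k with
    | zero => exact hx0
    | succ k ih => rw [hxs, h.norm, ih]
  obtain ⟨d, hd⟩ : ∃ d : ℝ, d = ‖R x0 - x0‖ := ⟨_, rfl⟩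
  have hw : ∀ k, ‖x (k + 1) - x k‖ = d := by
    intro k
    induction k with
    | zero => rw [hxs, hxz, hd]
    | succ k ih =>
      rw [hxs (k + 1)]
      conv_lhs => rw [hxs k]
      rw [h.dist _ _ (by rw [h.norm]), ← hxs, ih]
  by_contra hne
  have hdpos : 0 < d := by
    rw [hd]
    exact norm_pos_iff.2 (sub_ne_zero.2 hne)
  have hwne : ∀ k, x (k + 1) - x k ≠ 0 := fun k h0 => by
    have := hw k
    rw [h0, norm_zero] at this
    linarith
  have hxne : ∀ k, x k ≠ 0 := fun k h0 => by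
    have := hxn k
    rw [h0, norm_zero] at this
    norm_num at this
  have hJx : ∀ k, J (x k) = J x0 := by
    intro k
    induction k with
    | zero => rfl
    | succ k ih =>
      rw [← ih]
      symm
      refine hJ.eq_of_add (hxn k) (hxn (k + 1)) ?_
      rw [hxs]
      exact h2 _ (hxn k)
  have hψx : ∀ k, J x0 (x k) = 1 := fun k => by
    rw [← hJx k, hJ.self, hxn]
  have hψw : ∀ k, J x0 (x (k + 1) - x k) = 0 := fun k => by
    rw [map_sub, hψx, hψx, sub_self]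
  have hstep : ∀ k, ∀ u : X, J x0 u = 0 →
      J (x (k + 1 + 1) - x (k + 1)) u = J (x (k + 1) - x k) u := by
    intro k u hu
    have hR := hasFD hJ hJ h (hxne (k + 1))
    obtain ⟨B, hB⟩ : ∃ B : X →L[ℝ] X, B = fderiv ℝ R (x (k + 1)) := ⟨_, rfl⟩
    rw [← hB] at hR
    -- maximality
    have hF1 : HasFDerivAt (fun y : X => ‖R y - y‖)
        ((J (x (k + 1 + 1) - x (k + 1))).comp (B - ContinuousLinearMap.id ℝ X)) (x (k + 1)) := by
      have h3 : HasFDerivAt (fun y : X => ‖y‖) (J (x (k + 1 + 1) - x (k + 1)))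
          (R (x (k + 1)) - x (k + 1)) := by
        rw [← hxs]
        exact hJ.hasFDerivAt (hwne (k + 1))
      have h4 : HasFDerivAt (fun y : X => R y - y) (B - ContinuousLinearMap.id ℝ X) (x (k + 1)) :=
        hR.sub (hasFDerivAt_id (x (k + 1)))
      exact HasFDerivAt.comp (g := fun y : X => ‖y‖) (f := fun y : X => R y - y) (x (k + 1)) h3 h4
    have hF2 : HasFDerivAt (fun y : X => d * ‖y‖) (d • J (x (k + 1))) (x (k + 1)) :=
      (hJ.hasFDerivAt (hxne (k + 1))).const_mul d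
    have hF := hF1.sub hF2
    have hloc : IsLocalMax (fun y : X => ‖R y - y‖ - d * ‖y‖) (x (k + 1)) := by
      refine Filter.Eventually.of_forall fun y => ?_
      have h4 := odd_fact h y (d := d) (by rw [hd]; exact hmax)
      have h5 : ‖R (x (k + 1)) - x (k + 1)‖ - d * ‖x (k + 1)‖ = 0 := by
        rw [← hxs, hw, hxn, mul_one, sub_self]
      change ‖R y - y‖ - d * ‖y‖ ≤ ‖R (x (k + 1)) - x (k + 1)‖ - d * ‖x (k + 1)‖
      rw [h5]
      linarith
    have hz := hloc.hasFDerivAt_eq_zero hF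
    have hz2 := congrArg (fun L : X →L[ℝ] ℝ => L u) hz
    have e1 : J (x (k + 1 + 1) - x (k + 1)) (B u) = J (x (k + 1 + 1) - x (k + 1)) u := by
      have e2 : J (x (k + 1 + 1) - x (k + 1)) (B u - u) - d * J (x (k + 1)) u = 0 := hz2
      rw [hJx, hu, mul_zero, sub_zero, map_sub] at e2
      linarith
    -- isometry
    have hpy : x (k + 1) ≠ x k := sub_ne_zero.1 (hwne k)
    have e3 := fd_D1 hJ hJ h (hxn (k + 1)) (hxn k) hpy u
    rw [← hB, hJx, hu, zero_mul, add_zero, ← hxs, ← hxs] at e3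
    rw [← e1, e3]
  have hker : ∀ k, ∀ u : X, J x0 u = 0 → J (x (k + 1) - x k) u = J (x 1 - x 0) u := by
    intro k
    induction k with
    | zero => intro u _; rfl
    | succ k ih =>
      intro u hu
      rw [hstep k u hu, ih u hu]
  have htel : ∀ n : ℕ, J (x 1 - x 0) (x n - x 0) = n * d := by
    intro n
    induction n with
    | zero => rw [sub_self, map_zero, Nat.cast_zero, zero_mul]
    | succ n ih =>
      have e1 : x (n + 1) - x 0 = (x (n + 1) - x n) + (x n - x 0) := by abel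
      rw [e1, map_add, ih, ← hker n _ (hψw n), hJ.self, hw]
      push_cast
      ring
  have hbd : ∀ n : ℕ, (n : ℝ) * d ≤ 2 := by
    intro n
    rw [← htel n]
    refine (hJ.le _ _).trans ((norm_sub_le _ _).trans ?_)
    rw [hxn, hxn]
    norm_num
  obtain ⟨n, hn⟩ := exists_nat_gt (2 / d)
  rw [div_lt_iff₀ hdpos] at hn
  linarith [hbd n]

theorem odd_id [CompleteSpace X] (hJ : DualU J) {R R' : X → X} (h : HI R R')
    (h2 : ∀ x, ‖x‖ = 1 → ‖x + R x‖ = 2) (x : X) : R x = x := by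
  -- homogeneous form of `h2`
  have h2' : ∀ y : X, ‖y + R y‖ = 2 * ‖y‖ := by
    intro y
    rcases eq_or_ne y 0 with rfl | hy
    · rw [h.zero, add_zero, norm_zero, mul_zero]
    · have hy0 : 0 < ‖y‖ := norm_pos_iff.2 hy
      have h1 := h2 (‖y‖⁻¹ • y)
        (by rw [norm_smul, norm_inv, norm_norm, inv_mul_cancel₀ hy0.ne'])
      rw [h.smul _ (inv_nonneg.2 hy0.le), ← smul_add, norm_smul, norm_inv, norm_norm,
        inv_mul_eq_iff_eq_mul₀ hy0.ne'] at h1
      rw [h1, mul_comm]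
  rcases eq_or_ne x 0 with rfl | hx
  · exact h.zero
  -- the maximal displacement
  set D : Set ℝ := {r | ∃ y : X, ‖y‖ = 1 ∧ ‖R y - y‖ = r} with hD
  have hDne : D.Nonempty :=
    ⟨_, ‖x‖⁻¹ • x, by
      rw [norm_smul, norm_inv, norm_norm, inv_mul_cancel₀ (norm_pos_iff.2 hx).ne'], rfl⟩
  have hDbd : BddAbove D := by
    refine ⟨2, ?_⟩
    rintro r ⟨y, hy, rfl⟩
    refine (norm_sub_le _ _).trans ?_
    rw [h.norm, hy]
    norm_num
  obtain ⟨d, hd⟩ : ∃ d : ℝ, d = sSup D := ⟨_, rfl⟩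
  have hle : ∀ y : X, ‖y‖ = 1 → ‖R y - y‖ ≤ d := fun y hy => by
    rw [hd]
    exact le_csSup hDbd ⟨y, hy, rfl⟩
  have hle' : ∀ y : X, ‖R y - y‖ ≤ d * ‖y‖ := fun y => odd_fact h y hle
  have hseq : ∀ n : ℕ, ∃ y : X, ‖y‖ = 1 ∧ d - 1 / ((n : ℝ) + 1) < ‖R y - y‖ := by
    intro n
    have hlt : d - 1 / ((n : ℝ) + 1) < sSup D := by
      rw [← hd]
      have : (0 : ℝ) < 1 / ((n : ℝ) + 1) := by positivity
      linarith
    obtain ⟨r, ⟨y, hy, rfl⟩, hr⟩ := exists_lt_of_lt_csSup hDne hlt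
    exact ⟨y, hy, hr⟩
  choose y hy hyd using hseq
  have hby : Bd y := ⟨1, fun n => (hy n).le⟩
  have hbR : ∀ z : ℕ → X, Bd z → Bd (fun n => R (z n)) := by
    rintro z ⟨C, hC⟩
    exact ⟨C, fun n => by rw [h.norm]; exact hC n⟩
  obtain ⟨RU, RU', hRU, hRUq, -⟩ := exists_HI_XU h
  obtain ⟨JU, hJU, -⟩ := exists_dual_XU hJ
  have hξ1 : ‖uq y‖ = 1 := by
    refine tendsto_nhds_unique (norm_uq hby) (tendsto_const_nhds.congr fun n => ?_)
    exact (hy n).symm
  have hdis : ∀ z : ℕ → X, Bd z →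
      Tendsto (fun n => ‖R (z n) - z n‖) (UU : Filter ℕ) (𝓝 ‖RU (uq z) - uq z‖) := by
    intro z hz
    rw [hRUq z hz, ← uq_sub (hbR z hz) hz]
    exact norm_uq ((hbR z hz).sub hz)
  have hξd : ‖RU (uq y) - uq y‖ = d := by
    refine tendsto_nhds_unique (hdis y hby) ?_
    have hl : Tendsto (fun n : ℕ => d - 1 / ((n : ℝ) + 1)) (UU : Filter ℕ) (𝓝 d) := by
      have h3 : Tendsto (fun n : ℕ => d - 1 / ((n : ℝ) + 1)) atTop (𝓝 (d - 0)) :=
        tendsto_const_nhds.sub tendsto_one_div_add_atTop_nhds_zero_nat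
      rw [sub_zero] at h3
      exact h3.mono_left UU_le_atTop
    exact tendsto_of_tendsto_of_tendsto_of_le_of_le hl tendsto_const_nhds (fun n => (hyd n).le)
      (fun n => hle _ (hy n))
  have h2U : ∀ ξ : XU X, ‖ξ‖ = 1 → ‖ξ + RU ξ‖ = 2 := by
    intro ξ hξ
    obtain ⟨z, hz, rfl⟩ := exists_rep ξ
    rw [hRUq z hz, ← uq_add hz (hbR z hz)]
    have h3 := norm_uq (hz.add (hbR z hz))
    have h4 : Tendsto (fun n => 2 * ‖z n‖) (UU : Filter ℕ) (𝓝 (2 * 1)) := by
      have := (norm_uq hz).const_mul 2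
      rwa [hξ] at this
    rw [mul_one] at h4
    refine tendsto_nhds_unique h3 (h4.congr fun n => ?_)
    exact (h2' (z n)).symm
  have hmaxU : ∀ ξ : XU X, ‖ξ‖ = 1 → ‖RU ξ - ξ‖ ≤ ‖RU (uq y) - uq y‖ := by
    intro ξ hξ
    obtain ⟨z, hz, rfl⟩ := exists_rep ξ
    rw [hξd]
    have h3 : Tendsto (fun n => d * ‖z n‖) (UU : Filter ℕ) (𝓝 (d * 1)) := by
      have := (norm_uq hz).const_mul d
      rwa [hξ] at this
    rw [mul_one] at h3
    exact le_of_tendsto_of_tendsto' (hdis z hz) h3 fun n => hle' (z n)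
  have hfix := odd_att hJU hRU h2U hξ1 hmaxU
  have hd0 : d = 0 := by
    rw [← hξd, hfix, sub_self, norm_zero]
  have h5 := hle' x
  rw [hd0, zero_mul] at h5
  exact sub_eq_zero.1 (norm_le_zero_iff.1 h5)

theorem odd_main [CompleteSpace X] [CompleteSpace Y] (hJ : DualU J) (h : HI T S) (x : X) :
    T (-x) = - T x := by
  have hR : HI (fun z : X => S (-T (-z))) (fun z : X => -S (-T z)) :=
    { smul := fun c hc z => by
        rw [← smul_neg, h.smul c hc, ← smul_neg, h.symm.smul c hc]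
      norm := fun z => by
        rw [h.symm.norm, norm_neg, h.norm, norm_neg]
      dist := fun z z' hz => by
        rw [h.symm.dist _ _ (by rw [norm_neg, norm_neg, h.norm, h.norm, norm_neg, norm_neg, hz]),
          neg_sub_neg, norm_sub_rev, h.dist _ _ (by rw [norm_neg, norm_neg, hz]), neg_sub_neg,
          norm_sub_rev]
      ST := fun z => by
        rw [h.TS, neg_neg, h.ST, neg_neg]
      TS := fun z => by
        rw [neg_neg, h.TS, neg_neg, h.ST] }
  have h2 : ∀ z : X, ‖z‖ = 1 → ‖z + S (-T (-z))‖ = 2 := by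
    intro z hz
    have h1 : ‖T z + -T (-z)‖ = 2 := by
      rw [← sub_eq_add_neg, h.dist z (-z) (by rw [norm_neg]), sub_neg_eq_add, ← two_smul ℝ z,
        norm_smul, hz]
      norm_num
    have h3 := h.symm.add_eq_two (x := T z) (y := -T (-z)) (by rw [h.norm, hz])
      (by rw [norm_neg, h.norm, norm_neg, hz]) h1
    rwa [h.ST] at h3
  have h4 := odd_id hJ hR h2 x
  have h5 : T (S (-T (-x))) = T x := congrArg T h4
  rw [h.TS] at h5
  rw [← h5, neg_neg]

end P084GII
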