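import Vale.Agent.Lib.P084G.II.LOD
import Vale.Agent.Lib.P084G.II.K0
import Vale.Agent.Lib.P084G.II.Odd

/-! Part II, case C: conclusion. -/

open Filter Topology

namespace P084GII

open P084G

variable {X Y : Type*} [NormedAddCommGroup X] [NormedSpace ℝ X] [NormedAddCommGroup Y]
  [NormedSpace ℝ Y] {J : X → X →L[ℝ] ℝ} {K : Y → Y →L[ℝ] ℝ} {T : X → Y} {S : Y → X} {C C' : ℝ}

/-- monotonicity: `J x' (x' - x) ≥ ‖x'‖ - ‖x‖ ≥ J x (x' - x)` -/
theorem J_mono (hJ : Dual J) (x v : X) {s s' : ℝ} (hs : s ≤ s') :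
    J (x + s • v) v ≤ J (x + s' • v) v := by
  rcases hs.eq_or_lt with h | h
  · rw [h]
  · have h1 := hJ.lower (x + s • v) ((s' - s) • v)
    have h2 := hJ.lower (x + s' • v) ((s - s') • v)
    have e1 : x + s • v + (s' - s) • v = x + s' • v := by module
    have e2 : x + s' • v + (s - s') • v = x + s • v := by module
    rw [e1, map_smul, smul_eq_mul] at h1
    rw [e2, map_smul, smul_eq_mul] at h2
    have h3 : (s' - s) * J (x + s • v) v ≤ (s' - s) * J (x + s' • v) v := by linarith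
    exact le_of_mul_le_mul_left h3 (sub_pos.2 h)

/-- nearest point of a finite-dimensional subspace -/
theorem FinC_near (hJ : DualU J) (F : Submodule ℝ X) [FiniteDimensional ℝ F] {x : X}
    (hx : x ∉ F) : ∃ z ∈ F, x + z ≠ 0 ∧ ∀ w ∈ F, J (x + z) w = 0 := by
  have hprop : ProperSpace F := FiniteDimensional.proper_real F
  have hcont : Continuous fun z : F => ‖x + (z : X)‖ := by fun_prop
  have hlim : Tendsto (fun z : F => ‖x + (z : X)‖) (cocompact F) atTop := by
    have h1 : Tendsto (fun z : F => ‖z‖ + -‖x‖) (cocompact F) atTop :=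
      tendsto_atTop_add_const_right _ _ (tendsto_norm_cocompact_atTop)
    refine tendsto_atTop_mono (fun z => ?_) h1
    have h2 := norm_sub_norm_le (z : X) (-x)
    rw [sub_neg_eq_add, norm_neg, add_comm (z : X) x] at h2
    change ‖(z : X)‖ + -‖x‖ ≤ _
    linarith
  obtain ⟨z, hz⟩ := hcont.exists_forall_le hlim
  have hne : x + (z : X) ≠ 0 := by
    intro h
    apply hx
    rw [eq_neg_of_add_eq_zero_left h]
    exact F.neg_mem z.2
  refine ⟨z, z.2, hne, fun w hw => ?_⟩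
  have h1 : HasDerivAt (fun s : ℝ => (x + (z : X)) + s • w) w 0 := by
    have h2 := ((hasDerivAt_id (0 : ℝ)).smul_const w).const_add (x + (z : X))
    rw [one_smul] at h2
    exact h2
  have e0 : (x + (z : X)) + (0 : ℝ) • w = x + (z : X) := by rw [zero_smul, add_zero]
  have h3 : HasFDerivAt (fun y : X => ‖y‖) (J (x + (z : X))) ((x + (z : X)) + (0 : ℝ) • w) := by
    rw [e0]
    exact hJ.hasFDerivAt hne
  have h4 : HasDerivAt (fun s : ℝ => ‖(x + (z : X)) + s • w‖) (J (x + (z : X)) w) 0 :=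
    HasFDerivAt.comp_hasDerivAt (0 : ℝ) h3 h1
  have hmin : IsLocalMin (fun s : ℝ => ‖(x + (z : X)) + s • w‖) 0 := by
    refine Filter.Eventually.of_forall fun s => ?_
    change ‖(x + (z : X)) + (0 : ℝ) • w‖ ≤ ‖(x + (z : X)) + s • w‖
    rw [e0]
    have h5 := hz (z + s • ⟨w, hw⟩)
    have e1 : x + ((z + s • (⟨w, hw⟩ : F) : F) : X) = (x + (z : X)) + s • w := by
      rw [Submodule.coe_add, Submodule.coe_smul, add_assoc]
    rw [e1] at h5
    exact h5
  exact hmin.hasDerivAt_eq_zero h4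

/-- intermediate value theorem on `s ↦ J (x + s v) v` (`→ ± ‖v‖` as `s → ± ∞`), or a minimum point of `‖x + s v‖` -/
theorem exists_zero (hJ : DualU J) {x v : X} (hv : v ≠ 0) (hx : ∀ s : ℝ, x ≠ s • v) :
    ∃ s : ℝ, J (x + s • v) v = 0 := by
  have _ := hv
  obtain ⟨z, hz, -, h⟩ := FinC_near hJ (Submodule.span ℝ {v}) (x := x) (by
    intro h
    obtain ⟨s, hs⟩ := Submodule.mem_span_singleton.1 h
    exact hx s hs.symm)
  obtain ⟨s, rfl⟩ := Submodule.mem_span_singleton.1 hz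
  exact ⟨s, h v (Submodule.mem_span_singleton_self v)⟩

/-- nearest point of the finite-dimensional subspace `span {v1, v2}` -/
theorem exists_common_zero (hJ : DualU J) (hdim : ∀ x1 v : X, ∃ x, ∀ a b : ℝ, x ≠ a • x1 + b • v)
    (v1 v2 : X) : ∃ p : X, p ≠ 0 ∧ J p v1 = 0 ∧ J p v2 = 0 := by
  obtain ⟨x, hx⟩ := hdim v1 v2
  have hfd : FiniteDimensional ℝ (Submodule.span ℝ ({v1, v2} : Set X)) :=
    FiniteDimensional.span_of_finite ℝ (Set.toFinite _)
  obtain ⟨z, hz, hne, h⟩ := FinC_near hJ (Submodule.span ℝ {v1, v2}) (x := x) (by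
    intro h
    obtain ⟨a, b, hab⟩ := Submodule.mem_span_pair.1 h
    exact hx a b hab.symm)
  exact ⟨x + z, hne, h v1 (Submodule.subset_span (by simp)), h v2 (Submodule.subset_span (by simp))⟩

theorem FinC_ne (hJ : Dual J) {x v : X} (hx : x ≠ 0) (h : J x v = 0) (s : ℝ) : x ≠ s • v := by
  intro h1
  have h2 := hJ.self x
  have h3 : J x x = 0 := by
    conv_lhs => rw [h1]
    rw [map_smul, ← h1, h, smul_zero]
  rw [h3] at h2
  exact hx (norm_eq_zero.1 h2.symm)

theorem FinC_strip [CompleteSpace X] [CompleteSpace Y] (hJ : Dual2 J C) (hK : Dual2 K C')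
    (hT : HI T S) (hX : AQ X) (hY : AQ Y) (hodd : ∀ x, T (-x) = - T x)
    {v x1 x2 : X} (hv : v ≠ 0)
    (hj1 : J x1 v = 0) (hj2 : J x2 v = 0)
    (hx : ∀ a s : ℝ, 0 ≤ a → a ≤ 1 → (1 - a) • x1 + a • x2 + s • v ≠ 0) :
    fderiv ℝ T x1 v = fderiv ℝ T x2 v := by
  obtain ⟨L1, hL1, hlip⟩ := fd_lip hJ hK hT
  have hv0 : 0 < ‖v‖ := norm_pos_iff.2 hv
  refine slice (fun x => fderiv ℝ T x v) (fun x => J x v) v (max (L1 * ‖v‖) (C * ‖v‖)) hv
    ?_ ?_ ?_ ?_ ?_ (fun x s s' hs => J_mono hJ.toDual x v hs) hx hj1 hj2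
  · intro x y hx1
    have h1 : ‖(fderiv ℝ T x - fderiv ℝ T y) v‖ ≤ ‖fderiv ℝ T x - fderiv ℝ T y‖ * ‖v‖ :=
      ContinuousLinearMap.le_opNorm _ _
    have h2 := mul_le_mul_of_nonneg_right (hlip x y hx1) hv0.le
    have h3 : L1 * ‖v‖ * ‖x - y‖ ≤ max (L1 * ‖v‖) (C * ‖v‖) * ‖x - y‖ :=
      mul_le_mul_of_nonneg_right (le_max_left _ _) (norm_nonneg _)
    have e : (fderiv ℝ T x - fderiv ℝ T y) v = fderiv ℝ T x v - fderiv ℝ T y v := rfl
    rw [e] at h1
    nlinarith
  · intro x y hx1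
    have h1 : ‖(J x - J y) v‖ ≤ ‖J x - J y‖ * ‖v‖ := ContinuousLinearMap.le_opNorm _ _
    have h2 := mul_le_mul_of_nonneg_right (hJ.lip x y hx1) hv0.le
    have h3 : C * ‖v‖ * ‖x - y‖ ≤ max (L1 * ‖v‖) (C * ‖v‖) * ‖x - y‖ :=
      mul_le_mul_of_nonneg_right (le_max_right _ _) (norm_nonneg _)
    have e : (J x - J y) v = J x v - J y v := rfl
    rw [e, Real.norm_eq_abs] at h1
    nlinarith
  · intro c hc x
    rcases eq_or_ne x 0 with rfl | hx0
    · rw [smul_zero]
    · rw [fd_smul hJ.toU hK.toU hT hx0 hc]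
  · intro c hc x
    rw [hJ.smul c hc]
  · intro η hη
    obtain ⟨t₀, ht₀, h⟩ := mz hJ hK hT hX hY hodd (η := η / ‖v‖) (by positivity)
    refine ⟨t₀, ht₀, fun t ht htt x hx1 => ?_⟩
    obtain ⟨z, hz, hzz⟩ := h t ht htt x hx1
    refine ⟨z, hz, fun u hu => ?_⟩
    have hv1 : ‖‖v‖⁻¹ • v‖ ≤ 1 := by
      rw [norm_smul, norm_inv, norm_norm, inv_mul_cancel₀ hv0.ne']
    have h1 := hzz u (‖v‖⁻¹ • v) hu hv1
    have e : (fderiv ℝ T (x + t • u) (‖v‖⁻¹ • v) - fderiv ℝ T x (‖v‖⁻¹ • v)) -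
        (J (x + t • u) (‖v‖⁻¹ • v) - J x (‖v‖⁻¹ • v)) • z =
        ‖v‖⁻¹ • ((fderiv ℝ T (x + t • u) v - fderiv ℝ T x v) -
        (J (x + t • u) v - J x v) • z) := by
      rw [map_smul, map_smul, map_smul, map_smul, smul_eq_mul, smul_eq_mul, ← mul_sub, mul_smul,
        ← smul_sub, ← smul_sub]
    rw [e, norm_smul, norm_inv, norm_norm, inv_mul_le_iff₀ hv0] at h1
    change ‖(fderiv ℝ T (x + t • u) v - fderiv ℝ T x v) - (J (x + t • u) v - J x v) • z‖ ≤ η * t
    refine h1.trans (le_of_eq ?_)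
    field_simp

/-- `slice` with `g x = fderiv ℝ T x v`, `j x = J x v` (`mz` with `u` and this `v`, `‖v‖ = 1` wlog); if the strip between the lines through `x1`, `x2` meets
`0` go through a third point `x3 ∉ span {x1, v}` moved by `exists_zero`. -/
theorem fd_const [CompleteSpace X] [CompleteSpace Y] (hJ : Dual2 J C) (hK : Dual2 K C')
    (hT : HI T S) (hX : AQ X) (hY : AQ Y) (hodd : ∀ x, T (-x) = - T x)
    (hdim : ∀ x1 v : X, ∃ x, ∀ a b : ℝ, x ≠ a • x1 + b • v) {v x1 x2 : X} (h1 : x1 ≠ 0)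
    (h2 : x2 ≠ 0) (hj1 : J x1 v = 0) (hj2 : J x2 v = 0) :
    fderiv ℝ T x1 v = fderiv ℝ T x2 v := by
  rcases eq_or_ne v 0 with rfl | hv
  · rw [map_zero, map_zero]
  by_cases hstrip : ∀ a s : ℝ, 0 ≤ a → a ≤ 1 → (1 - a) • x1 + a • x2 + s • v ≠ 0
  · exact FinC_strip hJ hK hT hX hY hodd hv hj1 hj2 hstrip
  · push Not at hstrip
    obtain ⟨a, s, ha0, ha1, has⟩ := hstrip
    have hn1 := FinC_ne hJ.toDual h1 hj1
    have hn2 := FinC_ne hJ.toDual h2 hj2
    have ha : a ≠ 0 := by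
      rintro rfl
      apply hn1 (-s)
      have e : x1 = ((1 - (0 : ℝ)) • x1 + (0 : ℝ) • x2 + s • v) + (-s) • v := by module
      rw [has, zero_add] at e
      exact e
    obtain ⟨x3, hx3⟩ := hdim x1 v
    obtain ⟨r, hr⟩ := exists_zero hJ.toU hv (x := x3) (fun s' h => hx3 0 s' (by
      rw [zero_smul, zero_add]
      exact h))
    -- the moved point is not in the span of `x1`, `v`
    have hx3' : ∀ b c : ℝ, x3 + r • v ≠ b • x1 + c • v := by
      intro b c h
      apply hx3 b (c - r)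
      have e : x3 = (x3 + r • v) + (-r) • v := by module
      rw [h] at e
      rw [e]
      module
    -- nor in the span of `x2`, `v`
    have hx2 : x2 = (-((1 - a) / a)) • x1 + (-(s / a)) • v := by
      have e : a • x2 = (-(1 - a)) • x1 + (-s) • v := by
        have e1 : a • x2 = ((1 - a) • x1 + a • x2 + s • v) + ((-(1 - a)) • x1 + (-s) • v) := by
          module
        rw [has, zero_add] at e1
        exact e1
      have e2 : x2 = a⁻¹ • (a • x2) := by rw [smul_smul, inv_mul_cancel₀ ha, one_smul]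
      rw [e2, e, smul_add, smul_smul, smul_smul]
      congr 2
      · field_simp
      · field_simp
    have hx3'' : ∀ b c : ℝ, x3 + r • v ≠ b • x2 + c • v := by
      intro b c h
      apply hx3' (b * -((1 - a) / a)) (b * -(s / a) + c)
      rw [h]
      conv_lhs => rw [hx2]
      module
    have key : ∀ y : X, y ≠ 0 → J y v = 0 → (∀ b c : ℝ, x3 + r • v ≠ b • y + c • v) →
        fderiv ℝ T y v = fderiv ℝ T (x3 + r • v) v := by
      intro y hy hjy hsp
      refine FinC_strip hJ hK hT hX hY hodd hv hjy hr ?_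
      intro b c hb0 hb1 h
      by_cases hb : b = 0
      · subst hb
        apply FinC_ne hJ.toDual hy hjy (-c)
        have e : y = ((1 - (0 : ℝ)) • y + (0 : ℝ) • (x3 + r • v) + c • v) + (-c) • v := by module
        rw [h, zero_add] at e
        exact e
      · apply hsp (-((1 - b) / b)) (-(c / b))
        have e : b • (x3 + r • v) = (-(1 - b)) • y + (-c) • v := by
          have e1 : b • (x3 + r • v) = ((1 - b) • y + b • (x3 + r • v) + c • v) +
              ((-(1 - b)) • y + (-c) • v) := by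
            module
          rw [h, zero_add] at e1
          exact e1
        have e2 : x3 + r • v = b⁻¹ • (b • (x3 + r • v)) := by
          rw [smul_smul, inv_mul_cancel₀ hb, one_smul]
        rw [e2, e, smul_add, smul_smul, smul_smul]
        congr 2
        · field_simp
        · field_simp
    rw [key x1 h1 hj1 hx3', key x2 h2 hj2 hx3'']

/-- `L v = fderiv ℝ T p v` for any `p ≠ 0` with `J p v = 0` (`fd_const`, `exists_common_zero`): linear, `‖L v‖ = ‖v‖` (`fd_iso`). -/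
theorem exists_L [CompleteSpace X] [CompleteSpace Y] (hJ : Dual2 J C) (hK : Dual2 K C')
    (hT : HI T S) (hX : AQ X) (hY : AQ Y) (hodd : ∀ x, T (-x) = - T x)
    (hdim : ∀ x1 v : X, ∃ x, ∀ a b : ℝ, x ≠ a • x1 + b • v) :
    ∃ L : X →ₗᵢ[ℝ] Y, ∀ p v : X, p ≠ 0 → J p v = 0 → fderiv ℝ T p v = L v := by
  have hex : ∀ v : X, ∃ p : X, p ≠ 0 ∧ J p v = 0 := by
    intro v
    obtain ⟨p, hp, h, -⟩ := exists_common_zero hJ.toU hdim v v
    exact ⟨p, hp, h⟩
  choose P hP0 hP using hex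
  have key : ∀ p v : X, p ≠ 0 → J p v = 0 → fderiv ℝ T p v = fderiv ℝ T (P v) v :=
    fun p v hp h => fd_const hJ hK hT hX hY hodd hdim hp (hP0 v) h (hP v)
  refine ⟨{ toFun := fun v => fderiv ℝ T (P v) v
            map_add' := fun v1 v2 => ?_
            map_smul' := fun c v => ?_
            norm_map' := fun v => ?_ }, key⟩
  · obtain ⟨p, hp, h1, h2⟩ := exists_common_zero hJ.toU hdim v1 v2
    rw [← key p v1 hp h1, ← key p v2 hp h2, ← key p (v1 + v2) hp (by rw [map_add, h1, h2, add_zero]),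
      map_add]
  · rw [← key (P v) (c • v) (hP0 v) (by rw [map_smul, hP, smul_zero]), map_smul]
    rfl
  · change ‖fderiv ℝ T (P v) v‖ = ‖v‖
    have hp0 : 0 < ‖P v‖ := norm_pos_iff.2 (hP0 v)
    rw [← fd_smul hJ.toU hK.toU hT (hP0 v) (inv_pos.2 hp0)]
    refine fd_iso hJ.toU hK.toU hT ?_ ?_
    · rw [norm_smul, norm_inv, norm_norm, inv_mul_cancel₀ hp0.ne']
    · rw [hJ.smul _ (inv_pos.2 hp0), hP]

/-- the derivative of `T - L` -/
theorem FinC_deriv [CompleteSpace X] [CompleteSpace Y] (hJ : Dual2 J C) (hK : Dual2 K C')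
    (hT : HI T S) (L : X →ₗᵢ[ℝ] Y)
    (hL : ∀ p v : X, p ≠ 0 → J p v = 0 → fderiv ℝ T p v = L v) {x : X} (hx : x ≠ 0) (u : X) :
    fderiv ℝ T x u - L u = (J x u / ‖x‖) • (T x - L x) := by
  have hx0 : ‖x‖ ≠ 0 := norm_ne_zero_iff.2 hx
  set c : ℝ := J x u / ‖x‖ with hc
  have h1 : J x (u - c • x) = 0 := by
    rw [map_sub, map_smul, hJ.self, smul_eq_mul, hc, div_mul_cancel₀ _ hx0, sub_self]
  have h2 := hL x (u - c • x) hx h1
  rw [map_sub, map_smul, fd_self hJ.toU hK.toU hT hx] at h2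
  have h3 : L (u - c • x) = L u - c • L x := by
    rw [map_sub, map_smul]
  rw [h3] at h2
  have h4 : fderiv ℝ T x u = (L u - c • L x) + c • T x := by
    rw [← h2]
    abel
  rw [h4, smul_sub]
  abel

theorem FinC_seg [CompleteSpace X] [CompleteSpace Y] (hJ : Dual2 J C) (hK : Dual2 K C')
    (hT : HI T S) (L : X →ₗᵢ[ℝ] Y)
    (hL : ∀ p v : X, p ≠ 0 → J p v = 0 → fderiv ℝ T p v = L v) {x y : X}
    (hxy : ∀ s : ℝ, x + s • (y - x) ≠ 0) :
    ‖x‖⁻¹ • (T x - L x) = ‖y‖⁻¹ • (T y - L y) := by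
  set f : ℝ → Y := fun s => ‖x + s • (y - x)‖⁻¹ • (T (x + s • (y - x)) - L (x + s • (y - x)))
    with hf
  have hd : ∀ s, HasDerivAt f 0 s := by
    intro s
    have hne := hxy s
    have hn0 : ‖x + s • (y - x)‖ ≠ 0 := norm_ne_zero_iff.2 hne
    have hc : HasDerivAt (fun s : ℝ => x + s • (y - x)) (y - x) s := by
      have h2 := ((hasDerivAt_id s).smul_const (y - x)).const_add x
      rw [one_smul] at h2
      exact h2
    have h1 : HasDerivAt (fun s : ℝ => ‖x + s • (y - x)‖) (J (x + s • (y - x)) (y - x)) s :=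
      HasFDerivAt.comp_hasDerivAt s (hJ.toU.hasFDerivAt hne) hc
    have h2 : HasDerivAt (fun s : ℝ => T (x + s • (y - x)))
        (fderiv ℝ T (x + s • (y - x)) (y - x)) s :=
      HasFDerivAt.comp_hasDerivAt s (hasFD hJ.toU hK.toU hT hne) hc
    have h3 : HasDerivAt (fun s : ℝ => L (x + s • (y - x))) (L (y - x)) s :=
      HasFDerivAt.comp_hasDerivAt s (L.toContinuousLinearMap.hasFDerivAt) hc
    have h4 := (h1.inv hn0).smul (h2.sub h3)
    have e : ‖x + s • (y - x)‖⁻¹ •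
        (fderiv ℝ T (x + s • (y - x)) (y - x) - L (y - x)) +
        (-J (x + s • (y - x)) (y - x) / ‖x + s • (y - x)‖ ^ 2) •
          (T (x + s • (y - x)) - L (x + s • (y - x))) = 0 := by
      rw [FinC_deriv hJ hK hT L hL hne, smul_smul, ← add_smul]
      have e2 : ‖x + s • (y - x)‖⁻¹ * (J (x + s • (y - x)) (y - x) / ‖x + s • (y - x)‖) +
          -J (x + s • (y - x)) (y - x) / ‖x + s • (y - x)‖ ^ 2 = 0 := by
        field_simp
        ring
      rw [e2, zero_smul]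
    have h5 : HasDerivAt f (‖x + s • (y - x)‖⁻¹ •
        (fderiv ℝ T (x + s • (y - x)) (y - x) - L (y - x)) +
        (-J (x + s • (y - x)) (y - x) / ‖x + s • (y - x)‖ ^ 2) •
          (T (x + s • (y - x)) - L (x + s • (y - x)))) s := h4
    rw [e] at h5
    exact h5
  have hconst := is_const_of_deriv_eq_zero (f := f) (fun s => (hd s).differentiableAt)
    (fun s => (hd s).deriv) 0 1
  have e0 : f 0 = ‖x‖⁻¹ • (T x - L x) := by
    simp only [hf]
    rw [zero_smul, add_zero]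
  have e1 : f 1 = ‖y‖⁻¹ • (T y - L y) := by
    simp only [hf]
    rw [one_smul, add_sub_cancel]
  rw [← e0, ← e1, hconst]

/-- `D x = ‖x‖⁻¹ • (T x - L x)` has derivative `0` at every `x ≠ 0` (`u = u0 + (J x u/‖x‖) x`, `J x u0 = 0`), so it is constant on the connected set
`{0}ᶜ` (rank `≥ 2`); it is odd, so `D = 0`. -/
theorem T_eq_L [CompleteSpace X] [CompleteSpace Y] (hJ : Dual2 J C) (hK : Dual2 K C')
    (hT : HI T S) (hodd : ∀ x, T (-x) = - T x)
    (hdim : ∀ x1 v : X, ∃ x, ∀ a b : ℝ, x ≠ a • x1 + b • v) (L : X →ₗᵢ[ℝ] Y)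
    (hL : ∀ p v : X, p ≠ 0 → J p v = 0 → fderiv ℝ T p v = L v) (x : X) : T x = L x := by
  rcases eq_or_ne x 0 with rfl | hx
  · rw [hT.zero, map_zero]
  obtain ⟨w, hw⟩ := hdim x 0
  have hw' : ∀ a : ℝ, w ≠ a • x := fun a h => hw a 0 (by rw [smul_zero, add_zero]; exact h)
  have hseg : ∀ c : ℝ, c ≠ 0 → ∀ s : ℝ, c • x + s • (w - c • x) ≠ 0 := by
    intro c hc s h
    by_cases hs : s = 0
    · rw [hs, zero_smul, add_zero] at h
      exact (smul_ne_zero hc hx) h
    · apply hw' (-(((1 - s) / s) * c))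
      have e1 : s • w = (-((1 - s) * c)) • x := by
        have e2 : s • w = (c • x + s • (w - c • x)) + (-((1 - s) * c)) • x := by module
        rw [h, zero_add] at e2
        exact e2
      have e2 : w = s⁻¹ • (s • w) := by rw [smul_smul, inv_mul_cancel₀ hs, one_smul]
      rw [e2, e1, smul_smul]
      congr 1
      field_simp
  have h1 := FinC_seg hJ hK hT L hL (x := x) (y := w) (by
    intro s
    have h := hseg 1 one_ne_zero s
    rwa [one_smul] at h)
  have h2 := FinC_seg hJ hK hT L hL (x := -x) (y := w) (by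
    intro s
    have h := hseg (-1) (by norm_num) s
    rwa [neg_smul, one_smul] at h)
  rw [← h1, hodd, map_neg, norm_neg] at h2
  have hn : ‖x‖⁻¹ ≠ 0 := inv_ne_zero (norm_ne_zero_iff.2 hx)
  have h3 : -T x - -L x = T x - L x := smul_right_injective Y hn h2
  have h4 : (2 : ℝ) • (T x - L x) = 0 := by
    rw [two_smul]
    nth_rewrite 1 [← h3]
    abel
  exact sub_eq_zero.1 ((smul_eq_zero.1 h4).resolve_left two_ne_zero)

/-- **Case C.** -/
theorem caseC [CompleteSpace X] [CompleteSpace Y] (hJ : Dual2 J C) (hK : Dual2 K C')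
    (hT : HI T S) (hX : AQ X) (hY : AQ Y)
    (hdim : ∀ x1 v : X, ∃ x, ∀ a b : ℝ, x ≠ a • x1 + b • v) :
    ∃ L : X ≃ₗᵢ[ℝ] Y, ∀ x, T x = L x := by
  have hodd := odd_main hJ.toU hT
  obtain ⟨L, hL⟩ := exists_L hJ hK hT hX hY hodd hdim
  have hTL := T_eq_L hJ hK hT hodd hdim L hL
  refine ⟨LinearIsometryEquiv.ofSurjective L fun y => ⟨S y, ?_⟩, hTL⟩
  rw [← hTL, hT.TS]

end P084GII
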