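import Vale.Agent.Lib.P084G.II.FinC
import Vale.Agent.Lib.P084G.II.CaseG
import Vale.Agent.Lib.P084G.II.CaseH3
import Vale.Agent.Lib.P084G.II.ARlin
import Vale.Agent.Lib.P084F.MainAll

/-! Tingley's problem: the final assembly. -/

open Filter Topology Metric

namespace P084GII

open P084G Vale.Agent.P084G

section

variable {X Y : Type*} [NormedAddCommGroup X] [NormedSpace ℝ X] [CompleteSpace X]
  [NormedAddCommGroup Y] [NormedSpace ℝ Y] [CompleteSpace Y]

omit [CompleteSpace X] in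
theorem usm_of_unifSmooth (hX : UnifSmooth X) : USm X := by
  intro ε hε
  obtain ⟨δ, hδ, H⟩ := hX ε hε
  refine ⟨δ, hδ, fun x h hx hh => ?_⟩
  rcases eq_or_ne h 0 with rfl | h0
  · simp [sd, two_mul]
  · have hn : 0 < ‖h‖ := norm_pos_iff.2 h0
    have h1 := H x (‖h‖⁻¹ • h) hx (by
      rw [norm_smul, norm_inv, norm_norm, inv_mul_cancel₀ hn.ne']) ‖h‖ hn hh
    rw [smul_smul, mul_inv_cancel₀ hn.ne', one_smul] at h1
    unfold sd
    rw [hx]
    linarith

omit [CompleteSpace X] [CompleteSpace Y] in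
/-- invert a linear extension -/
theorem invert {T : X → Y} {S : Y → X} (hT : HI T S) (h : ∃ L : Y ≃ₗᵢ[ℝ] X, ∀ y, S y = L y) :
    ∃ L : X ≃ₗᵢ[ℝ] Y, ∀ x, T x = L x := by
  obtain ⟨L, hL⟩ := h
  refine ⟨L.symm, fun x => ?_⟩
  have h1 := hL (T x)
  rw [hT.ST] at h1
  have h2 := L.symm_apply_apply (T x)
  rw [← h1] at h2
  exact h2.symm

omit [CompleteSpace X] in
/-- infinite-dimensional spaces have no two-dimensional spanning set -/
theorem hdim_of_inf (hX : ¬ FiniteDimensional ℝ X) :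
    ∀ x1 v : X, ∃ x, ∀ a b : ℝ, x ≠ a • x1 + b • v := by
  intro x1 v
  by_contra hcon
  push Not at hcon
  apply hX
  have htop : (⊤ : Submodule ℝ X) = Submodule.span ℝ {x1, v} := by
    symm
    rw [eq_top_iff]
    intro x _
    obtain ⟨a, b, hab⟩ := hcon x
    rw [Submodule.mem_span_pair]
    exact ⟨a, b, hab.symm⟩
  exact ⟨by rw [htop]; exact Submodule.fg_span (Set.toFinite _)⟩

/-- **Tingley's problem for uniformly smooth spaces of infinite dimension.** -/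
theorem main_us (hXfd : ¬ FiniteDimensional ℝ X) (hX : USm X) (hY : USm Y) {T : X → Y}
    {S : Y → X} (hT : HI T S) : ∃ L : X ≃ₗᵢ[ℝ] Y, ∀ x, T x = L x := by
  obtain ⟨J, hJ⟩ := exists_dualU hX
  obtain ⟨K, hK⟩ := exists_dualU hY
  by_cases hX2 : ∃ C : ℝ, US2 X C
  swap
  · exact ar_linear hJ hK hT (caseG hJ hK hT (fun C hC => hX2 ⟨C, hC⟩))
  by_cases hY2 : ∃ C : ℝ, US2 Y C
  swap
  · exact invert hT (ar_linear hK hJ hT.symm (caseG hK hJ hT.symm (fun C hC => hY2 ⟨C, hC⟩)))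
  obtain ⟨C, hC⟩ := hX2
  obtain ⟨C', hC'⟩ := hY2
  obtain ⟨J2, c, hJ2⟩ := exists_dual2 hC
  obtain ⟨K2, c', hK2⟩ := exists_dual2 hC'
  by_cases hXA : AQ X
  swap
  · exact ar_linear hJ2.toU hK2.toU hT (caseH hJ2 hK2 hT hXA)
  by_cases hYA : AQ Y
  swap
  · exact invert hT (ar_linear hK2.toU hJ2.toU hT.symm (caseH hK2 hJ2 hT.symm hYA))
  exact caseC hJ2 hK2 hT hXA hYA (hdim_of_inf hXfd)

/-- **Tingley's problem.** -/
theorem main_final (f : sphere (0 : X) 1 → sphere (0 : Y) 1) (hf : Isometry f)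
    (hs : Function.Surjective f) :
    ∃ L : X ≃ₗᵢ[ℝ] Y, ∀ x : sphere (0 : X) 1, L (x : X) = (f x : Y) := by
  by_cases hXfd : FiniteDimensional ℝ X
  · exact Vale.Agent.P084.main_all_finite f hf hs
  by_cases hX : UnifSmooth X
  swap
  · exact main_ns_sphere hX f hf hs
  obtain ⟨F, G, hFG, hFf⟩ := exists_siso f hf hs
  by_cases hY : UnifSmooth Y
  swap
  · obtain ⟨L, hL⟩ := main_ns hY hFG.symm
    refine ⟨L.symm, fun x => ?_⟩
    have hx : ‖(x : X)‖ = 1 := by simp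
    have h1 := hL (F x) (hFG.mapf _ hx)
    rw [hFG.gf _ hx] at h1
    have h2 := L.symm_apply_apply (F x)
    rw [h1] at h2
    rw [h2, hFf]
  obtain ⟨T, S, hT, hTF⟩ := exists_HI hFG
  obtain ⟨L, hL⟩ := main_us hXfd (usm_of_unifSmooth hX) (usm_of_unifSmooth hY) hT
  refine ⟨L, fun x => ?_⟩
  have hx : ‖(x : X)‖ = 1 := by simp
  rw [← hL, hTF _ hx, hFf]

end

end P084GII
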