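import Mathlib

/-! Part II, case C: a `C^{1,1}` step function, the triangle estimate, the line sum, and the discrete Stokes formula. -/

open Filter Topology

namespace P084GII

/-- `C^{1,1}` step function: `0` for `x ≤ 0`, `1` for `x ≥ 1` -/
noncomputable def hst (x : ℝ) : ℝ :=
  2 * (max x 0) ^ 2 - 4 * (max (x - 1 / 2) 0) ^ 2 + 2 * (max (x - 1) 0) ^ 2

/-- its derivative -/
noncomputable def hst' (x : ℝ) : ℝ :=
  4 * max x 0 - 8 * max (x - 1 / 2) 0 + 4 * max (x - 1) 0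

theorem hst_zero {x : ℝ} (hx : x ≤ 0) : hst x = 0 := by
  unfold hst
  rw [max_eq_right hx, max_eq_right (by linarith), max_eq_right (by linarith)]
  norm_num

theorem hst_one {x : ℝ} (hx : 1 ≤ x) : hst x = 1 := by
  unfold hst
  rw [max_eq_left (by linarith), max_eq_left (by linarith), max_eq_left (by linarith)]
  ring

theorem hst_mem (x : ℝ) : 0 ≤ hst x ∧ hst x ≤ 1 := by
  rcases le_total x 0 with h | h
  · rw [hst_zero h]
    norm_num
  rcases le_total 1 x with h1 | h1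
  · rw [hst_one h1]
    norm_num
  unfold hst
  rw [max_eq_left h, max_eq_right (show x - 1 ≤ 0 by linarith)]
  rcases le_total x (1 / 2) with h2 | h2
  · rw [max_eq_right (by linarith)]
    constructor <;> nlinarith
  · rw [max_eq_left (by linarith)]
    constructor <;> nlinarith

theorem hst'_mem (x : ℝ) : 0 ≤ hst' x ∧ hst' x ≤ 2 := by
  unfold hst'
  rcases le_total x 0 with h | h
  · rw [max_eq_right h, max_eq_right (by linarith), max_eq_right (by linarith)]
    norm_num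
  rcases le_total 1 x with h1 | h1
  · rw [max_eq_left (by linarith), max_eq_left (by linarith), max_eq_left (by linarith)]
    constructor <;> linarith
  rw [max_eq_left h, max_eq_right (show x - 1 ≤ 0 by linarith)]
  rcases le_total x (1 / 2) with h2 | h2
  · rw [max_eq_right (by linarith)]
    constructor <;> linarith
  · rw [max_eq_left (by linarith)]
    constructor <;> linarith

private theorem k0a_taylor (a b : ℝ) :
    |(max b 0) ^ 2 - (max a 0) ^ 2 - 2 * max a 0 * (b - a)| ≤ (b - a) ^ 2 := by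
  rw [abs_le]
  rcases le_total a 0 with ha | ha <;> rcases le_total b 0 with hb | hb
  · rw [max_eq_right ha, max_eq_right hb]
    constructor <;> nlinarith [sq_nonneg (b - a)]
  · rw [max_eq_right ha, max_eq_left hb]
    constructor <;> nlinarith [sq_nonneg (b - a), mul_nonneg hb (neg_nonneg.2 ha)]
  · rw [max_eq_left ha, max_eq_right hb]
    constructor <;> nlinarith [sq_nonneg (b - a), mul_nonneg ha (neg_nonneg.2 hb), sq_nonneg a]
  · rw [max_eq_left ha, max_eq_left hb]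
    constructor <;> nlinarith [sq_nonneg (b - a)]

/-- from `|(max b 0)^2 - (max a 0)^2 - 2 (max a 0) (b - a)| ≤ (b - a)^2` -/
theorem hst_taylor (a b : ℝ) : |hst b - hst a - hst' a * (b - a)| ≤ 8 * (b - a) ^ 2 := by
  have h1 := k0a_taylor a b
  have h2 := k0a_taylor (a - 1 / 2) (b - 1 / 2)
  have h3 := k0a_taylor (a - 1) (b - 1)
  rw [abs_le] at h1 h2 h3 ⊢
  have e2 : (b - 1 / 2 - (a - 1 / 2)) = b - a := by ring
  have e3 : (b - 1 - (a - 1)) = b - a := by ring
  rw [e2] at h2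
  rw [e3] at h3
  unfold hst hst'
  constructor <;> nlinarith

variable {W : Type*} [NormedAddCommGroup W] [NormedSpace ℝ W]

/-- edge term `(H(jP) + H(jQ))/2 • (gQ - gP)`, `H = hst (· / δ)` -/
noncomputable def edg (δ : ℝ) (jP jQ : ℝ) (gP gQ : W) : W :=
  ((hst (jP / δ) + hst (jQ / δ)) / 2) • (gQ - gP)

theorem edg_anti (δ jP jQ : ℝ) (gP gQ : W) : edg δ jP jQ gP gQ = - edg δ jQ jP gQ gP := by
  unfold edg
  rw [← smul_neg, neg_sub, add_comm (hst (jQ / δ))]

theorem edg_norm (δ jP jQ : ℝ) (gP gQ : W) : ‖edg δ jP jQ gP gQ‖ ≤ ‖gQ - gP‖ := by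
  unfold edg
  rw [norm_smul]
  have h1 := hst_mem (jP / δ)
  have h2 := hst_mem (jQ / δ)
  have h3 : ‖(hst (jP / δ) + hst (jQ / δ)) / 2‖ ≤ 1 := by
    rw [Real.norm_eq_abs, abs_le]
    constructor <;> linarith [h1.1, h1.2, h2.1, h2.2]
  exact mul_le_of_le_one_left (norm_nonneg _) h3

/-- a coefficient estimate -/
private theorem k0a_coef {δ d : ℝ} (hδ : 0 < δ) {jP jQ : ℝ} (hjQ : |jQ - jP| ≤ d) :
    |hst (jQ / δ) - hst (jP / δ) - hst' (jP / δ) / δ * (jQ - jP)| ≤ 8 * d ^ 2 / δ ^ 2 := by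
  have h1 := hst_taylor (jP / δ) (jQ / δ)
  have e1 : hst' (jP / δ) * (jQ / δ - jP / δ) = hst' (jP / δ) / δ * (jQ - jP) := by
    field_simp
  rw [e1] at h1
  refine h1.trans ?_
  have e2 : 8 * (jQ / δ - jP / δ) ^ 2 = 8 * (jQ - jP) ^ 2 / δ ^ 2 := by
    field_simp
  rw [e2]
  have h2 : (jQ - jP) ^ 2 ≤ d ^ 2 := by
    rw [← sq_abs]
    exact pow_le_pow_left₀ (abs_nonneg _) hjQ 2
  gcongr

private theorem k0a_coef2 {δ d : ℝ} (hδ : 0 < δ) (hd : 0 ≤ d) {jP jQ : ℝ}
    (hjQ : |jQ - jP| ≤ d) :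
    |hst (jQ / δ) - hst (jP / δ)| ≤ 2 * d / δ + 8 * d ^ 2 / δ ^ 2 := by
  have h1 := k0a_coef hδ hjQ
  have h2 := hst'_mem (jP / δ)
  have h3 : |hst' (jP / δ) / δ * (jQ - jP)| ≤ 2 * d / δ := by
    rw [abs_mul, abs_div, abs_of_nonneg h2.1, abs_of_pos hδ, div_mul_eq_mul_div]
    have : hst' (jP / δ) * |jQ - jP| ≤ 2 * d :=
      mul_le_mul h2.2 hjQ (abs_nonneg _) (by norm_num)
    gcongr
  have e1 : hst (jQ / δ) - hst (jP / δ)
      = hst' (jP / δ) / δ * (jQ - jP) + (hst (jQ / δ) - hst (jP / δ) - hst' (jP / δ) / δ * (jQ - jP)) := by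
    ring
  rw [e1]
  exact (abs_add_le _ _).trans (add_le_add h3 h1)

/-- **Triangle estimate.**  The sum of the three edge terms is
`((H Q - H P) • (gR - gP) - (H R - H P) • (gQ - gP)) / 2`; insert `gR - gP = (jR - jP) • z + ρR`,
`H Q - H P = h1 (jQ - jP) + σQ`, `|h1| ≤ 2/δ`, `|σ| ≤ 8 d^2/δ^2`: main terms cancel. -/
theorem tri_est {δ d e : ℝ} (hδ : 0 < δ) (hd : 0 ≤ d) (he : 0 ≤ e) {jP jQ jR : ℝ}
    {gP gQ gR z : W} (hz : ‖z‖ ≤ 3) (hQ : ‖gQ - gP - (jQ - jP) • z‖ ≤ e)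
    (hR : ‖gR - gP - (jR - jP) • z‖ ≤ e) (hjQ : |jQ - jP| ≤ d) (hjR : |jR - jP| ≤ d) :
    ‖edg δ jP jQ gP gQ + edg δ jQ jR gQ gR + edg δ jR jP gR gP‖
      ≤ e * (2 * d / δ + 8 * d ^ 2 / δ ^ 2) + 24 * d ^ 3 / δ ^ 2 := by
  have sQ := k0a_coef hδ hjQ
  have sR := k0a_coef hδ hjR
  have tQ := k0a_coef2 hδ hd hjQ
  have tR := k0a_coef2 hδ hd hjR
  unfold edg
  set hP := hst (jP / δ)
  set hQ' := hst (jQ / δ)
  set hR' := hst (jR / δ)
  set h1 := hst' (jP / δ) / δ
  set M := 8 * d ^ 2 / δ ^ 2 with hM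
  set B := 2 * d / δ + M with hB
  set ρQ := gQ - gP - (jQ - jP) • z with hρQ
  set ρR := gR - gP - (jR - jP) • z with hρR
  have e1 : ((hP + hQ') / 2) • (gQ - gP) + ((hQ' + hR') / 2) • (gR - gQ)
      + ((hR' + hP) / 2) • (gP - gR)
      = (1 / 2 : ℝ) • (((hQ' - hP - h1 * (jQ - jP)) * (jR - jP)) • z
        - ((hR' - hP - h1 * (jR - jP)) * (jQ - jP)) • z
        + (hQ' - hP) • ρR - (hR' - hP) • ρQ) := by
    rw [hρQ, hρR]
    module
  rw [e1, norm_smul]
  have b1 : ‖((hQ' - hP - h1 * (jQ - jP)) * (jR - jP)) • z‖ ≤ M * d * 3 := by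
    rw [norm_smul, norm_mul, Real.norm_eq_abs, Real.norm_eq_abs]
    have hM0 : 0 ≤ M := (abs_nonneg _).trans sQ
    exact mul_le_mul (mul_le_mul sQ hjR (abs_nonneg _) hM0) hz (norm_nonneg _)
      (mul_nonneg hM0 hd)
  have b2 : ‖((hR' - hP - h1 * (jR - jP)) * (jQ - jP)) • z‖ ≤ M * d * 3 := by
    rw [norm_smul, norm_mul, Real.norm_eq_abs, Real.norm_eq_abs]
    have hM0 : 0 ≤ M := (abs_nonneg _).trans sQ
    exact mul_le_mul (mul_le_mul sR hjQ (abs_nonneg _) hM0) hz (norm_nonneg _)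
      (mul_nonneg hM0 hd)
  have b3 : ‖(hQ' - hP) • ρR‖ ≤ B * e := by
    rw [norm_smul, Real.norm_eq_abs]
    exact mul_le_mul tQ hR (norm_nonneg _) ((abs_nonneg _).trans tQ)
  have b4 : ‖(hR' - hP) • ρQ‖ ≤ B * e := by
    rw [norm_smul, Real.norm_eq_abs]
    exact mul_le_mul tR hQ (norm_nonneg _) ((abs_nonneg _).trans tQ)
  have b5 : ‖((hQ' - hP - h1 * (jQ - jP)) * (jR - jP)) • z
        - ((hR' - hP - h1 * (jR - jP)) * (jQ - jP)) • z
        + (hQ' - hP) • ρR - (hR' - hP) • ρQ‖ ≤ M * d * 3 + M * d * 3 + B * e + B * e :=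
    (norm_sub_le _ _).trans (add_le_add ((norm_add_le _ _).trans
      (add_le_add ((norm_sub_le _ _).trans (add_le_add b1 b2)) b3)) b4)
  have e2 : ‖(1 / 2 : ℝ)‖ = 1 / 2 := by norm_num
  rw [e2]
  have e3 : 24 * d ^ 3 / δ ^ 2 = M * d * 3 := by
    rw [hM]
    ring
  rw [e3]
  nlinarith

/-- **Line sum.**  If `j b` is nondecreasing with `j 0 = 0`, steps `≤ d`, `‖g (b+1) - g b‖ ≤ 3 (j (b+1) - j b) + e`: only the steps with
`j b < δ` differ from `g (b+1) - g b`. -/
theorem line_est {δ d e : ℝ} (hδ : 0 < δ) (hd : 0 ≤ d) (he : 0 ≤ e) (n : ℕ) (j : ℕ → ℝ)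
    (g : ℕ → W) (h0 : j 0 = 0) (hmono : ∀ b, b < n → j b ≤ j (b + 1))
    (hstep : ∀ b, b < n → j (b + 1) ≤ j b + d)
    (hg : ∀ b, b < n → ‖g (b + 1) - g b‖ ≤ 3 * (j (b + 1) - j b) + e) :
    ‖(∑ b ∈ Finset.range n, edg δ (j b) (j (b + 1)) (g b) (g (b + 1))) - (g n - g 0)‖
      ≤ 3 * (δ + d) + n * e := by
  have key : ∀ m, m ≤ n →
      ‖(∑ b ∈ Finset.range m, edg δ (j b) (j (b + 1)) (g b) (g (b + 1))) - (g m - g 0)‖
        ≤ 3 * min (j m) (δ + d) + m * e := by
    intro m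
    induction m with
    | zero =>
      intro _
      simp [h0, add_nonneg hδ.le hd]
    | succ m ih =>
      intro hm
      have hm' : m < n := hm
      have h1 := ih hm'.le
      rw [Finset.sum_range_succ]
      have e1 : (∑ b ∈ Finset.range m, edg δ (j b) (j (b + 1)) (g b) (g (b + 1)))
          + edg δ (j m) (j (m + 1)) (g m) (g (m + 1)) - (g (m + 1) - g 0)
          = ((∑ b ∈ Finset.range m, edg δ (j b) (j (b + 1)) (g b) (g (b + 1))) - (g m - g 0))
            + (((hst (j m / δ) + hst (j (m + 1) / δ)) / 2 - 1) • (g (m + 1) - g m)) := by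
        unfold edg
        module
      rw [e1]
      refine (norm_add_le _ _).trans ?_
      push_cast
      have hmo := hmono m hm'
      rcases le_or_gt δ (j m) with hc | hc
      · have c1 : 1 ≤ j m / δ := by rwa [le_div_iff₀ hδ, one_mul]
        have c2 : 1 ≤ j (m + 1) / δ := by
          rw [le_div_iff₀ hδ, one_mul]
          exact hc.trans hmo
        rw [hst_one c1, hst_one c2]
        have c3 : ((1 + 1) / 2 - 1 : ℝ) = 0 := by norm_num
        rw [c3, zero_smul, norm_zero, add_zero]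
        refine h1.trans ?_
        have c4 : min (j m) (δ + d) ≤ min (j (m + 1)) (δ + d) := min_le_min_right _ hmo
        nlinarith
      · have d1 : ‖((hst (j m / δ) + hst (j (m + 1) / δ)) / 2 - 1) • (g (m + 1) - g m)‖
            ≤ 3 * (j (m + 1) - j m) + e := by
          rw [norm_smul]
          have a1 := hst_mem (j m / δ)
          have a2 := hst_mem (j (m + 1) / δ)
          have a3 : ‖(hst (j m / δ) + hst (j (m + 1) / δ)) / 2 - 1‖ ≤ 1 := by
            rw [Real.norm_eq_abs, abs_le]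
            constructor <;> linarith [a1.1, a1.2, a2.1, a2.2]
          exact (mul_le_of_le_one_left (norm_nonneg _) a3).trans (hg m hm')
        have d2 : min (j m) (δ + d) = j m := min_eq_left (by linarith)
        have d3 : min (j (m + 1)) (δ + d) = j (m + 1) :=
          min_eq_left (by linarith [hstep m hm'])
        rw [d2] at h1
        rw [d3]
        linarith
  have h1 := key n le_rfl
  have h2 : min (j n) (δ + d) ≤ δ + d := min_le_right _ _
  linarith

/-- **Discrete Stokes formula.** -/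
theorem stokes {P : Type*} (ed : P → P → W) (hanti : ∀ x y, ed x y = - ed y x)
    (x : ℕ → ℕ → P) (N n : ℕ) (ε : ℝ)
    (h1 : ∀ a b, a < N → b < n →
      ‖ed (x a b) (x a (b + 1)) + ed (x a (b + 1)) (x (a + 1) (b + 1))
        + ed (x (a + 1) (b + 1)) (x a b)‖ ≤ ε)
    (h2 : ∀ a b, a < N → b < n →
      ‖ed (x a b) (x (a + 1) b) + ed (x (a + 1) b) (x (a + 1) (b + 1))
        + ed (x (a + 1) (b + 1)) (x a b)‖ ≤ ε) :
    ‖(∑ b ∈ Finset.range n, ed (x 0 b) (x 0 (b + 1)))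
        + (∑ a ∈ Finset.range N, ed (x a n) (x (a + 1) n))
        - (∑ b ∈ Finset.range n, ed (x N b) (x N (b + 1)))
        - (∑ a ∈ Finset.range N, ed (x a 0) (x (a + 1) 0))‖ ≤ 2 * N * n * ε := by
  have hcell : ∀ a b, a < N → b < n →
      ‖(ed (x a b) (x a (b + 1)) - ed (x (a + 1) b) (x (a + 1) (b + 1)))
        + (ed (x a (b + 1)) (x (a + 1) (b + 1)) - ed (x a b) (x (a + 1) b))‖ ≤ 2 * ε := by
    intro a b ha hb
    have e1 : (ed (x a b) (x a (b + 1)) - ed (x (a + 1) b) (x (a + 1) (b + 1)))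
        + (ed (x a (b + 1)) (x (a + 1) (b + 1)) - ed (x a b) (x (a + 1) b))
        = (ed (x a b) (x a (b + 1)) + ed (x a (b + 1)) (x (a + 1) (b + 1))
            + ed (x (a + 1) (b + 1)) (x a b))
          - (ed (x a b) (x (a + 1) b) + ed (x (a + 1) b) (x (a + 1) (b + 1))
            + ed (x (a + 1) (b + 1)) (x a b)) := by
      abel
    rw [e1]
    refine (norm_sub_le _ _).trans ?_
    linarith [h1 a b ha hb, h2 a b ha hb]
  have htot : (∑ b ∈ Finset.range n, ed (x 0 b) (x 0 (b + 1)))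
        + (∑ a ∈ Finset.range N, ed (x a n) (x (a + 1) n))
        - (∑ b ∈ Finset.range n, ed (x N b) (x N (b + 1)))
        - (∑ a ∈ Finset.range N, ed (x a 0) (x (a + 1) 0))
      = ∑ a ∈ Finset.range N, ∑ b ∈ Finset.range n,
        ((ed (x a b) (x a (b + 1)) - ed (x (a + 1) b) (x (a + 1) (b + 1)))
        + (ed (x a (b + 1)) (x (a + 1) (b + 1)) - ed (x a b) (x (a + 1) b))) := by
    have hs1 : ∑ a ∈ Finset.range N, ∑ b ∈ Finset.range n,
        (ed (x a b) (x a (b + 1)) - ed (x (a + 1) b) (x (a + 1) (b + 1)))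
        = (∑ b ∈ Finset.range n, ed (x 0 b) (x 0 (b + 1)))
          - ∑ b ∈ Finset.range n, ed (x N b) (x N (b + 1)) := by
      rw [Finset.sum_comm, ← Finset.sum_sub_distrib]
      exact Finset.sum_congr rfl fun b _ =>
        Finset.sum_range_sub' (fun a => ed (x a b) (x a (b + 1))) N
    have hs2 : ∑ a ∈ Finset.range N, ∑ b ∈ Finset.range n,
        (ed (x a (b + 1)) (x (a + 1) (b + 1)) - ed (x a b) (x (a + 1) b))
        = (∑ a ∈ Finset.range N, ed (x a n) (x (a + 1) n))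
          - ∑ a ∈ Finset.range N, ed (x a 0) (x (a + 1) 0) := by
      rw [← Finset.sum_sub_distrib]
      exact Finset.sum_congr rfl fun a _ =>
        Finset.sum_range_sub (fun b => ed (x a b) (x (a + 1) b)) n
    simp only [Finset.sum_add_distrib]
    rw [hs1, hs2]
    abel
  rw [htot]
  have hin : ∀ a ∈ Finset.range N, ‖∑ b ∈ Finset.range n,
        ((ed (x a b) (x a (b + 1)) - ed (x (a + 1) b) (x (a + 1) (b + 1)))
        + (ed (x a (b + 1)) (x (a + 1) (b + 1)) - ed (x a b) (x (a + 1) b)))‖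
      ≤ n * (2 * ε) := by
    intro a ha
    refine (norm_sum_le_of_le _ (fun b hb => hcell a b (Finset.mem_range.1 ha)
      (Finset.mem_range.1 hb))).trans ?_
    simp
  refine (norm_sum_le_of_le _ hin).trans ?_
  rw [Finset.sum_const, Finset.card_range, nsmul_eq_mul]
  exact le_of_eq (by ring)

end P084GII
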