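import Vale.Agent.Lib.P084G.II.Q2
import Vale.Agent.Lib.P084G.II.UltraD

/-! Part II, case C: the limit object at a sequence `(p n, t n)`. -/

open Filter Topology

namespace P084GII

open P084G

variable {X Y : Type*} [NormedAddCommGroup X] [NormedSpace ℝ X] [NormedAddCommGroup Y]
  [NormedSpace ℝ Y] {J : X → X →L[ℝ] ℝ} {K : Y → Y →L[ℝ] ℝ} {T : X → Y} {S : Y → X} {C C' : ℝ}

/-- the limit object: `j = lim J (p n)`, `j' = lim K (T (p n))`, `A = lim fderiv T (p n)`, `B`, `B'` the second order parts of the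
norms, `M` the second order part of `T`, at scale `t n`; `JU`, `KU` duality maps of the ultrapowers. -/
structure LO (J : X → X →L[ℝ] ℝ) (K : Y → Y →L[ℝ] ℝ) (T : X → Y)
    (JU : XU X → XU X →L[ℝ] ℝ) (KU : XU Y → XU Y →L[ℝ] ℝ) (p : ℕ → X) (t : ℕ → ℝ)
    (j : XU X →L[ℝ] ℝ) (j' : XU Y →L[ℝ] ℝ) (A : XU X →L[ℝ] XU Y)
    (B : XU X →L[ℝ] XU X →L[ℝ] ℝ) (B' : XU Y →L[ℝ] XU Y →L[ℝ] ℝ)
    (M : XU X →L[ℝ] XU X →L[ℝ] XU Y) : Prop where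
  hp : ∀ n, ‖p n‖ = 1
  ht0 : ∀ n, 0 < t n
  ht : Tendsto t atTop (𝓝 0)
  hJU : ∃ c, Dual2 JU c
  hKU : ∃ c, Dual2 KU c
  lJU : ∀ x v : ℕ → X, Bd x → Bd v → uq x ≠ 0 →
      Tendsto (fun n => J (x n) (v n)) (UU : Filter ℕ) (𝓝 (JU (uq x) (uq v)))
  lKU : ∀ x v : ℕ → Y, Bd x → Bd v → uq x ≠ 0 →
      Tendsto (fun n => K (x n) (v n)) (UU : Filter ℕ) (𝓝 (KU (uq x) (uq v)))
  lj : ∀ v : ℕ → X, Bd v → Tendsto (fun n => J (p n) (v n)) (UU : Filter ℕ) (𝓝 (j (uq v)))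
  lj' : ∀ v : ℕ → Y, Bd v → Tendsto (fun n => K (T (p n)) (v n)) (UU : Filter ℕ) (𝓝 (j' (uq v)))
  lA : ∀ v : ℕ → X, Bd v → A (uq v) = uq (fun n => fderiv ℝ T (p n) (v n))
  Bs : ∀ u v, B u v = B v u
  Bp : ∀ u, 0 ≤ B u u
  lB : ∀ u v : ℕ → X, Bd u → Bd v →
      Tendsto (fun n => bq J (p n) (t n) (u n) (v n)) (UU : Filter ℕ) (𝓝 (B (uq u) (uq v)))
  lB2 : ∀ u : ℕ → X, Bd u →
      Tendsto (fun n => ph J (p n) (t n) (u n)) (UU : Filter ℕ) (𝓝 (B (uq u) (uq u) / 2))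
  Bs' : ∀ u v, B' u v = B' v u
  lB' : ∀ u v : ℕ → Y, Bd u → Bd v →
      Tendsto (fun n => bq K (T (p n)) (t n) (u n) (v n)) (UU : Filter ℕ) (𝓝 (B' (uq u) (uq v)))
  lB2' : ∀ u : ℕ → Y, Bd u →
      Tendsto (fun n => ph K (T (p n)) (t n) (u n)) (UU : Filter ℕ) (𝓝 (B' (uq u) (uq u) / 2))
  Ms : ∀ u v, M u v = M v u
  lMb : ∀ u v : ℕ → X, Bd u → Bd v → Bd (fun n => Mq T (p n) (t n) (u n) (v n))
  lM : ∀ u v : ℕ → X, Bd u → Bd v →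
      M (uq u) (uq v) = uq (fun n => Mq T (p n) (t n) (u n) (v n))
  lEb : ∀ u : ℕ → X, Bd u → Bd (fun n => Eq2 T (p n) (t n) (u n))
  lM2 : ∀ u : ℕ → X, Bd u →
      (1 / 2 : ℝ) • M (uq u) (uq u) = uq (fun n => Eq2 T (p n) (t n) (u n))

/-- existence: `exists_dual2_XU` (twice), `uclm_real`, `uclm_vec`, `phi_main` (twice), `e_main` -/
theorem exists_LO [CompleteSpace X] [CompleteSpace Y] (hJ : Dual2 J C) (hK : Dual2 K C')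
    (h : HI T S) (hX : AQ X) (hY : AQ Y) {p : ℕ → X} (hp : ∀ n, ‖p n‖ = 1) {t : ℕ → ℝ}
    (ht0 : ∀ n, 0 < t n) (ht : Tendsto t atTop (𝓝 0)) :
    ∃ (JU : XU X → XU X →L[ℝ] ℝ) (KU : XU Y → XU Y →L[ℝ] ℝ) (j : XU X →L[ℝ] ℝ)
      (j' : XU Y →L[ℝ] ℝ) (A : XU X →L[ℝ] XU Y) (B : XU X →L[ℝ] XU X →L[ℝ] ℝ)
      (B' : XU Y →L[ℝ] XU Y →L[ℝ] ℝ) (M : XU X →L[ℝ] XU X →L[ℝ] XU Y),
      LO J K T JU KU p t j j' A B B' M := by
  obtain ⟨JU, hJU, lJU⟩ := exists_dual2_XU hJ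
  obtain ⟨KU, hKU, lKU⟩ := exists_dual2_XU hK
  obtain ⟨j, -, lj⟩ := uclm_real (fun n => J (p n)) (C := 1) (fun n => hJ.toDual.norm_le _)
  obtain ⟨j', -, lj'⟩ := uclm_real (fun n => K (T (p n))) (C := 1) (fun n => hK.toDual.norm_le _)
  obtain ⟨A, -, lA⟩ := uclm_vec (fun n => fderiv ℝ T (p n)) (C := 3) (fun n => fd_norm h _)
  have hTp : ∀ n, ‖T (p n)‖ = 1 := fun n => by rw [h.norm, hp]
  obtain ⟨B, Bs, Bp, lB, lB2⟩ := phi_main hJ hX (c := 1) (R := 1) one_pos (x := p)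
    (fun n => (hp n).ge) (fun n => (hp n).le) ht0 ht
  obtain ⟨B', Bs', -, lB', lB2'⟩ := phi_main hK hY (c := 1) (R := 1) one_pos
    (x := fun n => T (p n)) (fun n => (hTp n).ge) (fun n => (hTp n).le) ht0 ht
  obtain ⟨M, Ms, hM1, hM2⟩ := e_main hJ hK h hX hY hp ht0 ht
  exact ⟨JU, KU, j, j', A, B, B', M,
    { hp := hp
      ht0 := ht0
      ht := ht
      hJU := ⟨_, hJU⟩
      hKU := ⟨_, hKU⟩
      lJU := lJU
      lKU := lKU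
      lj := lj
      lj' := lj'
      lA := lA
      Bs := Bs
      Bp := Bp
      lB := lB
      lB2 := lB2
      Bs' := Bs'
      lB' := lB'
      lB2' := lB2'
      Ms := Ms
      lMb := fun u v hu hv => (hM1 u v hu hv).1
      lM := fun u v hu hv => (hM1 u v hu hv).2
      lEb := fun u hu => (hM2 u hu).1
      lM2 := fun u hu => (hM2 u hu).2 }⟩

end P084GII
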