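import Vale.Agent.Lib.P084G.II.LO

/-! Part II, case C: first properties of the limit object. -/

open Filter Topology

namespace P084GII

open P084G

variable {X Y : Type*} [NormedAddCommGroup X] [NormedSpace ℝ X] [NormedAddCommGroup Y]
  [NormedSpace ℝ Y] {J : X → X →L[ℝ] ℝ} {K : Y → Y →L[ℝ] ℝ} {T : X → Y} {S : Y → X} {C C' : ℝ}
  {JU : XU X → XU X →L[ℝ] ℝ} {KU : XU Y → XU Y →L[ℝ] ℝ} {p : ℕ → X} {t : ℕ → ℝ}
  {j : XU X →L[ℝ] ℝ} {j' : XU Y →L[ℝ] ℝ} {A : XU X →L[ℝ] XU Y}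
  {B : XU X →L[ℝ] XU X →L[ℝ] ℝ} {B' : XU Y →L[ℝ] XU Y →L[ℝ] ℝ}
  {M : XU X →L[ℝ] XU X →L[ℝ] XU Y}

/-- a convergent sequence of scalars times a bounded sequence -/
private theorem LOA_smul {x : ℕ → X} (hx : Bd x) {c : ℕ → ℝ} {R L : ℝ} (hc : ∀ n, |c n| ≤ R)
    (hL : Tendsto c (UU : Filter ℕ) (𝓝 L)) :
    Bd (fun n => c n • x n) ∧ uq (fun n => c n • x n) = L • uq x := by
  obtain ⟨D, hD⟩ := id hx
  have hb : Bd (fun n => c n • x n) := by
    refine ⟨R * D, fun n => ?_⟩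
    rw [norm_smul, Real.norm_eq_abs]
    exact mul_le_mul (hc n) (hD n) (norm_nonneg _) ((abs_nonneg _).trans (hc n))
  refine ⟨hb, ?_⟩
  rw [← uq_smul L hx, uq_eq_iff hb (hx.smul L)]
  have h1 : Tendsto (fun n => |c n - L| * D) (UU : Filter ℕ) (𝓝 0) := by
    have := ((hL.sub_const L).abs).mul_const D
    simpa using this
  refine squeeze_zero (fun n => norm_nonneg _) (fun n => ?_) h1
  rw [← sub_smul, norm_smul, Real.norm_eq_abs]
  exact mul_le_mul_of_nonneg_left (hD n) (abs_nonneg _)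

/-- first order expansion of the norm along the ultrafilter -/
private theorem LOA_exp (hJ : Dual2 J C) {x h : ℕ → X} (hx : Bd x) (hh : Bd h) (hx0 : uq x ≠ 0)
    {t : ℕ → ℝ} (ht0 : ∀ n, 0 < t n) (ht : Tendsto t atTop (𝓝 0)) {L : ℝ}
    (hL : Tendsto (fun n => J (x n) (h n)) (UU : Filter ℕ) (𝓝 L)) :
    Tendsto (fun n => (t n)⁻¹ * (‖x n + t n • h n‖ - ‖x n‖)) (UU : Filter ℕ) (𝓝 L) := by
  have hC := hJ.nonneg
  obtain ⟨D, hD⟩ := hh
  have hδ : 0 < ‖uq x‖ := norm_pos_iff.2 hx0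
  have hev : ∀ᶠ n in (UU : Filter ℕ), ‖uq x‖ / 2 < ‖x n‖ :=
    (norm_uq hx).eventually_const_lt (half_lt_self hδ)
  have hup : Tendsto (fun n => J (x n) (h n) + t n * (C * D ^ 2 / (‖uq x‖ / 2)))
      (UU : Filter ℕ) (𝓝 L) := by
    have h1 := hL.add ((ht.mono_left UU_le_atTop).mul_const (C * D ^ 2 / (‖uq x‖ / 2)))
    simpa using h1
  refine tendsto_of_tendsto_of_tendsto_of_le_of_le' hL hup ?_ ?_
  · filter_upwards [hev] with n hn
    have h1 := hJ.toDual.lower (x n) (t n • h n)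
    rw [map_smul, smul_eq_mul] at h1
    rw [← div_eq_inv_mul, le_div_iff₀ (ht0 n)]
    linarith
  · filter_upwards [hev] with n hn
    have hxn : 0 < ‖x n‖ := (half_pos hδ).trans hn
    have h1 := hJ.taylor (norm_pos_iff.1 hxn) (t n • h n)
    rw [map_smul, smul_eq_mul, norm_smul, Real.norm_of_nonneg (ht0 n).le, mul_pow] at h1
    have h2 : C * (t n ^ 2 * ‖h n‖ ^ 2) / ‖x n‖ ≤ t n ^ 2 * (C * D ^ 2 / (‖uq x‖ / 2)) := by
      have h3 : C * (t n ^ 2 * ‖h n‖ ^ 2) / ‖x n‖ = t n ^ 2 * (C * ‖h n‖ ^ 2 / ‖x n‖) := by ring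
      rw [h3]
      refine mul_le_mul_of_nonneg_left ?_ (sq_nonneg _)
      refine div_le_div₀ (by positivity) ?_ (half_pos hδ) hn.le
      exact mul_le_mul_of_nonneg_left (pow_le_pow_left₀ (norm_nonneg _) (hD n) 2) hC
    rw [← div_eq_inv_mul, div_le_iff₀ (ht0 n)]
    have h4 : (J (x n) (h n) + t n * (C * D ^ 2 / (‖uq x‖ / 2))) * t n =
        t n * J (x n) (h n) + t n ^ 2 * (C * D ^ 2 / (‖uq x‖ / 2)) := by ring
    rw [h4]
    linarith

private theorem LOA_Tbd (hT : HI T S) {x : ℕ → X} (hx : Bd x) : Bd (fun n => T (x n)) := by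
  obtain ⟨D, hD⟩ := hx
  exact ⟨D, fun n => by rw [hT.norm]; exact hD n⟩

private theorem LOA_fdbd (hT : HI T S) (p : ℕ → X) {v : ℕ → X} (hv : Bd v) :
    Bd (fun n => fderiv ℝ T (p n) (v n)) := by
  obtain ⟨D, hD⟩ := hv
  refine ⟨3 * D, fun n => ?_⟩
  refine ((fderiv ℝ T (p n)).le_opNorm (v n)).trans ?_
  exact mul_le_mul (fd_norm hT _) (hD n) (norm_nonneg _) (by norm_num)

/-- tangential representatives: `v n - J (p n) (v n) • p n` -/
theorem LO.rep (hJ : Dual2 J C) (h : LO J K T JU KU p t j j' A B B' M) {ξ : XU X}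
    (hξ : j ξ = 0) : ∃ v : ℕ → X, Bd v ∧ uq v = ξ ∧ ∀ n, J (p n) (v n) = 0 := by
  obtain ⟨v0, hv0, rfl⟩ := exists_rep ξ
  have hbp : Bd (fun n => J (p n) (v0 n) • p n) := by
    obtain ⟨D, hD⟩ := id hv0
    refine ⟨D, fun n => ?_⟩
    rw [norm_smul, h.hp n, mul_one, Real.norm_eq_abs]
    exact (hJ.toDual.abs_le _ _).trans (hD n)
  refine ⟨fun n => v0 n - J (p n) (v0 n) • p n, hv0.sub hbp, ?_, ?_⟩
  · rw [uq_eq_iff (hv0.sub hbp) hv0]
    have h1 := (h.lj v0 hv0).abs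
    rw [hξ, abs_zero] at h1
    refine h1.congr fun n => ?_
    rw [sub_sub_cancel_left, norm_neg, norm_smul, h.hp n, mul_one, Real.norm_eq_abs]
  · intro n
    rw [map_sub, map_smul, hJ.self, h.hp n, smul_eq_mul, mul_one, sub_self]

/-- unit tangential representatives -/
theorem LO.rep1 (hJ : Dual2 J C) (h : LO J K T JU KU p t j j' A B B' M) {ξ : XU X}
    (hξ : j ξ = 0) (hξ1 : ‖ξ‖ = 1) :
    ∃ v : ℕ → X, uq v = ξ ∧ Bd v ∧ ∀ᶠ n in (UU : Filter ℕ), J (p n) (v n) = 0 ∧ ‖v n‖ = 1 := by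
  obtain ⟨v, hv, rfl, hvt⟩ := h.rep hJ hξ
  have hlim := norm_uq hv
  rw [hξ1] at hlim
  have hev : ∀ᶠ n in (UU : Filter ℕ), ‖v n‖ ≠ 0 := by
    filter_upwards [hlim.eventually_const_lt (show (1 / 2 : ℝ) < 1 by norm_num)] with n hn h0
    rw [h0] at hn
    norm_num at hn
  have hb : Bd (fun n => ‖v n‖⁻¹ • v n) := by
    refine ⟨1, fun n => ?_⟩
    rw [norm_smul, norm_inv, norm_norm]
    rcases eq_or_ne ‖v n‖ 0 with h0 | h0
    · rw [h0, mul_zero]
      exact zero_le_one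
    · rw [inv_mul_cancel₀ h0]
  refine ⟨fun n => ‖v n‖⁻¹ • v n, ?_, hb, ?_⟩
  · rw [uq_eq_iff hb hv]
    have h1 : Tendsto (fun n => |‖v n‖ - 1|) (UU : Filter ℕ) (𝓝 |1 - 1|) :=
      (hlim.sub_const 1).abs
    rw [sub_self, abs_zero] at h1
    refine Tendsto.congr' ?_ h1
    filter_upwards [hev] with n hn
    have e1 : ‖v n‖⁻¹ • v n - v n = (‖v n‖⁻¹ * (1 - ‖v n‖)) • v n := by
      rw [mul_sub, mul_one, inv_mul_cancel₀ hn, sub_smul, one_smul]
    rw [e1, norm_smul, norm_mul, norm_inv, norm_norm, Real.norm_eq_abs, abs_sub_comm]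
    field_simp
  · filter_upwards [hev] with n hn
    refine ⟨?_, ?_⟩
    · rw [map_smul, hvt n, smul_zero]
    · rw [norm_smul, norm_inv, norm_norm, inv_mul_cancel₀ hn]

theorem LO.iso [CompleteSpace X] [CompleteSpace Y] (hJ : Dual2 J C) (hK : Dual2 K C')
    (hT : HI T S) (h : LO J K T JU KU p t j j' A B B' M) {ξ : XU X} (hξ : j ξ = 0) :
    ‖A ξ‖ = ‖ξ‖ := by
  obtain ⟨v, hv, rfl, hvt⟩ := h.rep hJ hξ
  rw [h.lA v hv]
  refine tendsto_nhds_unique (norm_uq (LOA_fdbd hT p hv)) ((norm_uq hv).congr fun n => ?_)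
  exact (fd_iso hJ.toU hK.toU hT (h.hp n) (hvt n)).symm

theorem LO.iso' [CompleteSpace X] [CompleteSpace Y] (hJ : Dual2 J C) (hK : Dual2 K C')
    (hT : HI T S) (h : LO J K T JU KU p t j j' A B B' M) {w v : XU X} (hw : j w = 0)
    (hw0 : w ≠ 0) (hv : j v = 0) : KU (A w) (A v) = JU w v := by
  have hn := h.iso hJ hK hT hw
  obtain ⟨w', hw', rfl, hwt⟩ := h.rep hJ hw
  obtain ⟨v', hv', rfl, hvt⟩ := h.rep hJ hv
  have hA0 : A (uq w') ≠ 0 := by
    rw [← norm_pos_iff, hn]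
    exact norm_pos_iff.2 hw0
  rw [h.lA w' hw'] at hA0 ⊢
  rw [h.lA v' hv']
  have hev : ∀ᶠ n in (UU : Filter ℕ), w' n ≠ 0 := by
    have hpos : 0 < ‖uq w'‖ := norm_pos_iff.2 hw0
    filter_upwards [(norm_uq hw').eventually_const_lt hpos] with n hn
    exact norm_pos_iff.1 hn
  refine tendsto_nhds_unique (h.lKU _ _ (LOA_fdbd hT p hw') (LOA_fdbd hT p hv') hA0)
    (Tendsto.congr' ?_ (h.lJU w' v' hw' hv' hw0))
  filter_upwards [hev] with n hn
  exact (fd_iso' hJ.toU hK.toU hT (h.hp n) (hwt n) (hvt n) hn).symm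

private theorem LOA_p0 (h : LO J K T JU KU p t j j' A B B' M) (n : ℕ) : p n ≠ 0 := by
  intro h0
  have := h.hp n
  rw [h0, norm_zero] at this
  exact zero_ne_one this

theorem LO.jA [CompleteSpace X] [CompleteSpace Y] (hJ : Dual2 J C) (hK : Dual2 K C')
    (hT : HI T S) (h : LO J K T JU KU p t j j' A B B' M) (v : XU X) : j' (A v) = j v := by
  obtain ⟨v', hv', rfl⟩ := exists_rep v
  rw [h.lA v' hv']
  refine tendsto_nhds_unique (h.lj' _ (LOA_fdbd hT p hv')) ((h.lj v' hv').congr fun n => ?_)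
  exact (fd_K hJ.toU hK.toU hT (LOA_p0 h n) (v' n)).symm

/-- `η = uq y`, `v n = fderiv ℝ S (T (p n)) (y n)` (`fd_inv` for `S`, `fd_K`) -/
theorem LO.surj [CompleteSpace X] [CompleteSpace Y] (hJ : Dual2 J C) (hK : Dual2 K C')
    (hT : HI T S) (h : LO J K T JU KU p t j j' A B B' M) {η : XU Y} (hη : j' η = 0) :
    ∃ v : XU X, j v = 0 ∧ A v = η := by
  obtain ⟨y, hy, rfl⟩ := exists_rep η
  have hTp : ∀ n, T (p n) ≠ 0 := by
    intro n h0
    have := hT.norm (p n)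
    rw [h0, norm_zero, h.hp n] at this
    exact zero_ne_one this
  have hb : Bd (fun n => fderiv ℝ S (T (p n)) (y n)) := LOA_fdbd hT.symm _ hy
  refine ⟨uq (fun n => fderiv ℝ S (T (p n)) (y n)), ?_, ?_⟩
  · rw [← hη]
    refine tendsto_nhds_unique (h.lj _ hb) ((h.lj' y hy).congr fun n => ?_)
    have h1 := fd_K hK.toU hJ.toU hT.symm (hTp n) (y n)
    rw [hT.ST] at h1
    exact h1.symm
  · rw [h.lA _ hb]
    congr 1
    funext n
    have h1 := fd_inv hK.toU hJ.toU hT.symm (hTp n) (y n)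
    rw [hT.ST] at h1
    exact h1

/-- radial directions: `J (p + t s p) = J p`, `fderiv T (p + t s p) = fderiv T p` -/
theorem LO.radial [CompleteSpace X] [CompleteSpace Y] (hJ : Dual2 J C) (hK : Dual2 K C')
    (hT : HI T S) (h : LO J K T JU KU p t j j' A B B' M) (v : XU X) :
    B (uq p) v = 0 ∧ M (uq p) v = 0 ∧ j (uq p) = 1 := by
  obtain ⟨v', hv', rfl⟩ := exists_rep v
  have hpb : Bd p := ⟨1, fun n => (h.hp n).le⟩
  have hpp : ∀ n, p n + t n • p n = (1 + t n) • p n := fun n => by rw [add_smul, one_smul]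
  have h1t : ∀ n, 0 < 1 + t n := fun n => by linarith [h.ht0 n]
  refine ⟨?_, ?_, ?_⟩
  · refine tendsto_nhds_unique (h.lB p v' hpb hv') (tendsto_const_nhds.congr fun n => ?_)
    unfold bq
    rw [hpp, hJ.smul _ (h1t n), sub_self, mul_zero]
  · rw [h.lM p v' hpb hv']
    have e : (fun n => Mq T (p n) (t n) (p n) (v' n)) = fun _ => (0 : Y) := by
      funext n
      unfold Mq
      rw [hpp, fd_smul hJ.toU hK.toU hT (LOA_p0 h n) (h1t n), sub_self, smul_zero]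
    rw [e]
    have := norm_uq_const (0 : Y)
    rw [norm_zero] at this
    exact norm_eq_zero.1 this
  · refine tendsto_nhds_unique (h.lj p hpb) (tendsto_const_nhds.congr fun n => ?_)
    rw [hJ.self, h.hp n]

/-- **(star).**  For `a, w` in `ker j`, `w ≠ 0`: with `u1 = (a + w)/2`, `u2 = (a - w)/2` (tangential representatives), `x i = p + t u i`,
`r i = ‖x i‖ = 1 + t^2 φ i`: `HI.rel'` (`‖T x1 - (r1/r2) T x2‖ = ‖x1 - (r1/r2) x2‖`), divided by `t`:
`‖w - t (φ1 - φ2) p + O(t^2)‖ = ‖A w + t (E1 - E2) - t (φ1 - φ2) T p + O(t^2)‖`, `‖w‖ = ‖A w‖` exactly (`fd_iso`); first order in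
`t`: `- (φ1 - φ2) J w p = K (A w) (E1 - E2) - (φ1 - φ2) K (A w) (T p)`; `E1 - E2 → M a w / 2`, `φ1 - φ2 → B a w / 2`. -/
theorem LO.star [CompleteSpace X] [CompleteSpace Y] (hJ : Dual2 J C) (hK : Dual2 K C')
    (hT : HI T S) (h : LO J K T JU KU p t j j' A B B' M) {a w : XU X} (ha : j a = 0)
    (hw : j w = 0) (hw0 : w ≠ 0) :
    KU (A w) (M a w)
      = (KU (A w) (uq (fun n => T (p n))) - JU w (uq p)) * B a w := by
  have hiso := h.iso hJ hK hT hw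
  obtain ⟨a', ha', rfl, hat⟩ := h.rep hJ ha
  obtain ⟨w', hw', rfl, hwt⟩ := h.rep hJ hw
  -- the two directions
  obtain ⟨u1, hu1⟩ : ∃ u1 : ℕ → X, u1 = fun n => (1 / 2 : ℝ) • (a' n + w' n) := ⟨_, rfl⟩
  obtain ⟨u2, hu2⟩ : ∃ u2 : ℕ → X, u2 = fun n => (1 / 2 : ℝ) • (a' n - w' n) := ⟨_, rfl⟩
  have hb1 : Bd u1 := by rw [hu1]; exact (ha'.add hw').smul _
  have hb2 : Bd u2 := by rw [hu2]; exact (ha'.sub hw').smul _
  have hq1 : uq u1 = (1 / 2 : ℝ) • (uq a' + uq w') := by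
    rw [hu1, uq_smul _ (ha'.add hw'), uq_add ha' hw']
  have hq2 : uq u2 = (1 / 2 : ℝ) • (uq a' - uq w') := by
    rw [hu2, uq_smul _ (ha'.sub hw'), uq_sub ha' hw']
  have ht1 : ∀ n, J (p n) (u1 n) = 0 := fun n => by
    rw [hu1]
    simp only
    rw [map_smul, map_add, hat n, hwt n, add_zero, smul_zero]
  have ht2 : ∀ n, J (p n) (u2 n) = 0 := fun n => by
    rw [hu2]
    simp only
    rw [map_smul, map_sub, hat n, hwt n, sub_zero, smul_zero]
  have hsub : ∀ n, u1 n - u2 n = w' n := fun n => by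
    rw [hu1, hu2]
    simp only
    module
  -- second order parts of the norm
  obtain ⟨f1, hf1⟩ : ∃ f1 : ℕ → ℝ, f1 = fun n => ph J (p n) (t n) (u1 n) := ⟨_, rfl⟩
  obtain ⟨f2, hf2⟩ : ∃ f2 : ℕ → ℝ, f2 = fun n => ph J (p n) (t n) (u2 n) := ⟨_, rfl⟩
  have hr : ∀ (u : ℕ → X), (∀ n, J (p n) (u n) = 0) → ∀ n,
      ‖p n + t n • u n‖ = 1 + t n ^ 2 * ph J (p n) (t n) (u n) := by
    intro u hu n
    have ht2' : t n ^ 2 ≠ 0 := pow_ne_zero 2 (h.ht0 n).ne'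
    unfold ph
    rw [hu n, h.hp n, mul_inv_cancel_left₀ ht2']
    ring
  have hr1 := hr u1 ht1
  have hr2 := hr u2 ht2
  obtain ⟨C1, hC1, hph, -⟩ := ph_bd hJ (c := 1) one_pos
  have hph1 := fun n => hph (p n) (t n) (u1 n) (h.hp n).ge (h.ht0 n)
  have hph2 := fun n => hph (p n) (t n) (u2 n) (h.hp n).ge (h.ht0 n)
  have hge2 : ∀ n, 1 ≤ ‖p n + t n • u2 n‖ := fun n => by
    rw [hr2 n]
    have := mul_nonneg (sq_nonneg (t n)) (hph2 n).1
    linarith
  obtain ⟨D1, hD1⟩ := id hb1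
  obtain ⟨D2, hD2⟩ := id hb2
  have hD1' : ∀ n, f1 n ≤ C1 * D1 ^ 2 := fun n => by
    rw [hf1]
    exact (hph1 n).2.trans (mul_le_mul_of_nonneg_left
      (pow_le_pow_left₀ (norm_nonneg _) (hD1 n) 2) hC1)
  have hD2' : ∀ n, f2 n ≤ C1 * D2 ^ 2 := fun n => by
    rw [hf2]
    exact (hph2 n).2.trans (mul_le_mul_of_nonneg_left
      (pow_le_pow_left₀ (norm_nonneg _) (hD2 n) 2) hC1)
  have hf1n : ∀ n, 0 ≤ f1 n := fun n => by rw [hf1]; exact (hph1 n).1
  have hf2n : ∀ n, 0 ≤ f2 n := fun n => by rw [hf2]; exact (hph2 n).1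
  -- the ratio
  obtain ⟨s, hs⟩ : ∃ s : ℕ → ℝ, s = fun n => (f1 n - f2 n) / ‖p n + t n • u2 n‖ := ⟨_, rfl⟩
  have hsb : ∀ n, |s n| ≤ C1 * D1 ^ 2 + C1 * D2 ^ 2 := fun n => by
    rw [hs]
    simp only
    rw [abs_div, abs_of_pos (zero_lt_one.trans_le (hge2 n))]
    refine (div_le_self (abs_nonneg _) (hge2 n)).trans ?_
    rw [abs_le]
    constructor <;> linarith [hD1' n, hD2' n, hf1n n, hf2n n]
  have hratio : ∀ n, ‖p n + t n • u1 n‖ / ‖p n + t n • u2 n‖ = 1 + t n ^ 2 * s n := fun n => by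
    have h0 : ‖p n + t n • u2 n‖ ≠ 0 := (zero_lt_one.trans_le (hge2 n)).ne'
    rw [hs]
    simp only
    rw [div_eq_iff h0, add_mul, one_mul, mul_assoc, div_mul_cancel₀ _ h0, hf1, hf2, hr1 n, hr2 n]
    ring
  have htU : Tendsto t (UU : Filter ℕ) (𝓝 0) := h.ht.mono_left UU_le_atTop
  have hlf1 : Tendsto f1 (UU : Filter ℕ) (𝓝 (B (uq u1) (uq u1) / 2)) := by
    rw [hf1]; exact h.lB2 u1 hb1
  have hlf2 : Tendsto f2 (UU : Filter ℕ) (𝓝 (B (uq u2) (uq u2) / 2)) := by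
    rw [hf2]; exact h.lB2 u2 hb2
  have hlr : Tendsto (fun n => ‖p n + t n • u2 n‖) (UU : Filter ℕ) (𝓝 1) := by
    have h1 : Tendsto (fun n => 1 + t n ^ 2 * f2 n) (UU : Filter ℕ) (𝓝 (1 + 0 ^ 2 *
        (B (uq u2) (uq u2) / 2))) := ((htU.pow 2).mul hlf2).const_add 1
    have e : (1 : ℝ) + 0 ^ 2 * (B (uq u2) (uq u2) / 2) = 1 := by ring
    rw [e] at h1
    refine h1.congr fun n => ?_
    rw [hr2 n, hf2]
  have hls : Tendsto s (UU : Filter ℕ) (𝓝 (B (uq u1) (uq u1) / 2 - B (uq u2) (uq u2) / 2)) := by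
    have h1 := (hlf1.sub hlf2).div hlr one_ne_zero
    rw [div_one] at h1
    rw [hs]
    exact h1
  -- sequences on both sides
  obtain ⟨R, hR⟩ : ∃ R : ℝ, ∀ n, |t n| ≤ R := by
    obtain ⟨R, hR⟩ := h.ht.bddAbove_range
    refine ⟨R, fun n => ?_⟩
    rw [abs_of_pos (h.ht0 n)]
    exact hR (Set.mem_range_self n)
  have hR0 : 0 ≤ R := (abs_nonneg _).trans (hR 0)
  have hpb : Bd p := ⟨1, fun n => (h.hp n).le⟩
  have hTpb : Bd (fun n => T (p n)) := LOA_Tbd hT hpb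
  have htsb : ∀ n, |t n * s n| ≤ R * (C1 * D1 ^ 2 + C1 * D2 ^ 2) := fun n => by
    rw [abs_mul]
    exact mul_le_mul (hR n) (hsb n) (abs_nonneg _) hR0
  have hts : Tendsto (fun n => t n * s n) (UU : Filter ℕ) (𝓝 0) := by
    have := htU.mul hls
    rwa [zero_mul] at this
  obtain ⟨E1, hE1⟩ : ∃ E1 : ℕ → Y, E1 = fun n => Eq2 T (p n) (t n) (u1 n) := ⟨_, rfl⟩
  obtain ⟨E2, hE2⟩ : ∃ E2 : ℕ → Y, E2 = fun n => Eq2 T (p n) (t n) (u2 n) := ⟨_, rfl⟩
  have hE1b : Bd E1 := by rw [hE1]; exact h.lEb u1 hb1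
  have hE2b : Bd E2 := by rw [hE2]; exact h.lEb u2 hb2
  have hE1q : uq E1 = (1 / 2 : ℝ) • M (uq u1) (uq u1) := by rw [hE1]; exact (h.lM2 u1 hb1).symm
  have hE2q : uq E2 = (1 / 2 : ℝ) • M (uq u2) (uq u2) := by rw [hE2]; exact (h.lM2 u2 hb2).symm
  have hA2b : Bd (fun n => fderiv ℝ T (p n) (u2 n)) := LOA_fdbd hT p hb2
  obtain ⟨b1, q1⟩ := LOA_smul hpb hsb hls
  obtain ⟨b2, q2⟩ := LOA_smul hb2 htsb hts
  obtain ⟨b3, q3⟩ := LOA_smul hTpb hsb hls
  obtain ⟨b4, q4⟩ := LOA_smul hE2b hR htU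
  obtain ⟨b5, q5⟩ := LOA_smul (hA2b.add b4) htsb hts
  rw [zero_smul] at q2 q4 q5
  -- left side
  have hhb : Bd (fun n => -(s n • p n + (t n * s n) • u2 n)) := (b1.add b2).neg
  have hhq : uq (fun n => -(s n • p n + (t n * s n) • u2 n)) =
      -((B (uq u1) (uq u1) / 2 - B (uq u2) (uq u2) / 2) • uq p) := by
    have e : (fun n => -(s n • p n + (t n * s n) • u2 n)) =
        fun n => (-1 : ℝ) • (s n • p n + (t n * s n) • u2 n) := by
      funext n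
      rw [neg_one_smul]
    rw [e, uq_smul _ (b1.add b2), uq_add b1 b2, q1, q2, add_zero, neg_one_smul]
  have hLb := LOA_exp hJ hw' hhb hw0 h.ht0 h.ht (h.lJU w' _ hw' hhb hw0)
  -- right side
  have hkb : Bd (fun n => (E1 n - E2 n) - (s n • T (p n) +
      (t n * s n) • (fderiv ℝ T (p n) (u2 n) + t n • E2 n))) :=
    (hE1b.sub hE2b).sub (b3.add b5)
  have hkq : uq (fun n => (E1 n - E2 n) - (s n • T (p n) +
      (t n * s n) • (fderiv ℝ T (p n) (u2 n) + t n • E2 n))) =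
      (1 / 2 : ℝ) • M (uq u1) (uq u1) - (1 / 2 : ℝ) • M (uq u2) (uq u2) -
      (B (uq u1) (uq u1) / 2 - B (uq u2) (uq u2) / 2) • uq (fun n => T (p n)) := by
    rw [uq_sub (hE1b.sub hE2b) (b3.add b5), uq_sub hE1b hE2b, uq_add b3 b5, q3, q5, add_zero,
      hE1q, hE2q]
  have hAwb : Bd (fun n => fderiv ℝ T (p n) (w' n)) := LOA_fdbd hT p hw'
  have hAw0 : uq (fun n => fderiv ℝ T (p n) (w' n)) ≠ 0 := by
    rw [← h.lA w' hw', ← norm_pos_iff, hiso]
    exact norm_pos_iff.2 hw0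
  have hRb := LOA_exp hK hAwb hkb hAw0 h.ht0 h.ht (h.lKU _ _ hAwb hkb hAw0)
  -- the identity
  have hid : ∀ n, ‖w' n + t n • -(s n • p n + (t n * s n) • u2 n)‖ =
      ‖fderiv ℝ T (p n) (w' n) + t n • ((E1 n - E2 n) - (s n • T (p n) +
      (t n * s n) • (fderiv ℝ T (p n) (u2 n) + t n • E2 n)))‖ := by
    intro n
    have ht := h.ht0 n
    have hx2 : p n + t n • u2 n ≠ 0 := norm_pos_iff.1 (zero_lt_one.trans_le (hge2 n))
    have h1 := hT.rel' (p n + t n • u1 n) hx2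
    rw [hratio n] at h1
    have g1 : p n + t n • u1 n - (1 + t n ^ 2 * s n) • (p n + t n • u2 n) =
        t n • (w' n + t n • -(s n • p n + (t n * s n) • u2 n)) := by
      rw [← hsub n]
      module
    have ht2' : t n ^ 2 ≠ 0 := pow_ne_zero 2 ht.ne'
    have g2 : ∀ u : X, T (p n + t n • u) = T (p n) + t n • fderiv ℝ T (p n) u +
        (t n ^ 2) • Eq2 T (p n) (t n) u := by
      intro u
      unfold Eq2
      rw [smul_inv_smul₀ ht2']
      abel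
    have g3 : T (p n + t n • u1 n) - (1 + t n ^ 2 * s n) • T (p n + t n • u2 n) =
        t n • (fderiv ℝ T (p n) (w' n) + t n • ((E1 n - E2 n) - (s n • T (p n) +
      (t n * s n) • (fderiv ℝ T (p n) (u2 n) + t n • E2 n)))) := by
      rw [g2, g2, hE1, hE2, ← hsub n, map_sub]
      module
    rw [g1, g3, norm_smul, norm_smul, Real.norm_of_nonneg ht.le] at h1
    exact (mul_left_cancel₀ ht.ne' h1).symm
  have hfin : JU (uq w') (uq (fun n => -(s n • p n + (t n * s n) • u2 n))) =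
      KU (uq (fun n => fderiv ℝ T (p n) (w' n))) (uq (fun n => (E1 n - E2 n) - (s n • T (p n) +
      (t n * s n) • (fderiv ℝ T (p n) (u2 n) + t n • E2 n)))) := by
    refine tendsto_nhds_unique hLb (hRb.congr fun n => ?_)
    rw [← hid n, fd_iso hJ.toU hK.toU hT (h.hp n) (hwt n)]
  rw [hhq, hkq, ← h.lA w' hw'] at hfin
  have hB : B (uq u1) (uq u1) / 2 - B (uq u2) (uq u2) / 2 = B (uq a') (uq w') / 2 := by
    rw [hq1, hq2]
    simp only [map_smul, map_add, map_sub, add_apply,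
      sub_apply, smul_apply, smul_eq_mul]
    rw [h.Bs (uq w') (uq a')]
    ring
  have hM : (1 / 2 : ℝ) • M (uq u1) (uq u1) - (1 / 2 : ℝ) • M (uq u2) (uq u2) =
      (1 / 2 : ℝ) • M (uq a') (uq w') := by
    rw [hq1, hq2]
    simp only [map_smul, map_add, map_sub, add_apply,
      sub_apply, smul_apply]
    rw [h.Ms (uq w') (uq a')]
    module
  rw [hB, hM, map_neg, map_smul, map_sub, map_smul, map_smul, smul_eq_mul, smul_eq_mul,
    smul_eq_mul] at hfin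
  linarith

/-- **Maximiser.**  At level `n` choose a tangential unit vector `e n` with
`ph J (p n) (t n) (e n) ≥ sup - 1/(n+1)` over tangential unit vectors (if there is no tangential unit vector take `e n = 0`;
then `ker j = 0`); `e = uq e`; every unit `v ∈ ker j` has unit tangential representatives (`LO.rep1`); `lB2`. -/
theorem LO.emax (hJ : Dual2 J C) (h : LO J K T JU KU p t j j' A B B' M) :
    ∃ e : XU X, j e = 0 ∧ ‖e‖ ≤ 1 ∧ ∀ v, j v = 0 → B v v ≤ B e e * ‖v‖ ^ 2 := by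
  obtain ⟨C1, hC1, hph, -⟩ := ph_bd hJ (c := 1) one_pos
  have hex : ∀ n : ℕ, ∃ e : X, J (p n) e = 0 ∧ ‖e‖ ≤ 1 ∧ ∀ u : X, J (p n) u = 0 → ‖u‖ = 1 →
      ph J (p n) (t n) u ≤ ph J (p n) (t n) e + 1 / ((n : ℝ) + 1) := by
    intro n
    by_cases hne : ({u : X | J (p n) u = 0 ∧ ‖u‖ = 1}).Nonempty
    · have hbdd : BddAbove ((fun u => ph J (p n) (t n) u) '' {u : X | J (p n) u = 0 ∧ ‖u‖ = 1}) := by
        refine ⟨C1, ?_⟩
        rintro _ ⟨u, ⟨_, hu⟩, rfl⟩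
        have := (hph (p n) (t n) u (h.hp n).ge (h.ht0 n)).2
        rw [hu] at this
        simpa using this
      have hpos : (0 : ℝ) < 1 / ((n : ℝ) + 1) := by positivity
      obtain ⟨_, ⟨e, ⟨he1, he2⟩, rfl⟩, he3⟩ := exists_lt_of_lt_csSup (hne.image _)
        (sub_lt_self (sSup ((fun u => ph J (p n) (t n) u) ''
          {u : X | J (p n) u = 0 ∧ ‖u‖ = 1})) hpos)
      refine ⟨e, he1, he2.le, fun u hu1 hu2 => ?_⟩
      have := le_csSup hbdd ⟨u, ⟨hu1, hu2⟩, rfl⟩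
      simp only at this he3
      linarith
    · refine ⟨0, map_zero _, by simp, fun u hu1 hu2 => ?_⟩
      exact absurd ⟨u, hu1, hu2⟩ hne
  choose e he1 he2 he3 using hex
  have heb : Bd e := ⟨1, he2⟩
  have hbound : ∀ v : XU X, j v = 0 → ‖v‖ = 1 → B v v ≤ B (uq e) (uq e) := by
    intro v hv hv1
    obtain ⟨v', rfl, hv', hev⟩ := h.rep1 hJ hv hv1
    have h1 := h.lB2 v' hv'
    have h2 : Tendsto (fun n => ph J (p n) (t n) (e n) + 1 / ((n : ℝ) + 1)) (UU : Filter ℕ)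
        (𝓝 (B (uq e) (uq e) / 2 + 0)) :=
      (h.lB2 e heb).add (tendsto_one_div_add_atTop_nhds_zero_nat.mono_left UU_le_atTop)
    have h3 : B (uq v') (uq v') / 2 ≤ B (uq e) (uq e) / 2 + 0 := by
      refine le_of_tendsto_of_tendsto h1 h2 ?_
      filter_upwards [hev] with n hn
      exact he3 n _ hn.1 hn.2
    linarith
  refine ⟨uq e, ?_, ?_, fun v hv => ?_⟩
  · refine tendsto_nhds_unique (h.lj e heb) (tendsto_const_nhds.congr fun n => ?_)
    exact (he1 n).symm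
  · exact le_of_tendsto (norm_uq heb) (Eventually.of_forall he2)
  · rcases eq_or_ne v 0 with rfl | hv0
    · simp
    · have hn : 0 < ‖v‖ := norm_pos_iff.2 hv0
      have h1 := hbound (‖v‖⁻¹ • v) (by rw [map_smul, hv, smul_zero])
        (by rw [norm_smul, norm_inv, norm_norm, inv_mul_cancel₀ hn.ne'])
      rw [map_smul, map_smul, smul_apply, smul_eq_mul, smul_eq_mul] at h1
      have h2 : B v v = ‖v‖ ^ 2 * (‖v‖⁻¹ * (‖v‖⁻¹ * B v v)) := by
        field_simp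
      rw [h2, mul_comm]
      exact mul_le_mul_of_nonneg_right h1 (sq_nonneg _)

end P084GII
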