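import Vale.Agent.Lib.P084G.II.LOA

/-! Part II, case C: invariance of the Hessian (uses that `T` is odd). -/

open Filter Topology

namespace P084GII

open P084G

variable {X Y : Type*} [NormedAddCommGroup X] [NormedSpace ℝ X] [NormedAddCommGroup Y]
  [NormedSpace ℝ Y] {J : X → X →L[ℝ] ℝ} {K : Y → Y →L[ℝ] ℝ} {T : X → Y} {S : Y → X} {C C' : ℝ}
  {JU : XU X → XU X →L[ℝ] ℝ} {KU : XU Y → XU Y →L[ℝ] ℝ} {p : ℕ → X} {t : ℕ → ℝ}
  {j : XU X →L[ℝ] ℝ} {j' : XU Y →L[ℝ] ℝ} {A : XU X →L[ℝ] XU Y}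
  {B : XU X →L[ℝ] XU X →L[ℝ] ℝ} {B' : XU Y →L[ℝ] XU Y →L[ℝ] ℝ}
  {M : XU X →L[ℝ] XU X →L[ℝ] XU Y}

/-- `F n = t⁻¹ (T (p + t u) - T p)` -/
private noncomputable def LOB_F (T : X → Y) (p : X) (t : ℝ) (u : X) : Y :=
  t⁻¹ • (T (p + t • u) - T p)

private theorem LOB_F_add (T : X → Y) (p : X) {t : ℝ} (ht : 0 < t) (u : X) :
    T p + t • LOB_F T p t u = T (p + t • u) := by
  unfold LOB_F
  rw [smul_inv_smul₀ ht.ne']
  abel

private theorem LOB_F_bd (hT : HI T S) (p : ℕ → X) {t : ℕ → ℝ} (ht0 : ∀ n, 0 < t n) {u : ℕ → X}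
    (hu : Bd u) : Bd (fun n => LOB_F T (p n) (t n) (u n)) := by
  obtain ⟨R, hR⟩ := hu
  refine ⟨3 * R, fun n => ?_⟩
  have ht := ht0 n
  unfold LOB_F
  rw [norm_smul, norm_inv, Real.norm_of_nonneg ht.le]
  have h1 := hT.lip (p n + t n • u n) (p n)
  rw [add_sub_cancel_left, norm_smul, Real.norm_of_nonneg ht.le] at h1
  rw [inv_mul_le_iff₀ ht]
  have h2 := mul_le_mul_of_nonneg_left (hR n) ht.le
  linarith

private theorem LOB_fd_bd (hT : HI T S) (p : ℕ → X) {u : ℕ → X} (hu : Bd u) :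
    Bd (fun n => fderiv ℝ T (p n) (u n)) := by
  obtain ⟨R, hR⟩ := hu
  refine ⟨3 * R, fun n => ?_⟩
  refine ((fderiv ℝ T (p n)).le_opNorm (u n)).trans ?_
  exact mul_le_mul (fd_norm hT (p n)) (hR n) (norm_nonneg _) (by norm_num)

private theorem LOB_F_uq (hT : HI T S) (h : LO J K T JU KU p t j j' A B B' M) {u : ℕ → X}
    (hu : Bd u) : uq (fun n => LOB_F T (p n) (t n) (u n)) = A (uq u) := by
  rw [h.lA u hu]
  refine (uq_eq_iff (LOB_F_bd hT p h.ht0 hu) (LOB_fd_bd hT p hu)).2 ?_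
  obtain ⟨CE, hCE⟩ := h.lEb u hu
  have e : ∀ n, LOB_F T (p n) (t n) (u n) - fderiv ℝ T (p n) (u n) =
      t n • Eq2 T (p n) (t n) (u n) := by
    intro n
    have ht := (h.ht0 n).ne'
    unfold LOB_F Eq2
    rw [smul_smul, smul_sub (t n * (t n ^ 2)⁻¹), smul_smul]
    have e1 : t n * (t n ^ 2)⁻¹ = (t n)⁻¹ := by
      field_simp
    have e2 : (t n)⁻¹ * t n = 1 := inv_mul_cancel₀ ht
    rw [e1, e2, one_smul]
  have h1 : Tendsto (fun n => t n * CE) (UU : Filter ℕ) (𝓝 (0 * CE)) :=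
    (h.ht.mono_left UU_le_atTop).mul_const CE
  rw [zero_mul] at h1
  refine squeeze_zero (fun n => norm_nonneg _) (fun n => ?_) h1
  rw [e n, norm_smul, Real.norm_of_nonneg (h.ht0 n).le]
  exact mul_le_mul_of_nonneg_left (hCE n) (h.ht0 n).le

private theorem LOB_first [CompleteSpace X] [CompleteSpace Y] (hJ : Dual2 J C) (hK : Dual2 K C')
    (hT : HI T S) {p : X} (hp : ‖p‖ = 1) {t : ℝ} (ht : 0 < t) (u : X) :
    ph J p t u = ph K (T p) t (LOB_F T p t u) + K (T p) (Eq2 T p t u) := by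
  have hp0 : p ≠ 0 := by
    rintro rfl
    rw [norm_zero] at hp
    exact zero_ne_one hp
  have h1 := fd_K hJ.toU hK.toU hT hp0 u
  unfold ph
  rw [LOB_F_add T p ht u, hT.norm, hT.norm]
  unfold LOB_F Eq2
  simp only [map_smul, map_sub, smul_eq_mul]
  rw [h1]
  field_simp
  ring

/-- (i) second order expansion of `‖T (p + t u)‖ = ‖p + t u‖`:
`K q (Eq2 T p t u) + ph K q t (fderiv T p u) - ph J p t u → 0`. -/
theorem LO.hess1 [CompleteSpace X] [CompleteSpace Y] (hJ : Dual2 J C) (hK : Dual2 K C')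
    (hT : HI T S) (h : LO J K T JU KU p t j j' A B B' M) {u : XU X} (hu : j u = 0) :
    j' (M u u) + B' (A u) (A u) = B u u := by
  obtain ⟨v, hv, rfl, -⟩ := h.rep hJ hu
  have l1 := h.lB2 v hv
  have l2 := h.lB2' _ (LOB_F_bd hT p h.ht0 hv)
  rw [LOB_F_uq hT h hv] at l2
  have l3 := h.lj' _ (h.lEb v hv)
  rw [← h.lM2 v hv, map_smul, smul_eq_mul] at l3
  have l4 := l1.congr fun n => LOB_first hJ hK hT (h.hp n) (h.ht0 n) (v n)
  have l5 := tendsto_nhds_unique l4 (l2.add l3)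
  linarith

private theorem LOB_ph2 (hJ : Dual J) (p : X) (t : ℝ) (u : X) :
    ph J ((2 : ℝ) • p) t u = 2 * ph J p t ((1 / 2 : ℝ) • u) := by
  unfold ph
  have e1 : (2 : ℝ) • p + t • u = (2 : ℝ) • (p + t • (1 / 2 : ℝ) • u) := by module
  rw [e1, hJ.smul 2 two_pos, norm_smul, norm_smul, Real.norm_of_nonneg two_pos.le, map_smul,
    smul_eq_mul]
  ring

/-- (ii) `q2_rel` at `y = -p` (`T (-p) = - T p`): `z = 2 p`, `z' = 2 q`, `K z' (T y) - J z y = 0`,
`ph J (2 p) t u = 2 * ph J p t (u/2)` for tangential `u`, same in `Y`: `j' (M u u) / 2 = B u u / 4 - B' (A u) (A u) / 4`. -/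
theorem LO.hess2 [CompleteSpace X] [CompleteSpace Y] (hJ : Dual2 J C) (hK : Dual2 K C')
    (hT : HI T S) (hodd : ∀ x, T (-x) = - T x) (h : LO J K T JU KU p t j j' A B B' M) {u : XU X}
    (hu : j u = 0) : j' (M u u) / 2 = B u u / 4 - B' (A u) (A u) / 4 := by
  obtain ⟨v, hv, rfl, hv0⟩ := h.rep hJ hu
  obtain ⟨R, hR⟩ := id hv
  have hR0 : 0 ≤ R := (norm_nonneg _).trans (hR 0)
  obtain ⟨C1, t1, hC1, ht1, hq⟩ := q2_rel hJ hK hT (c := 1) (R := R) one_pos hR0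
  have key : ∀ n, t n ≤ t1 → |K (T (p n)) (Eq2 T (p n) (t n) (v n))
      - (2 * ph J (p n) (t n) ((1 / 2 : ℝ) • v n)
        - 2 * ph K (T (p n)) (t n) ((1 / 2 : ℝ) • fderiv ℝ T (p n) (v n)))| ≤ C1 * t n := by
    intro n hn
    have e1 : p n - -p n = (2 : ℝ) • p n := by module
    have e2 : T (p n) - T (-p n) = (2 : ℝ) • T (p n) := by
      rw [hodd]
      module
    have h1 := hq (p n) (-p n) (v n) (t n) (h.hp n) (by rw [norm_neg, h.hp n]) (by
      rw [e1, norm_smul, h.hp n, Real.norm_of_nonneg two_pos.le]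
      norm_num) (hR n) (h.ht0 n) hn
    rw [e1, e2, hv0 n, zero_smul, zero_smul, sub_zero, sub_zero, hK.smul 2 two_pos,
      hJ.smul 2 two_pos, hodd, map_neg, map_neg, hK.self, hJ.self, hT.norm, sub_self, mul_zero,
      add_zero, LOB_ph2 hJ.toDual, LOB_ph2 hK.toDual] at h1
    exact h1
  have l1 := h.lj' _ (h.lEb v hv)
  rw [← h.lM2 v hv, map_smul, smul_eq_mul] at l1
  have l2 := h.lB2 _ (hv.smul (1 / 2))
  rw [uq_smul _ hv] at l2
  have hF := LOB_fd_bd hT p hv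
  have l3 := h.lB2' _ (hF.smul (1 / 2))
  rw [uq_smul _ hF, ← h.lA v hv] at l3
  have l4 := l1.sub ((l2.const_mul 2).sub (l3.const_mul 2))
  have hz : Tendsto (fun n => C1 * t n) (UU : Filter ℕ) (𝓝 (C1 * 0)) :=
    (h.ht.mono_left UU_le_atTop).const_mul C1
  rw [mul_zero] at hz
  have hev : ∀ᶠ n in (UU : Filter ℕ), t n ≤ t1 :=
    UU_le_atTop (h.ht.eventually (ge_mem_nhds ht1))
  have l5 : Tendsto (fun n => K (T (p n)) (Eq2 T (p n) (t n) (v n))
      - (2 * ph J (p n) (t n) ((1 / 2 : ℝ) • v n)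
        - 2 * ph K (T (p n)) (t n) ((1 / 2 : ℝ) • fderiv ℝ T (p n) (v n))))
      (UU : Filter ℕ) (𝓝 0) :=
    squeeze_zero_norm' (hev.mono fun n hn => by
      rw [Real.norm_eq_abs]
      exact key n hn) hz
  have l6 := tendsto_nhds_unique l4 l5
  simp only [map_smul, ContinuousLinearMap.smul_apply, smul_eq_mul] at l6
  linarith

/-- (i) and (ii), polarization; radial directions by `LO.radial` (and the analogous computation for `B'`:
`B' (uq (T ∘ p)) = 0`, `A (uq p) = uq (T ∘ p)` by `fd_self`). -/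
theorem LO.hess [CompleteSpace X] [CompleteSpace Y] (hJ : Dual2 J C) (hK : Dual2 K C')
    (hT : HI T S) (hodd : ∀ x, T (-x) = - T x) (h : LO J K T JU KU p t j j' A B B' M)
    (u v : XU X) : B' (A u) (A v) = B u v ∧ j' (M u v) = 0 := by
  -- diagonal
  have hd : ∀ w : XU X, j w = 0 → B' (A w) (A w) = B w w ∧ j' (M w w) = 0 := by
    intro w hw
    have h1 := h.hess1 hJ hK hT hw
    have h2 := h.hess2 hJ hK hT hodd hw
    constructor <;> linarith
  -- polarization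
  have ht : ∀ w z : XU X, j w = 0 → j z = 0 → B' (A w) (A z) = B w z ∧ j' (M w z) = 0 := by
    intro w z hw hz
    have h1 := hd w hw
    have h2 := hd z hz
    have h3 := hd (w + z) (by rw [map_add, hw, hz, add_zero])
    simp only [map_add, ContinuousLinearMap.add_apply] at h3
    have s1 := h.Bs' (A z) (A w)
    have s2 := h.Bs z w
    have s3 := h.Ms z w
    rw [s1, s2, s3] at h3
    constructor
    · linarith [h3.1, h1.1, h2.1]
    · linarith [h3.2, h1.2, h2.2]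
  -- radial direction
  have hpB : Bd p := ⟨1, fun n => (h.hp n).le⟩
  have hTp : Bd (fun n => T (p n)) := ⟨1, fun n => by rw [hT.norm, h.hp n]⟩
  have hAe : A (uq p) = uq (fun n => T (p n)) := by
    rw [h.lA p hpB]
    congr 1
    funext n
    refine fd_self hJ.toU hK.toU hT ?_
    intro h0
    have := h.hp n
    rw [h0, norm_zero] at this
    exact zero_ne_one this
  have hB'e : ∀ w : XU Y, B' (uq fun n => T (p n)) w = 0 := by
    intro w
    obtain ⟨y, hy, rfl⟩ := exists_rep w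
    have l1 := h.lB' _ y hTp hy
    refine tendsto_nhds_unique l1 (tendsto_const_nhds.congr fun n => ?_)
    unfold bq
    have e1 : T (p n) + t n • T (p n) = (1 + t n) • T (p n) := by module
    rw [e1, hK.smul (1 + t n) (by linarith [h.ht0 n]), sub_self, mul_zero]
  obtain ⟨-, -, hje⟩ := h.radial hJ hK hT 0
  have hBe : ∀ w, B (uq p) w = 0 := fun w => (h.radial hJ hK hT w).1
  have hMe : ∀ w, M (uq p) w = 0 := fun w => (h.radial hJ hK hT w).2.1
  have hBe' : ∀ w, B w (uq p) = 0 := fun w => by rw [h.Bs, hBe]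
  have hMe' : ∀ w, M w (uq p) = 0 := fun w => by rw [h.Ms, hMe]
  have hB'e' : ∀ w, B' w (uq fun n => T (p n)) = 0 := fun w => by rw [h.Bs', hB'e]
  have hdec : ∀ w : XU X, ∃ w0 : XU X, j w0 = 0 ∧ w = w0 + j w • uq p := by
    intro w
    refine ⟨w - j w • uq p, ?_, by abel⟩
    rw [map_sub, map_smul, hje, smul_eq_mul, mul_one, sub_self]
  obtain ⟨u0, hu0, hu⟩ := hdec u
  obtain ⟨v0, hv0, hv⟩ := hdec v
  have h0 := ht u0 v0 hu0 hv0
  rw [hu, hv]
  simp only [map_add, map_smul, ContinuousLinearMap.add_apply, ContinuousLinearMap.smul_apply,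
    hAe, hB'e, hB'e', hBe, hBe', hMe, hMe', smul_zero, add_zero, map_zero]
  exact h0

/-- **Uniform Hessian invariance** (by contradiction: sequences `y n`, `t n → 0`, `u n`, `v n`, `exists_LO`, `LO.hess`:
`t⁻¹ (J (y + t u) v - J y v) → B u v` and `t⁻¹ (K (T (y + t u)) - K (T y)) (fderiv T y v) → B' (A u) (A v)` because
`T (y + t u) = T y + t (fderiv T y u) + O(t^2)`). -/
theorem uhi [CompleteSpace X] [CompleteSpace Y] (hJ : Dual2 J C) (hK : Dual2 K C')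
    (hT : HI T S) (hX : AQ X) (hY : AQ Y) (hodd : ∀ x, T (-x) = - T x) {η : ℝ} (hη : 0 < η) :
    ∃ t₀ : ℝ, 0 < t₀ ∧ ∀ t : ℝ, 0 < t → t < t₀ → ∀ y u v : X, ‖y‖ = 1 → ‖u‖ ≤ 1 → ‖v‖ ≤ 1 →
      |J (y + t • u) v - J y v - (K (T (y + t • u)) - K (T y)) (fderiv ℝ T y v)| ≤ η * t := by
  by_contra hcon
  push Not at hcon
  have hs : ∀ n : ℕ, ∃ t : ℝ, 0 < t ∧ t < 1 / ((n : ℝ) + 1) ∧ ∃ y u v : X, ‖y‖ = 1 ∧
      ‖u‖ ≤ 1 ∧ ‖v‖ ≤ 1 ∧
      η * t < |J (y + t • u) v - J y v - (K (T (y + t • u)) - K (T y)) (fderiv ℝ T y v)| :=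
    fun n => hcon (1 / ((n : ℝ) + 1)) Nat.one_div_pos_of_nat
  choose t ht0 ht1 y u v hy hu hv hlt using hs
  have ht : Tendsto t atTop (𝓝 0) :=
    squeeze_zero (fun n => (ht0 n).le) (fun n => (ht1 n).le)
      tendsto_one_div_add_atTop_nhds_zero_nat
  obtain ⟨JU, KU, j, j', A, B, B', M, h⟩ := exists_LO hJ hK hT hX hY hy ht0 ht
  have hub : Bd u := ⟨1, hu⟩
  have hvb : Bd v := ⟨1, hv⟩
  have l1 := h.lB u v hub hvb
  have l2 := h.lB' _ _ (LOB_F_bd hT y ht0 hub) (LOB_fd_bd hT y hvb)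
  rw [LOB_F_uq hT h hub, ← h.lA v hvb, (h.hess hJ hK hT hodd _ _).1] at l2
  have l3 := (l1.sub l2).abs
  rw [sub_self, abs_zero] at l3
  have l4 : η ≤ 0 := by
    refine ge_of_tendsto l3 (Eventually.of_forall fun n => ?_)
    have e1 : bq J (y n) (t n) (u n) (v n) -
        bq K (T (y n)) (t n) (LOB_F T (y n) (t n) (u n)) (fderiv ℝ T (y n) (v n)) =
        (t n)⁻¹ * (J (y n + t n • u n) (v n) - J (y n) (v n) -
          (K (T (y n + t n • u n)) - K (T (y n))) (fderiv ℝ T (y n) (v n))) := by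
      unfold bq
      rw [LOB_F_add T (y n) (ht0 n)]
      simp only [ContinuousLinearMap.sub_apply]
      ring
    rw [e1, abs_mul, abs_of_pos (inv_pos.2 (ht0 n))]
    have h5 := hlt n
    have h6 := mul_lt_mul_of_pos_left h5 (inv_pos.2 (ht0 n))
    have h7 : (t n)⁻¹ * (η * t n) = η := by
      have := (ht0 n).ne'
      field_simp
    rw [h7] at h6
    exact h6.le
  linarith

end P084GII
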