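
import Vale.Agent.Lib.P084G.II.LOB

/-! Part II, case C: associativity. -/

open Filter Topology

namespace P084GII

open P084G

variable {X Y : Type*} [NormedAddCommGroup X] [NormedSpace ℝ X] [NormedAddCommGroup Y]
  [NormedSpace ℝ Y] {J : X → X →L[ℝ] ℝ} {K : Y → Y →L[ℝ] ℝ} {T : X → Y} {S : Y → X} {C C' : ℝ}
  {JU : XU X → XU X →L[ℝ] ℝ} {KU : XU Y → XU Y →L[ℝ] ℝ} {p : ℕ → X} {t : ℕ → ℝ}
  {j : XU X →L[ℝ] ℝ} {j' : XU Y →L[ℝ] ℝ} {A : XU X →L[ℝ] XU Y}
  {B : XU X →L[ℝ] XU X →L[ℝ] ℝ} {B' : XU Y →L[ℝ] XU Y →L[ℝ] ℝ}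
  {M : XU X →L[ℝ] XU X →L[ℝ] XU Y}

/-- a function whose derivative is the linear function `u ↦ β u`, with quadratic error: `β` is symmetric.
(Subdivide: `f (u + h) - f u = β u h + β h h / 2` exactly; then `f h - f 0 = β h h / 2`.) -/
theorem sym_of_deriv {Z : Type*} [NormedAddCommGroup Z] [NormedSpace ℝ Z] (f : Z → ℝ)
    (β : Z →ₗ[ℝ] Z →ₗ[ℝ] ℝ) (c : ℝ)
    (hf : ∀ u h, |f (u + h) - f u - β u h| ≤ c * ‖h‖ ^ 2) (u h : Z) : β u h = β h u := by
  -- exact formula
  have key : ∀ u h : Z, f (u + h) - f u - β u h - β h h / 2 = 0 := by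
    intro u h
    obtain ⟨Q, hQ⟩ : ∃ Q : ℝ, Q = c * ‖h‖ ^ 2 + |β h h| / 2 := ⟨_, rfl⟩
    have step : ∀ n : ℕ, ∀ (u : Z) (s : ℝ),
        |f (u + s • h) - f u - β u (s • h) - β (s • h) (s • h) / 2| ≤ s ^ 2 * Q / 2 ^ n := by
      intro n
      induction n with
      | zero =>
        intro u s
        have h1 := hf u (s • h)
        have h2 : |β (s • h) (s • h) / 2| = s ^ 2 * (|β h h| / 2) := by
          rw [map_smul, map_smul, LinearMap.smul_apply, smul_eq_mul, smul_eq_mul, abs_div, abs_mul,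
            abs_mul, abs_of_pos (show (0 : ℝ) < 2 by norm_num), ← mul_assoc, ← abs_mul,
            abs_mul_self]
          ring
        have h3 : ‖s • h‖ ^ 2 = s ^ 2 * ‖h‖ ^ 2 := by
          rw [norm_smul, mul_pow, Real.norm_eq_abs, sq_abs]
        rw [h3] at h1
        have h4 := abs_sub (f (u + s • h) - f u - β u (s • h)) (β (s • h) (s • h) / 2)
        rw [pow_zero, div_one, hQ]
        rw [h2] at h4
        nlinarith
      | succ n ih =>
        intro u s
        have a1 := ih u (s / 2)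
        have a2 := ih (u + (s / 2) • h) (s / 2)
        have e : f (u + s • h) - f u - β u (s • h) - β (s • h) (s • h) / 2 =
            (f (u + (s / 2) • h) - f u - β u ((s / 2) • h) -
              β ((s / 2) • h) ((s / 2) • h) / 2) +
            (f (u + (s / 2) • h + (s / 2) • h) - f (u + (s / 2) • h) -
              β (u + (s / 2) • h) ((s / 2) • h) - β ((s / 2) • h) ((s / 2) • h) / 2) := by
          have e1 : u + (s / 2) • h + (s / 2) • h = u + s • h := by
            rw [add_assoc, ← add_smul, add_halves]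
          rw [e1]
          simp only [map_smul, map_add, LinearMap.smul_apply, LinearMap.add_apply, smul_eq_mul]
          ring
        rw [e]
        refine (abs_add_le _ _).trans ((add_le_add a1 a2).trans (le_of_eq ?_))
        rw [pow_succ]
        field_simp
        ring
    have h5 : |f (u + h) - f u - β u h - β h h / 2| ≤ 0 := by
      have h6 : Tendsto (fun n : ℕ => Q / 2 ^ n) atTop (𝓝 0) :=
        tendsto_const_nhds.div_atTop (tendsto_pow_atTop_atTop_of_one_lt (by norm_num))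
      refine ge_of_tendsto' h6 fun n => ?_
      have h7 := step n u 1
      rw [one_smul, one_pow, one_mul] at h7
      exact h7
    exact abs_nonpos_iff.1 h5
  have k1 := key u h
  have k2 := key 0 (u + h)
  have k3 := key 0 u
  rw [zero_add] at k2 k3
  simp only [map_zero, map_add, LinearMap.zero_apply, LinearMap.add_apply] at k2 k3
  linarith

/-- mean value inequality without differentiability: if locally (to the right of every `s ∈ [0,1)`)
`|χ s' - χ s| ≤ (c + ε) (s' - s)` for every `ε > 0`, and `χ` is continuous, then `|χ 1 - χ 0| ≤ c`.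
(`image_norm_le_of_liminf_right_slope_norm_lt_deriv_boundary` or a direct supremum argument.) -/
theorem mvi (χ : ℝ → ℝ) (hχ : ContinuousOn χ (Set.Icc 0 1)) (c : ℝ)
    (h : ∀ s, 0 ≤ s → s < 1 → ∀ ε : ℝ, 0 < ε → ∃ δ : ℝ, 0 < δ ∧ ∀ s', s < s' → s' < s + δ →
      s' ≤ 1 → |χ s' - χ s| ≤ (c + ε) * (s' - s)) : |χ 1 - χ 0| ≤ c := by
  have main : ∀ σ : ℝ, |σ| = 1 → σ * (χ 1 - χ 0) ≤ c := by
    intro σ hσ
    have h1 : ∀ x ∈ Set.Icc (0 : ℝ) 1, σ * (χ x - χ 0) ≤ c * x := by
      refine image_le_of_liminf_slope_right_le_deriv_boundary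
        (f := fun x => σ * (χ x - χ 0)) (B := fun x => c * x) (B' := fun _ => c)
        (continuousOn_const.mul (hχ.sub continuousOn_const)) (by simp) (by fun_prop) ?_ ?_
      · intro x _
        have := ((hasDerivAt_id x).const_mul c).hasDerivWithinAt (s := Set.Ici x)
        simpa using this
      · intro x hx r hr
        obtain ⟨δ, hδ, hh⟩ := h x hx.1 hx.2 ((r - c) / 2) (by linarith)
        refine Eventually.frequently ?_
        have hmem : Set.Ioo x (min (x + δ) 1) ∈ 𝓝[>] x :=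
          Ioo_mem_nhdsGT (lt_min (by linarith) hx.2)
        filter_upwards [hmem] with z hz
        have h2 := hh z hz.1 (hz.2.trans_le (min_le_left _ _)) (hz.2.trans_le (min_le_right _ _)).le
        have hz0 : 0 < z - x := sub_pos.2 hz.1
        rw [slope_def_field, div_lt_iff₀ hz0]
        have h3 : σ * (χ z - χ 0) - σ * (χ x - χ 0) ≤ |χ z - χ x| := by
          have : σ * (χ z - χ 0) - σ * (χ x - χ 0) = σ * (χ z - χ x) := by ring
          rw [this]
          refine (le_abs_self _).trans (le_of_eq ?_)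
          rw [abs_mul, hσ, one_mul]
        have h4 : (c + (r - c) / 2) * (z - x) < r * (z - x) :=
          mul_lt_mul_of_pos_right (by linarith) hz0
        linarith
    have h2 := h1 1 (by simp)
    linarith
  rw [abs_le]
  have m1 := main 1 (by simp)
  have m2 := main (-1) (by simp)
  constructor <;> linarith

/-- `K ∘ T` is Lipschitz away from zero -/
theorem LOC_K (hK : Dual2 K C') (hT : HI T S) {y : X} (hy : 1 / 2 ≤ ‖y‖) (y' : X) :
    ‖K (T y') - K (T y)‖ ≤ 6 * C' * ‖y' - y‖ := by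
  have hC' := hK.nonneg
  have h0 : T y ≠ 0 := by
    intro h0
    have := hT.norm y
    rw [h0, norm_zero] at this
    linarith
  have h1 := hK.lip' h0 (T y')
  have h2 := hT.lip y y'
  rw [hT.norm] at h1
  rw [norm_sub_rev, norm_sub_rev y' y]
  refine h1.trans ?_
  rw [div_le_iff₀ (by linarith)]
  have h3 : 0 ≤ C' * ‖y - y'‖ := mul_nonneg hC' (norm_nonneg _)
  have h4 : C' * ‖T y - T y'‖ ≤ C' * (3 * ‖y - y'‖) := mul_le_mul_of_nonneg_left h2 hC'
  nlinarith

theorem LOC_fd [CompleteSpace Y] (hJ : Dual2 J C) (hK : Dual2 K C')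
    (hT : HI T S) {L : ℝ} (hL0 : 0 ≤ L)
    (hL : ∀ x y : X, ‖x‖ = 1 → ‖fderiv ℝ T x - fderiv ℝ T y‖ ≤ L * ‖x - y‖)
    {x : X} (hx : 1 / 2 ≤ ‖x‖) (y : X) :
    ‖fderiv ℝ T x - fderiv ℝ T y‖ ≤ 2 * L * ‖x - y‖ := by
  have hx0 : 0 < ‖x‖ := by linarith
  have hxi : ‖x‖⁻¹ ≤ 2 := by
    rw [inv_le_comm₀ hx0 (by norm_num)]
    linarith
  have hs : ∀ z : X, fderiv ℝ T (‖x‖⁻¹ • z) = fderiv ℝ T z := by
    intro z
    rcases eq_or_ne z 0 with rfl | hz
    · rw [smul_zero]
    · exact fd_smul hJ.toU hK.toU hT hz (inv_pos.2 hx0)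
  have h1 := hL (‖x‖⁻¹ • x) (‖x‖⁻¹ • y)
    (by rw [norm_smul, norm_inv, norm_norm, inv_mul_cancel₀ hx0.ne'])
  rw [hs, hs, ← smul_sub, norm_smul, norm_inv, norm_norm] at h1
  refine h1.trans ?_
  have h2 : ‖x‖⁻¹ * ‖x - y‖ ≤ 2 * ‖x - y‖ := mul_le_mul_of_nonneg_right hxi (norm_nonneg _)
  have h3 := mul_le_mul_of_nonneg_left h2 hL0
  linarith

theorem LOC_near {p z : X} {r : ℝ} (hp : ‖p‖ = 1) (hz : ‖z‖ ≤ r) (hr : r ≤ 1 / 2) :
    1 / 2 ≤ ‖p + z‖ := by
  have h1 : ‖p‖ ≤ ‖p + z‖ + ‖z‖ := by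
    have := norm_sub_le (p + z) z
    rwa [add_sub_cancel_right] at this
  linarith

/-- one step estimate with a constant independent of the radius -/
theorem LOC_step [CompleteSpace X] [CompleteSpace Y] (hJ : Dual2 J C) (hK : Dual2 K C')
    (hT : HI T S) (hX : AQ X) (hY : AQ Y) (hodd : ∀ x, T (-x) = - T x) :
    ∃ C1 : ℝ, 0 ≤ C1 ∧ ∀ (R : ℝ) (p u h v : X) (t : ℝ), 0 < R → ‖p‖ = 1 → ‖u‖ ≤ R →
      ‖h‖ ≤ R → 0 < t → t ≤ 1 / (4 * R) →
      |(J (p + t • (u + h)) v - K (T (p + t • (u + h))) (fderiv ℝ T p v))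
        - (J (p + t • u) v - K (T (p + t • u)) (fderiv ℝ T p v))
        - (K (T (p + t • (u + h))) - K (T (p + t • u)))
            (fderiv ℝ T (p + t • u) v - fderiv ℝ T p v)| ≤ C1 * t ^ 2 * ‖h‖ ^ 2 * ‖v‖ := by
  obtain ⟨L, hL0, hL⟩ := fd_lip hJ hK hT
  have hC' := hK.nonneg
  refine ⟨12 * C' * L, by positivity, fun R p u h v t hR hp hu hh ht ht1 => ?_⟩
  have htR : t * R ≤ 1 / 4 := by
    rw [le_div_iff₀ (by positivity)] at ht1
    linarith
  obtain ⟨y, hy⟩ : ∃ y : ℝ → X, y = fun s => p + (t • u + (s * t) • h) := ⟨_, rfl⟩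
  have hys : ∀ s, y s = p + (t • u + (s * t) • h) := fun s => by rw [hy]
  obtain ⟨W, hW⟩ : ∃ W : Y, W = fderiv ℝ T (y 0) v := ⟨_, rfl⟩
  have e0 : y 0 = p + t • u := by rw [hys]; simp
  have e1 : y 1 = p + t • (u + h) := by rw [hys, one_mul, smul_add]
  have hn : ∀ s, 0 ≤ s → s ≤ 1 → 1 / 2 ≤ ‖y s‖ := by
    intro s hs0 hs1
    rw [hys]
    refine LOC_near hp (r := t * R + t * R) ?_ (by linarith)
    refine (norm_add_le _ _).trans (add_le_add ?_ ?_)
    · rw [norm_smul, Real.norm_of_nonneg ht.le]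
      exact mul_le_mul_of_nonneg_left hu ht.le
    · rw [norm_smul, Real.norm_of_nonneg (by positivity)]
      have : s * t ≤ t := by nlinarith
      exact mul_le_mul this hh (norm_nonneg _) ht.le
  have hyd : ∀ s s', y s' - y s = ((s' - s) * t) • h := by
    intro s s'
    rw [hys, hys, sub_mul, sub_smul]
    abel
  have hyc : Continuous y := by
    rw [hy]
    fun_prop
  have hTc : Continuous T := by
    have h1 : LipschitzWith 3 T := LipschitzWith.of_dist_le_mul fun x y => by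
      rw [dist_eq_norm, dist_eq_norm]
      simpa using hT.lip x y
    exact h1.continuous
  have hcont : ContinuousOn (fun s => J (y s) v - K (T (y s)) W) (Set.Icc 0 1) := by
    intro s hs
    have hne : y s ≠ 0 := by
      intro h0
      have := hn s hs.1 hs.2
      rw [h0, norm_zero] at this
      linarith
    have c1 : ContinuousAt (fun s => J (y s)) s :=
      ContinuousAt.comp (f := y) (g := J) (hJ.toU.continuousAt hne) hyc.continuousAt
    have c2 : ContinuousAt (fun s => K (T (y s))) s :=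
      ContinuousAt.comp (f := fun s => T (y s)) (g := K)
        (hK.toU.continuousAt (diff_ne hT hne)) (hTc.comp hyc).continuousAt
    exact ((c1.clm_apply continuousAt_const).sub
      (c2.clm_apply continuousAt_const)).continuousWithinAt
  have hmain := mvi (fun s => J (y s) v - K (T (y s)) W) hcont
    (12 * C' * L * t ^ 2 * ‖h‖ ^ 2 * ‖v‖) ?_
  · refine le_trans (le_of_eq ?_) hmain
    beta_reduce
    rw [hW, e0, e1]
    congr 1
    rw [map_sub, sub_apply, sub_apply]
    ring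
  · intro s hs0 hs1 ε hε
    have hN : 0 < ‖v‖ + 1 := by positivity
    have hη : 0 < ε / ((‖v‖ + 1) * (2 * t * R)) := by positivity
    obtain ⟨t₀, ht₀, huhi⟩ := uhi hJ hK hT hX hY hodd hη
    refine ⟨t₀ / (2 * t * R), by positivity, fun s' hss' hs' hs'1 => ?_⟩
    have hd : 0 < s' - s := sub_pos.2 hss'
    have hr := hn s hs0 hs1.le
    have hr0 : 0 < ‖y s‖ := by linarith
    have hri : ‖y s‖⁻¹ ≤ 2 := by
      rw [inv_le_comm₀ hr0 (by norm_num)]
      linarith
    obtain ⟨r, hrdef⟩ : ∃ r : ℝ, r = ‖y s‖⁻¹ := ⟨_, rfl⟩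
    rw [← hrdef] at hri
    have hrp : 0 < r := by rw [hrdef]; exact inv_pos.2 hr0
    have hτ0 : 0 < r * ((s' - s) * t) * R := by positivity
    have hτle : r * ((s' - s) * t) * R ≤ (s' - s) * (2 * t * R) := by
      have : r * ((s' - s) * t * R) ≤ 2 * ((s' - s) * t * R) :=
        mul_le_mul_of_nonneg_right hri (by positivity)
      linarith
    have hτ1 : r * ((s' - s) * t) * R < t₀ := by
      refine hτle.trans_lt ?_
      rw [← lt_div_iff₀ (by positivity)]
      linarith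
    have key := huhi (r * ((s' - s) * t) * R) hτ0 hτ1 (r • y s) (R⁻¹ • h) ((‖v‖ + 1)⁻¹ • v)
      (by rw [hrdef, norm_smul, norm_inv, norm_norm, inv_mul_cancel₀ hr0.ne'])
      (by rw [norm_smul, norm_inv, Real.norm_of_nonneg hR.le, inv_mul_le_iff₀ hR, mul_one]
          exact hh)
      (by rw [norm_smul, norm_inv, Real.norm_of_nonneg hN.le, inv_mul_le_iff₀ hN]
          linarith)
    have e2 : r • y s + (r * ((s' - s) * t) * R) • (R⁻¹ • h) = r • y s' := by
      have : y s' = y s + ((s' - s) * t) • h := by rw [← hyd]; abel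
      rw [this, smul_add, smul_smul, smul_smul, mul_assoc _ R, mul_inv_cancel₀ hR.ne', mul_one]
    have hys0 : y s ≠ 0 := norm_pos_iff.1 hr0
    rw [e2, hJ.smul r hrp, hJ.smul r hrp, hT.smul r hrp.le, hT.smul r hrp.le, hK.smul r hrp,
      hK.smul r hrp, fd_smul hJ.toU hK.toU hT hys0 hrp, map_smul, map_smul, map_smul, map_smul]
      at key
    have key2 : |J (y s') v - J (y s) v - (K (T (y s')) - K (T (y s))) (fderiv ℝ T (y s) v)| ≤
        ε * (s' - s) := by
      have e3 : (‖v‖ + 1)⁻¹ • J (y s') v - (‖v‖ + 1)⁻¹ • J (y s) v -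
          (‖v‖ + 1)⁻¹ • (K (T (y s')) - K (T (y s))) (fderiv ℝ T (y s) v) =
          (‖v‖ + 1)⁻¹ * (J (y s') v - J (y s) v -
            (K (T (y s')) - K (T (y s))) (fderiv ℝ T (y s) v)) := by
        simp only [smul_eq_mul]
        ring
      rw [e3, abs_mul, abs_of_pos (inv_pos.2 hN), inv_mul_le_iff₀ hN] at key
      refine key.trans ?_
      have h5 : ε / ((‖v‖ + 1) * (2 * t * R)) * (r * ((s' - s) * t) * R) ≤
          ε / ((‖v‖ + 1) * (2 * t * R)) * ((s' - s) * (2 * t * R)) :=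
        mul_le_mul_of_nonneg_left hτle hη.le
      refine (mul_le_mul_of_nonneg_left h5 hN.le).trans (le_of_eq ?_)
      field_simp
    have key3 : |(K (T (y s')) - K (T (y s))) (fderiv ℝ T (y s) v - W)| ≤
        12 * C' * L * t ^ 2 * ‖h‖ ^ 2 * ‖v‖ * (s' - s) := by
      have a1 := LOC_K hK hT hr (y s')
      have a2 := LOC_fd hJ hK hT hL0 hL hr (y 0)
      rw [hyd] at a1 a2
      rw [norm_smul, Real.norm_of_nonneg (by positivity)] at a1
      rw [norm_smul, Real.norm_of_nonneg (by rw [sub_zero]; positivity), sub_zero] at a2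
      have a3 : ‖fderiv ℝ T (y s) v - W‖ ≤ 2 * L * (s * t * ‖h‖) * ‖v‖ := by
        rw [hW]
        exact ((fderiv ℝ T (y s) - fderiv ℝ T (y 0)).le_opNorm v).trans
          (mul_le_mul_of_nonneg_right a2 (norm_nonneg v))
      have a4 := (K (T (y s')) - K (T (y s))).le_opNorm (fderiv ℝ T (y s) v - W)
      rw [Real.norm_eq_abs] at a4
      refine a4.trans ((mul_le_mul a1 a3 (norm_nonneg _) (by positivity)).trans ?_)
      have a5 : 6 * C' * ((s' - s) * t * ‖h‖) * (2 * L * (s * t * ‖h‖) * ‖v‖) =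
          s * (12 * C' * L * t ^ 2 * ‖h‖ ^ 2 * ‖v‖ * (s' - s)) := by ring
      rw [a5]
      exact mul_le_of_le_one_left (by positivity) hs1.le
    beta_reduce
    have e4 : J (y s') v - K (T (y s')) W - (J (y s) v - K (T (y s)) W) =
        (J (y s') v - J (y s) v - (K (T (y s')) - K (T (y s))) (fderiv ℝ T (y s) v)) +
        (K (T (y s')) - K (T (y s))) (fderiv ℝ T (y s) v - W) := by
      rw [map_sub, sub_apply, sub_apply]
      ring
    rw [e4]
    refine (abs_add_le _ _).trans ?_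
    linarith

/-- **One step estimate.**  `F y = J y v - K (T y) (fderiv T p v)`, `y s = p + t u + s t h`, `D s = fderiv T (y s) v - fderiv T p v`,
`χ s = F (y s) - K (T (y s)) (D 0)`.  For `s < s'`:
`χ s' - χ s = {J y' v - J y v - (K (T y') - K (T y)) (fderiv T y v)} + (K (T y') - K (T y)) (D s - D 0)`, first term `o(s' - s)` by
`uhi` (at `y/‖y‖`, homogeneity), `‖D s - D 0‖ ≤ L t ‖h‖ ‖v‖` (`fd_lip`), `‖K (T y') - K (T y)‖ ≤ 6 C' t (s' - s) ‖h‖`.  `mvi`. -/
theorem as_step [CompleteSpace X] [CompleteSpace Y] (hJ : Dual2 J C) (hK : Dual2 K C')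
    (hT : HI T S) (hX : AQ X) (hY : AQ Y) (hodd : ∀ x, T (-x) = - T x) {R : ℝ} (hR : 0 < R) :
    ∃ C1 t1 : ℝ, 0 ≤ C1 ∧ 0 < t1 ∧ ∀ (p u h v : X) (t : ℝ), ‖p‖ = 1 → ‖u‖ ≤ R → ‖h‖ ≤ R →
      0 < t → t ≤ t1 →
      |(J (p + t • (u + h)) v - K (T (p + t • (u + h))) (fderiv ℝ T p v))
        - (J (p + t • u) v - K (T (p + t • u)) (fderiv ℝ T p v))
        - (K (T (p + t • (u + h))) - K (T (p + t • u)))
            (fderiv ℝ T (p + t • u) v - fderiv ℝ T p v)| ≤ C1 * t ^ 2 * ‖h‖ ^ 2 * ‖v‖ := by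
  obtain ⟨C1, hC1, h1⟩ := LOC_step hJ hK hT hX hY hodd
  exact ⟨C1, 1 / (4 * R), hC1, by positivity, fun p u h v t hp hu hh ht ht1 =>
    h1 R p u h v t hR hp hu hh ht ht1⟩

/-- **Associativity.**  For a bounded sequence `v`: `f ξ = lim t⁻² F (p + t u)`, `ξ = uq u` (`ufun_real`; `F p = 0`, bounds from `as_step`),
`|f (ξ + η) - f ξ - B' (A η) (M ξ (uq v))| ≤ C1 ‖η‖^2 ‖v‖`: limit of `t⁻² as_step`, where
`t⁻¹ (K (T (p + t u)) - K (T p)) (y n) → B' (A (uq u)) (uq y)` (`T (p + t u) = T p + t fderiv T p u + O(t^2)`).  To have global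
bounds in `ufun_real` put `F = 0` for the finitely many `n` with large `t n` or cut off.  `sym_of_deriv`. -/
theorem LO.assoc [CompleteSpace X] [CompleteSpace Y] (hJ : Dual2 J C) (hK : Dual2 K C')
    (hT : HI T S) (hX : AQ X) (hY : AQ Y) (hodd : ∀ x, T (-x) = - T x)
    (h : LO J K T JU KU p t j j' A B B' M) (u v w : XU X) :
    B' (A w) (M u v) = B' (A u) (M w v) := by
  obtain ⟨vs, hvs, rfl⟩ := exists_rep v
  obtain ⟨V, hV⟩ := id hvs
  have hV0 : 0 ≤ V := (norm_nonneg _).trans (hV 0)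
  have hC' := hK.nonneg
  obtain ⟨L, hL0, hL⟩ := fd_lip hJ hK hT
  obtain ⟨C1, hC1, hstep⟩ := LOC_step hJ hK hT hX hY hodd
  have htU : Tendsto t (UU : Filter ℕ) (𝓝 0) := h.ht.mono_left UU_le_atTop
  have hsmall : ∀ r : ℝ, 0 < r → ∀ᶠ n in atTop, t n ≤ r := fun r hr =>
    h.ht.eventually_le_const hr
  -- the functions
  obtain ⟨F, hF⟩ : ∃ F : ℕ → X → ℝ, F = fun n x => (t n ^ 2)⁻¹ *
      (J (p n + t n • x) (vs n) - K (T (p n + t n • x)) (fderiv ℝ T (p n) (vs n))) := ⟨_, rfl⟩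
  obtain ⟨G, hG⟩ : ∃ G : ℕ → X → X → ℝ, G = fun n x y => (t n ^ 2)⁻¹ *
      ((K (T (p n + t n • (x + y))) - K (T (p n + t n • x)))
        (fderiv ℝ T (p n + t n • x) (vs n) - fderiv ℝ T (p n) (vs n))) := ⟨_, rfl⟩
  have hp0 : ∀ n, p n ≠ 0 := fun n h0 => by
    have := h.hp n
    rw [h0, norm_zero] at this
    exact zero_ne_one this
  have hF0 : ∀ n, F n 0 = 0 := fun n => by
    rw [hF]
    beta_reduce
    rw [smul_zero, add_zero, fd_K hJ.toU hK.toU hT (hp0 n), sub_self, mul_zero]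
  have hG0 : ∀ n y, G n 0 y = 0 := fun n y => by
    rw [hG]
    beta_reduce
    rw [smul_zero, add_zero, sub_self, map_zero, mul_zero]
  have hFG : ∀ (R : ℝ) (n : ℕ) (x y : X), 0 < R → ‖x‖ ≤ R → ‖y‖ ≤ R → t n ≤ 1 / (4 * R) →
      |F n (x + y) - F n x - G n x y| ≤ C1 * V * ‖y‖ ^ 2 := by
    intro R n x y hR hx hy ht1
    have ht := h.ht0 n
    have h1 := hstep R (p n) x y (vs n) (t n) hR (h.hp n) hx hy ht ht1
    have e : F n (x + y) - F n x - G n x y = (t n ^ 2)⁻¹ *
      ((J (p n + t n • (x + y)) (vs n) -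
          K (T (p n + t n • (x + y))) (fderiv ℝ T (p n) (vs n)))
        - (J (p n + t n • x) (vs n) - K (T (p n + t n • x)) (fderiv ℝ T (p n) (vs n)))
        - (K (T (p n + t n • (x + y))) - K (T (p n + t n • x)))
            (fderiv ℝ T (p n + t n • x) (vs n) - fderiv ℝ T (p n) (vs n))) := by
      rw [hF, hG]
      beta_reduce
      ring
    rw [e, abs_mul, abs_of_pos (by positivity : (0 : ℝ) < (t n ^ 2)⁻¹),
      inv_mul_le_iff₀ (by positivity)]
    refine h1.trans ?_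
    have h2 := hV n
    have h3 : C1 * t n ^ 2 * ‖y‖ ^ 2 * ‖vs n‖ ≤ C1 * t n ^ 2 * ‖y‖ ^ 2 * V :=
      mul_le_mul_of_nonneg_left h2 (by positivity)
    linarith
  have hGb : ∀ (R : ℝ) (n : ℕ) (x y : X), 0 < R → ‖x‖ ≤ R → t n ≤ 1 / (4 * R) →
      |G n x y| ≤ 6 * C' * L * V * R * ‖y‖ := by
    intro R n x y hR hx ht1
    have ht := h.ht0 n
    have htx : ‖t n • x‖ ≤ t n * R := by
      rw [norm_smul, Real.norm_of_nonneg ht.le]
      exact mul_le_mul_of_nonneg_left hx ht.le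
    have htR : t n * R ≤ 1 / 2 := by
      rw [le_div_iff₀ (by positivity)] at ht1
      linarith
    have hn := LOC_near (h.hp n) htx htR
    have a1 := LOC_K hK hT hn (p n + t n • (x + y))
    have e1 : p n + t n • (x + y) - (p n + t n • x) = t n • y := by
      rw [smul_add]
      abel
    rw [e1, norm_smul, Real.norm_of_nonneg ht.le] at a1
    have a2 := hL (p n) (p n + t n • x) (h.hp n)
    rw [sub_add_cancel_left, norm_neg, norm_sub_rev] at a2
    have a3 : ‖fderiv ℝ T (p n + t n • x) (vs n) - fderiv ℝ T (p n) (vs n)‖ ≤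
        L * (t n * R) * V := by
      refine ((fderiv ℝ T (p n + t n • x) - fderiv ℝ T (p n)).le_opNorm (vs n)).trans ?_
      exact mul_le_mul (a2.trans (mul_le_mul_of_nonneg_left htx hL0)) (hV n) (norm_nonneg _)
        (by positivity)
    rw [hG]
    beta_reduce
    rw [abs_mul, abs_of_pos (by positivity : (0 : ℝ) < (t n ^ 2)⁻¹),
      inv_mul_le_iff₀ (by positivity)]
    have a4 := (K (T (p n + t n • (x + y))) - K (T (p n + t n • x))).le_opNorm
      (fderiv ℝ T (p n + t n • x) (vs n) - fderiv ℝ T (p n) (vs n))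
    rw [Real.norm_eq_abs] at a4
    refine a4.trans ((mul_le_mul a1 a3 (norm_nonneg _) (by positivity)).trans (le_of_eq ?_))
    ring
  -- bounds for F
  have hb : ∀ R : ℝ, ∃ c : ℝ, ∀ n x, ‖x‖ ≤ R → |F n x| ≤ c := by
    intro R
    obtain ⟨R', hR', hRR'⟩ : ∃ R' : ℝ, 0 < R' ∧ R ≤ R' :=
      ⟨max R 1, lt_max_of_lt_right one_pos, le_max_left _ _⟩
    refine ⟨C1 * V * R' ^ 2 + (4 * R') ^ 2 * (4 * V), fun n x hx => ?_⟩
    have ht := h.ht0 n
    have hx' := hx.trans hRR'
    rcases le_or_gt (t n) (1 / (4 * R')) with h1 | h1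
    · have h2 := hFG R' n 0 x hR' (by rw [norm_zero]; exact hR'.le) hx' h1
      rw [zero_add, hF0, hG0, sub_zero, sub_zero] at h2
      have h3 : C1 * V * ‖x‖ ^ 2 ≤ C1 * V * R' ^ 2 :=
        mul_le_mul_of_nonneg_left (pow_le_pow_left₀ (norm_nonneg _) hx' 2) (by positivity)
      have h4 : 0 ≤ (4 * R') ^ 2 * (4 * V) := by positivity
      linarith
    · have h2 : (t n ^ 2)⁻¹ ≤ (4 * R') ^ 2 := by
        rw [inv_le_comm₀ (by positivity) (by positivity), ← inv_pow, ← one_div]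
        exact pow_le_pow_left₀ (by positivity) h1.le 2
      have h3 : |J (p n + t n • x) (vs n) -
          K (T (p n + t n • x)) (fderiv ℝ T (p n) (vs n))| ≤ 4 * V := by
        have b1 := (hJ.toDual.abs_le (p n + t n • x) (vs n)).trans (hV n)
        have b2 := hK.toDual.abs_le (T (p n + t n • x)) (fderiv ℝ T (p n) (vs n))
        have b3 : ‖fderiv ℝ T (p n) (vs n)‖ ≤ 3 * V :=
          ((fderiv ℝ T (p n)).le_opNorm _).trans
            (mul_le_mul (fd_norm hT _) (hV n) (norm_nonneg _) (by norm_num))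
        refine (abs_sub _ _).trans ?_
        linarith
      rw [hF]
      beta_reduce
      rw [abs_mul, abs_of_pos (by positivity : (0 : ℝ) < (t n ^ 2)⁻¹)]
      have h4 := mul_le_mul h2 h3 (abs_nonneg _) (by positivity)
      have h5 : 0 ≤ C1 * V * R' ^ 2 := by positivity
      linarith
  have hl : ∀ R : ℝ, ∃ c : ℝ, ∀ᶠ n in atTop, ∀ x x' : X, ‖x‖ ≤ R → ‖x'‖ ≤ R →
      |F n x - F n x'| ≤ c * ‖x - x'‖ := by
    intro R
    obtain ⟨R', hR', hRR'⟩ : ∃ R' : ℝ, 0 < R' ∧ R ≤ R' :=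
      ⟨max R 1, lt_max_of_lt_right one_pos, le_max_left _ _⟩
    refine ⟨C1 * V * (2 * R') + 6 * C' * L * V * (2 * R'), ?_⟩
    filter_upwards [hsmall (1 / (4 * (2 * R'))) (by positivity)] with n hn x x' hx hx'
    have hy : ‖x - x'‖ ≤ 2 * R' := (norm_sub_le _ _).trans (by linarith)
    have h1 := hFG (2 * R') n x' (x - x') (by positivity) (by linarith) hy hn
    have h2 := hGb (2 * R') n x' (x - x') (by positivity) (by linarith) hn
    rw [add_sub_cancel] at h1
    have h3 : |F n x - F n x'| ≤ |F n x - F n x' - G n x' (x - x')| + |G n x' (x - x')| := by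
      have := abs_add_le (F n x - F n x' - G n x' (x - x')) (G n x' (x - x'))
      rwa [sub_add_cancel] at this
    have h4 : C1 * V * ‖x - x'‖ ^ 2 ≤ C1 * V * (2 * R') * ‖x - x'‖ := by
      have : C1 * V * ‖x - x'‖ * ‖x - x'‖ ≤ C1 * V * ‖x - x'‖ * (2 * R') :=
        mul_le_mul_of_nonneg_left hy (by positivity)
      calc C1 * V * ‖x - x'‖ ^ 2 = C1 * V * ‖x - x'‖ * ‖x - x'‖ := by ring
        _ ≤ C1 * V * ‖x - x'‖ * (2 * R') := this
        _ = C1 * V * (2 * R') * ‖x - x'‖ := by ring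
    rw [add_mul]
    linarith
  obtain ⟨f, hf⟩ := ufun_real F hb hl
  -- the limit of the difference quotients of `K ∘ T`
  obtain ⟨L2, hL20, hL2⟩ := taylorT hJ hK hT
  have kl : ∀ (x : ℕ → X) (y : ℕ → Y), Bd x → Bd y →
      Tendsto (fun n => (t n)⁻¹ * (K (T (p n + t n • x n)) (y n) - K (T (p n)) (y n)))
        (UU : Filter ℕ) (𝓝 (B' (A (uq x)) (uq y))) := by
    intro x y hx hy
    have hAx : Bd (fun n => fderiv ℝ T (p n) (x n)) := by
      obtain ⟨c, hc⟩ := id hx
      exact ⟨3 * c, fun n => ((fderiv ℝ T (p n)).le_opNorm _).trans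
        (mul_le_mul (fd_norm hT _) (hc n) (norm_nonneg _) (by norm_num))⟩
    have h1 := h.lB' _ y hAx hy
    rw [← h.lA x hx] at h1
    obtain ⟨Rx, hRx⟩ := id hx
    obtain ⟨Ry, hRy⟩ := id hy
    have hRx0 : 0 ≤ Rx := (norm_nonneg _).trans (hRx 0)
    have hRy0 : 0 ≤ Ry := (norm_nonneg _).trans (hRy 0)
    have h2 : Tendsto (fun n => (t n)⁻¹ * (K (T (p n + t n • x n)) (y n) -
        K (T (p n) + t n • fderiv ℝ T (p n) (x n)) (y n))) (UU : Filter ℕ) (𝓝 0) := by
      have h3 : Tendsto (fun n => 2 * C' * L2 * Rx ^ 2 * Ry * t n) (UU : Filter ℕ) (𝓝 0) := by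
        have := htU.const_mul (2 * C' * L2 * Rx ^ 2 * Ry)
        rwa [mul_zero] at this
      refine squeeze_zero_norm' ?_ h3
      filter_upwards [UU_le_atTop (hsmall (1 / (2 * (Rx + 1))) (by positivity))] with n hn
      have ht := h.ht0 n
      have htx : ‖t n • x n‖ ≤ t n * Rx := by
        rw [norm_smul, Real.norm_of_nonneg ht.le]
        exact mul_le_mul_of_nonneg_left (hRx n) ht.le
      have htR : t n * Rx ≤ 1 / 2 := by
        rw [le_div_iff₀ (by positivity)] at hn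
        nlinarith
      have hnr := LOC_near (h.hp n) htx htR
      have hTn : T (p n + t n • x n) ≠ 0 := by
        intro h0
        have := hT.norm (p n + t n • x n)
        rw [h0, norm_zero] at this
        linarith
      have b1 := hK.lip' hTn (T (p n) + t n • fderiv ℝ T (p n) (x n))
      rw [hT.norm] at b1
      have b2 := hL2 (p n) (t n • x n) (h.hp n)
      rw [map_smul, sub_sub] at b2
      have b3 : ‖K (T (p n + t n • x n)) - K (T (p n) + t n • fderiv ℝ T (p n) (x n))‖ ≤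
          2 * C' * L2 * (t n * Rx) ^ 2 := by
        refine b1.trans ?_
        rw [div_le_iff₀ (by linarith)]
        have b4 : C' * ‖T (p n + t n • x n) - (T (p n) + t n • fderiv ℝ T (p n) (x n))‖ ≤
            C' * (L2 * (t n * Rx) ^ 2) := by
          refine mul_le_mul_of_nonneg_left (b2.trans ?_) hC'
          exact mul_le_mul_of_nonneg_left (pow_le_pow_left₀ (norm_nonneg _) htx 2) hL20
        have b5 : 0 ≤ 2 * C' * L2 * (t n * Rx) ^ 2 := by positivity
        nlinarith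
      rw [norm_mul, norm_inv, Real.norm_of_nonneg ht.le, inv_mul_le_iff₀ ht]
      have b6 := (K (T (p n + t n • x n)) -
        K (T (p n) + t n • fderiv ℝ T (p n) (x n))).le_opNorm (y n)
      refine b6.trans ((mul_le_mul b3 (hRy n) (norm_nonneg _) (by positivity)).trans
        (le_of_eq ?_))
      ring
    have h4 := h1.add h2
    rw [add_zero] at h4
    refine h4.congr fun n => ?_
    unfold bq
    ring
  -- the limit of G
  have gl : ∀ (x y : ℕ → X), Bd x → Bd y →
      Tendsto (fun n => G n (x n) (y n)) (UU : Filter ℕ)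
        (𝓝 (B' (A (uq y)) (M (uq x) (uq vs)))) := by
    intro x y hx hy
    have hm := h.lMb x vs hx hvs
    have h1 := kl (fun n => x n + y n) _ (hx.add hy) hm
    have h2 := kl x _ hx hm
    have h3 := h1.sub h2
    rw [uq_add hx hy, ← h.lM x vs hx hvs, map_add, map_add, add_apply,
      add_sub_cancel_left] at h3
    refine h3.congr fun n => ?_
    rw [hG]
    unfold Mq
    beta_reduce
    simp only [map_smul, smul_eq_mul, sub_apply]
    have ht := (h.ht0 n).ne'
    field_simp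
    ring
  -- symmetry
  let β : XU X →ₗ[ℝ] XU X →ₗ[ℝ] ℝ := LinearMap.mk₂ ℝ (fun ξ η => B' (A η) (M ξ (uq vs)))
    (fun ξ ξ' η => by simp)
    (fun r ξ η => by simp)
    (fun ξ η η' => by simp)
    (fun r ξ η => by simp)
  have hβ : ∀ ξ η, β ξ η = B' (A η) (M ξ (uq vs)) := fun ξ η => rfl
  have hsym := sym_of_deriv f β (C1 * V) ?_ u w
  · rw [hβ, hβ] at hsym
    exact hsym
  · intro ξ η
    obtain ⟨x, hx, rfl⟩ := exists_rep ξ
    obtain ⟨y, hy, rfl⟩ := exists_rep η
    rw [hβ]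
    have h1 := hf (fun n => x n + y n) (hx.add hy)
    rw [uq_add hx hy] at h1
    have h2 := ((h1.sub (hf x hx)).sub (gl x y hx hy)).abs
    have h3 := ((norm_uq hy).pow 2).const_mul (C1 * V)
    refine le_of_tendsto_of_tendsto h2 h3 ?_
    obtain ⟨Rx, hRx⟩ := id hx
    obtain ⟨Ry, hRy⟩ := id hy
    obtain ⟨R, hR, hRR1, hRR2⟩ : ∃ R : ℝ, 0 < R ∧ Rx ≤ R ∧ Ry ≤ R :=
      ⟨max (max Rx Ry) 1, lt_max_of_lt_right one_pos,
        (le_max_left _ _).trans (le_max_left _ _), (le_max_right _ _).trans (le_max_left _ _)⟩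
    filter_upwards [UU_le_atTop (hsmall (1 / (4 * R)) (by positivity))] with n hn
    exact hFG R n (x n) (y n) hR ((hRx n).trans hRR1) ((hRy n).trans hRR2) hn

end P084GII
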