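import Vale.Agent.Lib.P084G.II.LOC
import Vale.Agent.Lib.P084G.II.Alg2

/-! Part II, case C: `M = B ⊗ ζ`, and its uniform version (MZ). -/

open Filter Topology

namespace P084GII

open P084G

variable {X Y : Type*} [NormedAddCommGroup X] [NormedSpace ℝ X] [NormedAddCommGroup Y]
  [NormedSpace ℝ Y] {J : X → X →L[ℝ] ℝ} {K : Y → Y →L[ℝ] ℝ} {T : X → Y} {S : Y → X} {C C' : ℝ}
  {JU : XU X → XU X →L[ℝ] ℝ} {KU : XU Y → XU Y →L[ℝ] ℝ} {p : ℕ → X} {t : ℕ → ℝ}
  {j : XU X →L[ℝ] ℝ} {j' : XU Y →L[ℝ] ℝ} {A : XU X →L[ℝ] XU Y}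
  {B : XU X →L[ℝ] XU X →L[ℝ] ℝ} {B' : XU Y →L[ℝ] XU Y →L[ℝ] ℝ}
  {M : XU X →L[ℝ] XU X →L[ℝ] XU Y}

/-- a bilinear map into the range of an isometry lifts -/
private theorem LOD_lift {V : Type*} [NormedAddCommGroup V] [NormedSpace ℝ V]
    {W : Type*} [NormedAddCommGroup W] [NormedSpace ℝ W] {Z : Type*} [NormedAddCommGroup Z]
    [NormedSpace ℝ Z] (a : V →L[ℝ] W) (ha : ∀ v, ‖a v‖ = ‖v‖) (N : Z →L[ℝ] Z →L[ℝ] W)
    (hN : ∀ u v, ∃ w, a w = N u v) :
    ∃ m : Z →L[ℝ] Z →L[ℝ] V, ∀ u v, a (m u v) = N u v := by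
  choose f hf using hN
  have hinj : ∀ x y : V, a x = a y → x = y := by
    intro x y hxy
    have h1 := ha (x - y)
    rw [map_sub, hxy, sub_self, norm_zero] at h1
    exact sub_eq_zero.1 (norm_eq_zero.1 h1.symm)
  refine ⟨LinearMap.mkContinuous₂ (LinearMap.mk₂ ℝ f ?_ ?_ ?_ ?_) ‖N‖ ?_, ?_⟩
  · intro u u' v
    refine hinj _ _ ?_
    rw [map_add, hf, hf, hf, map_add]
    rfl
  · intro c u v
    refine hinj _ _ ?_
    rw [map_smul, hf, hf, map_smul]
    rfl
  · intro u v v'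
    refine hinj _ _ ?_
    rw [map_add, hf, hf, hf, map_add]
  · intro c u v
    refine hinj _ _ ?_
    rw [map_smul, hf, hf, map_smul]
  · intro u v
    rw [LinearMap.mk₂_apply, ← ha, hf]
    exact N.le_opNorm₂ u v
  · intro u v
    rw [LinearMap.mkContinuous₂_apply, LinearMap.mk₂_apply, hf]

private theorem LOD_bdp (h : LO J K T JU KU p t j j' A B B' M) : Bd p :=
  ⟨1, fun n => (h.hp n).le⟩

private theorem LOD_bdq (hT : HI T S) (h : LO J K T JU KU p t j j' A B B' M) :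
    Bd (fun n => T (p n)) :=
  ⟨1, fun n => by rw [hT.norm]; exact (h.hp n).le⟩

private theorem LOD_lam (hT : HI T S) (h : LO J K T JU KU p t j j' A B B' M) (w : XU X) :
    |KU (A w) (uq (fun n => T (p n))) - JU w (uq p)| ≤ 2 := by
  obtain ⟨c, hc⟩ := h.hJU
  obtain ⟨c', hc'⟩ := h.hKU
  have n1 : ‖uq p‖ = 1 := by
    refine tendsto_nhds_unique (norm_uq (LOD_bdp h)) (tendsto_const_nhds.congr fun n => ?_)
    exact (h.hp n).symm
  have n2 : ‖uq (fun n => T (p n))‖ = 1 := by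
    refine tendsto_nhds_unique (norm_uq (LOD_bdq hT h)) (tendsto_const_nhds.congr fun n => ?_)
    rw [hT.norm]
    exact (h.hp n).symm
  have h1 := hc.toDual.abs_le w (uq p)
  have h2 := hc'.toDual.abs_le (A w) (uq (fun n => T (p n)))
  rw [n1] at h1
  rw [n2] at h2
  have h3 := abs_sub (KU (A w) (uq (fun n => T (p n)))) (JU w (uq p))
  linarith

universe uE

private theorem LOD_ker {E : Type uE} [NormedAddCommGroup E] [NormedSpace ℝ E]
    [CompleteSpace E] (j : E →L[ℝ] ℝ) :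
    ∃ (V : Type uE) (_ : NormedAddCommGroup V) (_ : NormedSpace ℝ V) (_ : CompleteSpace V)
      (ι : V →L[ℝ] E), (∀ v, ‖ι v‖ = ‖v‖) ∧ (∀ v, j (ι v) = 0) ∧
        ∀ w, j w = 0 → ∃ v, ι v = w := by
  have hVc : IsClosed ((LinearMap.ker (j : E →ₗ[ℝ] ℝ)) : Set E) := j.isClosed_ker
  exact ⟨LinearMap.ker (j : E →ₗ[ℝ] ℝ), inferInstance, inferInstance, hVc.completeSpace_coe,
    (LinearMap.ker (j : E →ₗ[ℝ] ℝ)).subtypeL, fun v => rfl, fun v => LinearMap.mem_ker.1 v.2,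
    fun w hw => ⟨⟨w, LinearMap.mem_ker.2 hw⟩, rfl⟩⟩

private theorem LOD_core [CompleteSpace X] [CompleteSpace Y] (hJ : Dual2 J C) (hK : Dual2 K C')
    (hT : HI T S) (hX : AQ X) (hY : AQ Y) (hodd : ∀ x, T (-x) = - T x)
    (h : LO J K T JU KU p t j j' A B B' M) {V : Type*} [NormedAddCommGroup V] [NormedSpace ℝ V]
    [CompleteSpace V] (ι : V →L[ℝ] XU X) (hι : ∀ v, ‖ι v‖ = ‖v‖) (hV : ∀ v, j (ι v) = 0)
    (hV' : ∀ w, j w = 0 → ∃ v, ι v = w) :
    ∃ z : V, ‖z‖ ≤ 2 ∧ ∀ u v : V, M (ι u) (ι v) = B (ι u) (ι v) • A (ι z) := by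
  obtain ⟨c, hc⟩ := h.hJU
  have hJV : Dual2 (fun w : V => (JU (ι w)).comp ι) c := by
    refine { self := ?_, le := ?_, smul := ?_, nonneg := hc.nonneg, lip := ?_ }
    · intro x
      rw [ContinuousLinearMap.comp_apply, hc.self, hι]
    · intro x v
      rw [ContinuousLinearMap.comp_apply, ← hι v]
      exact hc.le _ _
    · intro d hd x
      rw [map_smul, hc.smul d hd]
    · intro x y hx
      have h1 := hc.lip (ι x) (ι y) (by rw [hι]; exact hx)
      rw [← map_sub, hι] at h1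
      refine ContinuousLinearMap.opNorm_le_bound _ (by
        have := hc.nonneg
        positivity) fun v => ?_
      have h2 := (JU (ι x) - JU (ι y)).le_opNorm (ι v)
      rw [hι] at h2
      have h3 := mul_le_mul_of_nonneg_right h1 (norm_nonneg v)
      exact h2.trans h3
  have hiso : ∀ v : V, ‖(A.comp ι) v‖ = ‖v‖ := fun v => by
    rw [ContinuousLinearMap.comp_apply, LO.iso hJ hK hT h (hV v), hι]
  have hMV : ∀ u v : V, ∃ w, (A.comp ι) w = (M.bilinearComp ι ι) u v := by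
    intro u v
    obtain ⟨w, hw, hw1⟩ := LO.surj hJ hK hT h (LO.hess hJ hK hT hodd h (ι u) (ι v)).2
    obtain ⟨w', rfl⟩ := hV' w hw
    exact ⟨w', hw1⟩
  obtain ⟨m, hm⟩ := LOD_lift (A.comp ι) hiso (M.bilinearComp ι ι) hMV
  have hm' : ∀ u v : V, A (ι (m u v)) = M (ι u) (ι v) := hm
  have hinj : ∀ x y : V, A (ι x) = A (ι y) → x = y := by
    intro x y hxy
    have h1 := hiso (x - y)
    rw [map_sub] at h1
    have h2 : (A.comp ι) x - (A.comp ι) y = 0 := sub_eq_zero.2 hxy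
    rw [h2, norm_zero] at h1
    exact sub_eq_zero.1 (norm_eq_zero.1 h1.symm)
  have hhess : ∀ x y, B' (A x) (A y) = B x y := fun x y => (LO.hess hJ hK hT hodd h x y).1
  have BVa : ∀ u v : V, (B.bilinearComp ι ι) u v = B (ι u) (ι v) := fun u v => rfl
  obtain ⟨z, hz, hz1⟩ := alg_main (J := fun w : V => (JU (ι w)).comp ι) (C := c)
    (B := B.bilinearComp ι ι) (m := m)
    (lam := fun w => KU (A (ι w)) (uq (fun n => T (p n))) - JU (ι w) (uq p)) hJV
    (fun u v => h.Bs _ _) (fun u => h.Bp _)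
    (fun u v => hinj _ _ (by rw [hm', hm', h.Ms]))
    (by
      intro a w hw0
      have hw0' : ι w ≠ 0 := fun h0 => hw0 (by
        have := hι w
        rw [h0, norm_zero] at this
        exact norm_eq_zero.1 this.symm)
      rw [ContinuousLinearMap.comp_apply, ← LO.iso' hJ hK hT h (hV w) hw0' (hV (m a w)), hm',
        LO.star hJ hK hT h (hV a) (hV w) hw0', BVa])
    (by
      intro u v w
      rw [BVa, BVa, h.Bs, h.Bs (ι (m u w)), ← hhess, ← hhess, hm', hm', h.Ms (ι u) (ι v),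
        h.Ms (ι u) (ι w)]
      exact LO.assoc hJ hK hT hX hY hodd h _ _ _)
    (show (0 : ℝ) ≤ 2 by norm_num) (fun w => LOD_lam hT h (ι w))
    (by
      obtain ⟨e, he, he1, he2⟩ := LO.emax hJ h
      obtain ⟨e', rfl⟩ := hV' e he
      refine ⟨e', by rw [← hι]; exact he1, fun v => ?_⟩
      have := he2 _ (hV v)
      rw [hι] at this
      exact this)
  refine ⟨z, hz, fun u v => ?_⟩
  rw [← hm', hz1, BVa, map_smul, map_smul]

/-- `V = ker j` (a Banach space), `J_V w = (JU w).comp V.subtypeL` is a `Dual2`, `m u v ∈ V` with `A (m u v) = M u v`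
(`LO.hess`: `j' (M u v) = 0`; `LO.surj`, `LO.iso`: `A` restricted to `V` is a linear isometry onto `ker j'`), `B_V`, `lam w = KU (A w) (uq (T ∘ p)) - JU w (uq p)`,
`|lam w| ≤ 2` (`LO.star`, `LO.iso'`, `LO.assoc` + `LO.hess`: `B w (m u v) = B' (A w) (M u v)`), `LO.emax`.  `alg_main`: `m u v = B u v • z`,
`ζ = A z`.  For general `u`, `v` subtract `j u • uq p`, `j v • uq p` (`LO.radial`, symmetry). -/
theorem LO.concl [CompleteSpace X] [CompleteSpace Y] (hJ : Dual2 J C) (hK : Dual2 K C')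
    (hT : HI T S) (hX : AQ X) (hY : AQ Y) (hodd : ∀ x, T (-x) = - T x)
    (h : LO J K T JU KU p t j j' A B B' M) :
    ∃ ζ : XU Y, ‖ζ‖ ≤ 2 ∧ ∀ u v, M u v = B u v • ζ := by
  obtain ⟨V, i1, i2, i3, ι, hι, hV, hV'⟩ := LOD_ker j
  obtain ⟨z, hz, hz1⟩ := LOD_core hJ hK hT hX hY hodd h ι hι hV hV'
  refine ⟨A (ι z), ?_, ?_⟩
  · rw [LO.iso hJ hK hT h (hV z), hι]
    exact hz
  · intro u v
    obtain ⟨-, -, hP⟩ := LO.radial hJ hK hT h 0
    have hu0 : j (u - j u • uq p) = 0 := by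
      rw [map_sub, map_smul, hP, smul_eq_mul, mul_one, sub_self]
    have hv0 : j (v - j v • uq p) = 0 := by
      rw [map_sub, map_smul, hP, smul_eq_mul, mul_one, sub_self]
    have r1 : ∀ v, B (uq p) v = 0 := fun v => (LO.radial hJ hK hT h v).1
    have r2 : ∀ v, M (uq p) v = 0 := fun v => (LO.radial hJ hK hT h v).2.1
    have r3 : ∀ v, B v (uq p) = 0 := fun v => by rw [h.Bs, r1]
    have r4 : ∀ v, M v (uq p) = 0 := fun v => by rw [h.Ms, r2]
    have e1 : M (u - j u • uq p) (v - j v • uq p) = M u v := by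
      rw [map_sub, map_smul, r4, smul_zero, sub_zero, h.Ms, map_sub, map_smul, r4, smul_zero,
        sub_zero, h.Ms]
    have e2 : B (u - j u • uq p) (v - j v • uq p) = B u v := by
      rw [map_sub, map_smul, r3, smul_zero, sub_zero, h.Bs, map_sub, map_smul, r3, smul_zero,
        sub_zero, h.Bs]
    obtain ⟨u', hu'⟩ := hV' _ hu0
    obtain ⟨v', hv'⟩ := hV' _ hv0
    have e5 := hz1 u' v'
    rw [hu', hv', e1, e2] at e5
    exact e5

/-- **(MZ)** by contradiction: sequences `p n`, `t n < 1/(n+1)` such that for every `z` with `‖z‖ ≤ 3` some `u, v` violate; `exists_LO`,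
`LO.concl`, representatives `z n` of `ζ` with `‖z n‖ ≤ 3`, violating `u n`, `v n`, limit. -/
theorem mz [CompleteSpace X] [CompleteSpace Y] (hJ : Dual2 J C) (hK : Dual2 K C')
    (hT : HI T S) (hX : AQ X) (hY : AQ Y) (hodd : ∀ x, T (-x) = - T x) {η : ℝ} (hη : 0 < η) :
    ∃ t₀ : ℝ, 0 < t₀ ∧ ∀ t : ℝ, 0 < t → t < t₀ → ∀ p : X, ‖p‖ = 1 → ∃ z : Y, ‖z‖ ≤ 3 ∧
      ∀ u v : X, ‖u‖ ≤ 1 → ‖v‖ ≤ 1 →
        ‖(fderiv ℝ T (p + t • u) v - fderiv ℝ T p v) - (J (p + t • u) v - J p v) • z‖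
          ≤ η * t := by
  by_contra hcon
  push Not at hcon
  have hn : ∀ n : ℕ, (0 : ℝ) < 1 / ((n : ℝ) + 1) := fun n => by positivity
  choose t ht0 ht1 p hp hviol using fun n : ℕ => hcon (1 / ((n : ℝ) + 1)) (hn n)
  have ht : Tendsto t atTop (𝓝 0) :=
    squeeze_zero (fun n => (ht0 n).le) (fun n => (ht1 n).le) tendsto_one_div_add_atTop_nhds_zero_nat
  obtain ⟨JU, KU, j, j', A, B, B', M, h⟩ := exists_LO hJ hK hT hX hY hp ht0 ht
  obtain ⟨ζ, hζ, hζ1⟩ := LO.concl hJ hK hT hX hY hodd h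
  obtain ⟨z0, hz0, rfl⟩ := exists_rep ζ
  classical
  let z : ℕ → Y := fun n => if ‖z0 n‖ ≤ 3 then z0 n else 0
  have hz3 : ∀ n, ‖z n‖ ≤ 3 := by
    intro n
    by_cases hn : ‖z0 n‖ ≤ 3
    · simp only [z, if_pos hn]; exact hn
    · simp only [z, if_neg hn, norm_zero]; norm_num
  have hzb : Bd z := ⟨3, hz3⟩
  have hzz : uq z = uq z0 := by
    refine uq_congr hzb hz0 ?_
    filter_upwards [(norm_uq hz0).eventually_lt_const
      (show ‖uq z0‖ < 3 by linarith)] with n hn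
    simp only [z, if_pos hn.le]
  choose u v hu hv huv using fun n : ℕ => hviol n (z n) (hz3 n)
  have hub : Bd u := ⟨1, hu⟩
  have hvb : Bd v := ⟨1, hv⟩
  have l1 := h.lM u v hub hvb
  have l2 := h.lMb u v hub hvb
  have l3 := h.lB u v hub hvb
  rw [hζ1, ← hzz, ← uq_smul _ hzb] at l1
  have l4 := (uq_eq_iff (hzb.smul _) l2).1 l1
  have l5 : Tendsto (fun n => |bq J (p n) (t n) (u n) (v n) - B (uq u) (uq v)|) (UU : Filter ℕ)
      (𝓝 0) := by
    have := (l3.sub_const (B (uq u) (uq v))).abs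
    rwa [sub_self, abs_zero] at this
  have l6 := l4.add (l5.mul_const 3)
  rw [zero_mul, add_zero] at l6
  have l7 : ∀ n, η < ‖B (uq u) (uq v) • z n - Mq T (p n) (t n) (u n) (v n)‖
      + |bq J (p n) (t n) (u n) (v n) - B (uq u) (uq v)| * 3 := by
    intro n
    have ht := ht0 n
    have e1 : (fderiv ℝ T (p n + t n • u n) (v n) - fderiv ℝ T (p n) (v n))
        - (J (p n + t n • u n) (v n) - J (p n) (v n)) • z n
        = t n • (Mq T (p n) (t n) (u n) (v n) - bq J (p n) (t n) (u n) (v n) • z n) := by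
      unfold Mq bq
      rw [smul_sub, smul_smul, smul_smul, mul_inv_cancel₀ ht.ne', one_smul, ← mul_assoc,
        mul_inv_cancel₀ ht.ne', one_mul]
    have e2 := huv n
    rw [e1, norm_smul, Real.norm_eq_abs, abs_of_pos ht, mul_comm] at e2
    have e3 : η < ‖Mq T (p n) (t n) (u n) (v n) - bq J (p n) (t n) (u n) (v n) • z n‖ :=
      lt_of_mul_lt_mul_left e2 ht.le
    refine e3.trans_le ?_
    have e4 : Mq T (p n) (t n) (u n) (v n) - bq J (p n) (t n) (u n) (v n) • z n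
        = - (B (uq u) (uq v) • z n - Mq T (p n) (t n) (u n) (v n))
          - (bq J (p n) (t n) (u n) (v n) - B (uq u) (uq v)) • z n := by
      rw [sub_smul]
      abel
    rw [e4]
    refine (norm_sub_le _ _).trans ?_
    rw [norm_neg, norm_smul, Real.norm_eq_abs]
    gcongr
    exact hz3 n
  have l8 := ge_of_tendsto l6 (Eventually.of_forall fun n => (l7 n).le)
  linarith

end P084GII
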