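import Mathlib

/-! Part II, case C: functions satisfying the parallelogram law. -/

open Filter Topology

namespace P084GII

variable {Z W : Type*} [NormedAddCommGroup Z] [NormedSpace ℝ Z] [NormedAddCommGroup W]
  [NormedSpace ℝ W]

/-- a linear map bounded by a multiple of the square of the norm vanishes -/
theorem qf_lin (L : Z →ₗ[ℝ] W) (K : ℝ) (h : ∀ v, ‖L v‖ ≤ K * ‖v‖ ^ 2) (v : Z) : L v = 0 := by
  have h1 : ∀ n : ℕ, ‖L v‖ ≤ K * ‖v‖ ^ 2 * (1 / ((n : ℝ) + 1)) := by
    intro n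
    have hn : (0 : ℝ) < (n : ℝ) + 1 := by positivity
    have h2 := h (((n : ℝ) + 1)⁻¹ • v)
    rw [map_smul, norm_smul, norm_smul, Real.norm_of_nonneg (by positivity), mul_pow] at h2
    have h3 : ((n : ℝ) + 1) * (((n : ℝ) + 1)⁻¹ * ‖L v‖) ≤
        ((n : ℝ) + 1) * (K * ((((n : ℝ) + 1)⁻¹) ^ 2 * ‖v‖ ^ 2)) :=
      mul_le_mul_of_nonneg_left h2 hn.le
    have h4 : ((n : ℝ) + 1) * (((n : ℝ) + 1)⁻¹ * ‖L v‖) = ‖L v‖ := by
      field_simp
    have h5 : ((n : ℝ) + 1) * (K * ((((n : ℝ) + 1)⁻¹) ^ 2 * ‖v‖ ^ 2)) =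
        K * ‖v‖ ^ 2 * (1 / ((n : ℝ) + 1)) := by
      field_simp
    rw [h4, h5] at h3
    exact h3
  have h6 : Tendsto (fun n : ℕ => K * ‖v‖ ^ 2 * (1 / ((n : ℝ) + 1))) atTop (𝓝 (K * ‖v‖ ^ 2 * 0)) :=
    tendsto_one_div_add_atTop_nhds_zero_nat.const_mul _
  rw [mul_zero] at h6
  have h7 := ge_of_tendsto' h6 h1
  exact norm_le_zero_iff.1 h7

/-- `E` satisfies the parallelogram law, has the derivative `M u` at `u` with quadratic error.
Differentiate the law in `v` (direction `h`): `M (u+v) h - M (u-v) h = 2 M v h`; in `u`: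
`M (u+v) h + M (u-v) h = 2 M u h` (the differences of both sides are linear in `h` and `O(‖h‖^2)`).  So `M` is additive in
`u`, and `‖M u v‖ ≤ C ‖u‖ ‖v‖` makes it real-linear and continuous.  `E` is even (law with `u = 0`, `E 0 = 0`).
`D v = E (u+v) - E (u-v)` satisfies `D (v+h) - D v = 2 M u h + O(‖h‖^2)`, `D 0 = 0`, so `D v = 2 M u v` (subdivide `[0, v]`);
symmetry of `D` in `u, v` gives the symmetry of `M`; `u = v`: `4 E u = E (2u) = 2 M u u`. -/
theorem qf_main (E : Z → W) (M : Z → Z →ₗ[ℝ] W) (C : ℝ) (hE0 : E 0 = 0)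
    (hT : ∀ u v, ‖E (u + v) - E u - M u v‖ ≤ C * ‖v‖ ^ 2)
    (hMb : ∀ u v, ‖M u v‖ ≤ C * ‖u‖ * ‖v‖)
    (hpar : ∀ u v, E (u + v) + E (u - v) = (2 : ℝ) • E u + (2 : ℝ) • E v) :
    ∃ B : Z →L[ℝ] Z →L[ℝ] W, (∀ u v, B u v = M u v) ∧ (∀ u v, B u v = B v u) ∧
      ∀ u, (1 / 2 : ℝ) • B u u = E u := by
  -- derivative of the law in `v`
  have h1 : ∀ u v h, M (u + v) h - M (u - v) h = (2 : ℝ) • M v h := by
    intro u v h
    have key := qf_lin (M (u + v) - M (u - v) - (2 : ℝ) • M v) (4 * C) (fun h => by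
      have e1 := hT (u + v) h
      have e2 := hT (u - v) (-h)
      have e3 := hT v h
      have p1 := hpar u (v + h)
      have p2 := hpar u v
      rw [norm_neg, map_neg] at e2
      have e4 : (M (u + v) - M (u - v) - (2 : ℝ) • M v) h =
          -(E (u + v + h) - E (u + v) - M (u + v) h) - (E (u - v + -h) - E (u - v) - -M (u - v) h)
            + (2 : ℝ) • (E (v + h) - E v - M v h) := by
        have q1 : u + v + h = u + (v + h) := by abel
        have q2 : u - v + -h = u - (v + h) := by abel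
        rw [q1, q2]
        have p1' : E (u + (v + h)) = (2 : ℝ) • E u + (2 : ℝ) • E (v + h) - E (u - (v + h)) := by
          rw [← p1]
          abel
        have p2' : E (u + v) = (2 : ℝ) • E u + (2 : ℝ) • E v - E (u - v) := by
          rw [← p2]
          abel
        rw [p1', p2']
        simp only [LinearMap.sub_apply, LinearMap.smul_apply, smul_sub]
        abel
      rw [e4]
      calc _ ≤ ‖E (u + v + h) - E (u + v) - M (u + v) h‖ +
            ‖E (u - v + -h) - E (u - v) - -M (u - v) h‖ + 2 * ‖E (v + h) - E v - M v h‖ := by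
            refine (norm_add_le _ _).trans (add_le_add ((norm_sub_le _ _).trans ?_) ?_)
            · rw [norm_neg]
            · rw [norm_smul]
              norm_num
        _ ≤ _ := by linarith) h
    rw [LinearMap.sub_apply, LinearMap.sub_apply, LinearMap.smul_apply, sub_eq_zero] at key
    exact key
  -- derivative of the law in `u`
  have h2 : ∀ u v h, M (u + v) h + M (u - v) h = (2 : ℝ) • M u h := by
    intro u v h
    have key := qf_lin (M (u + v) + M (u - v) - (2 : ℝ) • M u) (4 * C) (fun h => by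
      have e1 := hT (u + v) h
      have e2 := hT (u - v) h
      have e3 := hT u h
      have p1 := hpar (u + h) v
      have p2 := hpar u v
      have e4 : (M (u + v) + M (u - v) - (2 : ℝ) • M u) h =
          -(E (u + v + h) - E (u + v) - M (u + v) h) - (E (u - v + h) - E (u - v) - M (u - v) h)
            + (2 : ℝ) • (E (u + h) - E u - M u h) := by
        have q1 : u + v + h = u + h + v := by abel
        have q2 : u - v + h = u + h - v := by abel
        rw [q1, q2]
        have p1' : E (u + h + v) = (2 : ℝ) • E (u + h) + (2 : ℝ) • E v - E (u + h - v) := by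
          rw [← p1]
          abel
        have p2' : E (u + v) = (2 : ℝ) • E u + (2 : ℝ) • E v - E (u - v) := by
          rw [← p2]
          abel
        rw [p1', p2']
        simp only [LinearMap.sub_apply, LinearMap.add_apply, LinearMap.smul_apply, smul_sub]
        abel
      rw [e4]
      calc _ ≤ ‖E (u + v + h) - E (u + v) - M (u + v) h‖ +
            ‖E (u - v + h) - E (u - v) - M (u - v) h‖ + 2 * ‖E (u + h) - E u - M u h‖ := by
            refine (norm_add_le _ _).trans (add_le_add ((norm_sub_le _ _).trans ?_) ?_)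
            · rw [norm_neg]
            · rw [norm_smul]
              norm_num
        _ ≤ _ := by linarith) h
    rw [LinearMap.sub_apply, LinearMap.add_apply, LinearMap.smul_apply, sub_eq_zero] at key
    exact key
  have hadd : ∀ u v h, M (u + v) h = M u h + M v h := by
    intro u v h
    have e1 : (2 : ℝ) • M (u + v) h = (2 : ℝ) • (M u h + M v h) := by
      rw [smul_add, ← h1 u v h, ← h2 u v h, two_smul]
      abel
    exact smul_right_injective W (two_ne_zero (α := ℝ)) e1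
  -- real linearity
  have hsmul : ∀ (c : ℝ) u h, M (c • u) h = c • M u h := by
    intro c u h
    let A : Z →+ W := AddMonoidHom.mk' (fun u => M u h) (fun u v => hadd u v h)
    have hA : Continuous A := by
      refine AddMonoidHomClass.continuous_of_bound A (C * ‖h‖) (fun u => ?_)
      have := hMb u h
      calc ‖A u‖ = ‖M u h‖ := rfl
        _ ≤ C * ‖u‖ * ‖h‖ := this
        _ = C * ‖h‖ * ‖u‖ := by ring
    exact map_real_smul A hA c u
  let B0 : Z →ₗ[ℝ] Z →ₗ[ℝ] W :=
    { toFun := M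
      map_add' := fun u v => LinearMap.ext fun h => by
        rw [LinearMap.add_apply]
        exact hadd u v h
      map_smul' := fun c u => LinearMap.ext fun h => by
        rw [LinearMap.smul_apply]
        exact hsmul c u h }
  -- the values of `E`
  have hnat : ∀ (u : Z) (n : ℕ), E ((n : ℝ) • u) = ((n : ℝ) ^ 2) • E u ∧
      E (((n : ℝ) + 1) • u) = (((n : ℝ) + 1) ^ 2) • E u := by
    intro u n
    induction n with
    | zero => simp [hE0]
    | succ n ih =>
      push_cast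
      refine ⟨ih.2, ?_⟩
      have p := hpar (((n : ℝ) + 1) • u) u
      have q1 : ((n : ℝ) + 1) • u + u = ((n : ℝ) + 1 + 1) • u := by module
      have q2 : ((n : ℝ) + 1) • u - u = (n : ℝ) • u := by module
      rw [q1, q2, ih.1, ih.2] at p
      have : E (((n : ℝ) + 1 + 1) • u) =
          (2 : ℝ) • (((n : ℝ) + 1) ^ 2) • E u + (2 : ℝ) • E u - ((n : ℝ) ^ 2) • E u := by
        rw [← p]
        abel
      rw [this]
      module
  have hval : ∀ u, (2 : ℝ) • E u = M u u := by
    intro u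
    have e1 : ∀ n : ℕ, (n : ℝ) * ‖(2 : ℝ) • E u - M u u‖ ≤ C * ‖u‖ ^ 2 + ‖E u‖ := by
      intro n
      have e2 := hT ((n : ℝ) • u) u
      have q1 : (n : ℝ) • u + u = ((n : ℝ) + 1) • u := by module
      rw [q1, (hnat u n).1, (hnat u n).2, hsmul] at e2
      have q2 : (n : ℝ) • ((2 : ℝ) • E u - M u u) =
          ((((n : ℝ) + 1) ^ 2) • E u - ((n : ℝ) ^ 2) • E u - (n : ℝ) • M u u) - E u := by
        module
      have q3 : (n : ℝ) * ‖(2 : ℝ) • E u - M u u‖ = ‖(n : ℝ) • ((2 : ℝ) • E u - M u u)‖ := by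
        rw [norm_smul, Real.norm_of_nonneg (Nat.cast_nonneg n)]
      rw [q3, q2]
      exact (norm_sub_le _ _).trans (add_le_add_left e2 _)
    by_contra hne
    have hpos : 0 < ‖(2 : ℝ) • E u - M u u‖ := norm_pos_iff.2 (sub_ne_zero.2 hne)
    obtain ⟨n, hn⟩ := exists_nat_gt ((C * ‖u‖ ^ 2 + ‖E u‖) / ‖(2 : ℝ) • E u - M u u‖)
    rw [div_lt_iff₀ hpos] at hn
    exact absurd (e1 n) (not_le.2 hn)
  have hval' : ∀ u, (1 / 2 : ℝ) • M u u = E u := by
    intro u
    rw [← hval u, smul_smul]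
    norm_num
  have hsymm : ∀ u v, M u v = M v u := by
    intro u v
    have key := qf_lin (B0.flip u - B0 u) (3 * C) (fun v => by
      have e1 := hT u v
      rw [← hval' (u + v), ← hval' u] at e1
      have e2 : (B0.flip u - B0 u) v =
          (2 : ℝ) • ((1 / 2 : ℝ) • M (u + v) (u + v) - (1 / 2 : ℝ) • M u u - M u v) - M v v := by
        have q : (B0.flip u - B0 u) v = M v u - M u v := rfl
        rw [q, hadd, map_add, map_add]
        module
      rw [e2]
      calc _ ≤ 2 * ‖(1 / 2 : ℝ) • M (u + v) (u + v) - (1 / 2 : ℝ) • M u u - M u v‖ + ‖M v v‖ := by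
            refine (norm_sub_le _ _).trans (add_le_add ?_ le_rfl)
            rw [norm_smul]
            norm_num
        _ ≤ 2 * (C * ‖v‖ ^ 2) + C * ‖v‖ * ‖v‖ := by
            have := hMb v v
            linarith
        _ = _ := by ring) v
    have q : (B0.flip u - B0 u) v = M v u - M u v := rfl
    rw [q, sub_eq_zero] at key
    exact key.symm
  refine ⟨B0.mkContinuous₂ C hMb, fun u v => rfl, fun u v => hsymm u v, fun u => hval' u⟩

/-- **Evenness.**  `D u v = Φ (u+v) + Φ (u-v) - 2 Φ u` satisfies the parallelogram law in `v` for every `u`, and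
`|Φ u| ≤ C ‖u‖^2`.  Then `Φ` satisfies the parallelogram law.
Proof: `D u (2v) = 4 D u v` (law with `v1 = v2`; `D u 0 = 0`).  For fixed `v` let `G s = Φ (s v) - Φ (-(s v))` (odd in `s`).  The identity
`D (s v) (2 h v) = 4 D (s v) (h v)` gives `F (s+2h) - 4 F (s+h) + 6 F s - 4 F (s-h) + F (s-2h) = 0` for `F s = Φ (s v)`.  With
`s = h` resp. `s = 2h` and the odd parts: `G (3h) = 4 G (2h) - 5 G h`, `G (4h) = 4 G (3h) - 6 G (2h) + 4 G h`.
So `R h = G (2h) - 8 G h` satisfies `R (2h) = 2 R h`; `|R h| ≤ C' h^2` gives `R h = 2^n R (h/2^n) → 0`; so `G (2h) = 8 G h`, and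
`|G h| = |G (2^n h)| / 8^n ≤ C' 4^n h^2 / 8^n → 0`.  So `Φ` is even, `D 0 v = 2 Φ v`, done. -/
theorem even_par (Φ : Z → ℝ) (C : ℝ) (hΦ : ∀ u, |Φ u| ≤ C * ‖u‖ ^ 2)
    (hD : ∀ u v w, (Φ (u + (v + w)) + Φ (u - (v + w)) - 2 * Φ u)
        + (Φ (u + (v - w)) + Φ (u - (v - w)) - 2 * Φ u)
      = 2 * (Φ (u + v) + Φ (u - v) - 2 * Φ u) + 2 * (Φ (u + w) + Φ (u - w) - 2 * Φ u)) :
    ∀ u v, Φ (u + v) + Φ (u - v) = 2 * Φ u + 2 * Φ v := by
  have h0 : Φ 0 = 0 := by
    have := hΦ 0
    rw [norm_zero] at this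
    have h1 : |Φ 0| ≤ 0 := by simpa using this
    exact abs_nonpos_iff.1 h1
  have h4 : ∀ u v, Φ (u + (v + v)) - 4 * Φ (u + v) + 6 * Φ u - 4 * Φ (u - v) + Φ (u - (v + v)) = 0 := by
    intro u v
    have := hD u v v
    rw [sub_self, add_zero, sub_zero] at this
    linarith
  let G : Z → ℝ := fun v => Φ v - Φ (-v)
  have hG : ∀ v, |G v| ≤ 2 * C * ‖v‖ ^ 2 := by
    intro v
    have a1 := hΦ v
    have a2 := hΦ (-v)
    rw [norm_neg] at a2
    calc |G v| ≤ |Φ v| + |Φ (-v)| := abs_sub _ _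
      _ ≤ _ := by linarith
  have hG3 : ∀ v, G ((3 : ℝ) • v) = 4 * G ((2 : ℝ) • v) - 5 * G v := by
    intro v
    have a1 := h4 v v
    have a2 := h4 (-v) (-v)
    have e1 : v + (v + v) = (3 : ℝ) • v := by module
    have e2 : v + v = (2 : ℝ) • v := by module
    have e3 : v - v = 0 := by module
    have e4 : v - (2 : ℝ) • v = -v := by module
    have e5 : -v + (-v + -v) = -((3 : ℝ) • v) := by module
    have e6 : -v + -v = -((2 : ℝ) • v) := by module
    have e7 : -v - -v = 0 := by module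
    have e8 : -v - -((2 : ℝ) • v) = v := by module
    rw [e1, e2, e3, e4, h0] at a1
    rw [e5, e6, e7, e8, h0] at a2
    simp only [G]
    linarith
  have hG4 : ∀ v, G ((4 : ℝ) • v) = 4 * G ((3 : ℝ) • v) - 6 * G ((2 : ℝ) • v) + 4 * G v := by
    intro v
    have a1 := h4 ((2 : ℝ) • v) v
    have a2 := h4 (-((2 : ℝ) • v)) (-v)
    have e1 : (2 : ℝ) • v + (v + v) = (4 : ℝ) • v := by module
    have e2 : (2 : ℝ) • v + v = (3 : ℝ) • v := by module
    have e3 : (2 : ℝ) • v - v = v := by module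
    have e4 : (2 : ℝ) • v - (v + v) = 0 := by module
    have e5 : -((2 : ℝ) • v) + (-v + -v) = -((4 : ℝ) • v) := by module
    have e6 : -((2 : ℝ) • v) + -v = -((3 : ℝ) • v) := by module
    have e7 : -((2 : ℝ) • v) - -v = -v := by module
    have e8 : -((2 : ℝ) • v) - (-v + -v) = 0 := by module
    rw [e1, e2, e3, e4, h0] at a1
    rw [e5, e6, e7, e8, h0] at a2
    simp only [G]
    linarith
  let R : Z → ℝ := fun v => G ((2 : ℝ) • v) - 8 * G v
  have hR2 : ∀ v, R ((2 : ℝ) • v) = 2 * R v := by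
    intro v
    have e : (2 : ℝ) • (2 : ℝ) • v = (4 : ℝ) • v := by module
    simp only [R]
    rw [e, hG4, hG3]
    ring
  have hRb : ∀ v, |R v| ≤ 24 * C * ‖v‖ ^ 2 := by
    intro v
    have a1 := hG ((2 : ℝ) • v)
    have a2 := hG v
    rw [norm_smul, Real.norm_of_nonneg (by norm_num : (0 : ℝ) ≤ 2), mul_pow] at a1
    calc |R v| ≤ |G ((2 : ℝ) • v)| + |8 * G v| := abs_sub _ _
      _ = |G ((2 : ℝ) • v)| + 8 * |G v| := by rw [abs_mul]; norm_num
      _ ≤ _ := by linarith
  have hR0 : ∀ v, R v = 0 := by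
    intro v
    have e1 : ∀ n : ℕ, |R v| ≤ 24 * C * ‖v‖ ^ 2 * (1 / 2) ^ n := by
      intro n
      have e2 : ∀ n : ℕ, R v = 2 ^ n * R (((1 : ℝ) / 2) ^ n • v) := by
        intro n
        induction n with
        | zero => simp
        | succ n ih =>
          have e3 : (2 : ℝ) • (((1 : ℝ) / 2) ^ (n + 1) • v) = ((1 : ℝ) / 2) ^ n • v := by
            rw [smul_smul, pow_succ]
            congr 1
            ring
          have e4 := hR2 (((1 : ℝ) / 2) ^ (n + 1) • v)
          rw [e3] at e4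
          rw [ih, e4, pow_succ]
          ring
      have e5 := hRb (((1 : ℝ) / 2) ^ n • v)
      rw [norm_smul, Real.norm_of_nonneg (by positivity), mul_pow] at e5
      rw [e2 n, abs_mul, abs_of_pos (by positivity : (0 : ℝ) < 2 ^ n)]
      calc (2 : ℝ) ^ n * |R (((1 : ℝ) / 2) ^ n • v)|
          ≤ 2 ^ n * (24 * C * ((((1 : ℝ) / 2) ^ n) ^ 2 * ‖v‖ ^ 2)) := by gcongr
        _ = 24 * C * ‖v‖ ^ 2 * ((2 ^ n * (1 / 2) ^ n) * (1 / 2) ^ n) := by ring
        _ = _ := by
            rw [← mul_pow]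
            norm_num
    have h6 : Tendsto (fun n : ℕ => 24 * C * ‖v‖ ^ 2 * (1 / 2 : ℝ) ^ n) atTop
        (𝓝 (24 * C * ‖v‖ ^ 2 * 0)) :=
      (tendsto_pow_atTop_nhds_zero_of_lt_one (by norm_num) (by norm_num)).const_mul _
    rw [mul_zero] at h6
    exact abs_nonpos_iff.1 (ge_of_tendsto' h6 e1)
  have hG0 : ∀ v, G v = 0 := by
    intro v
    have e1 : ∀ n : ℕ, |G v| ≤ 2 * C * ‖v‖ ^ 2 * (1 / 2) ^ n := by
      intro n
      have e2 : ∀ n : ℕ, G ((2 : ℝ) ^ n • v) = 8 ^ n * G v := by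
        intro n
        induction n with
        | zero => simp
        | succ n ih =>
          have e3 : (2 : ℝ) ^ (n + 1) • v = (2 : ℝ) • ((2 : ℝ) ^ n • v) := by
            rw [smul_smul, pow_succ]
            congr 1
            ring
          have e4 := hR0 ((2 : ℝ) ^ n • v)
          simp only [R] at e4
          rw [e3, sub_eq_zero.1 e4, ih, pow_succ]
          ring
      have e5 := hG ((2 : ℝ) ^ n • v)
      rw [e2 n, norm_smul, Real.norm_of_nonneg (by positivity), mul_pow, abs_mul,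
        abs_of_pos (by positivity : (0 : ℝ) < 8 ^ n)] at e5
      have e6 : (1 / 8 : ℝ) ^ n * (8 ^ n * |G v|) ≤
          (1 / 8 : ℝ) ^ n * (2 * C * (((2 : ℝ) ^ n) ^ 2 * ‖v‖ ^ 2)) := by gcongr
      have e7 : (1 / 8 : ℝ) ^ n * (8 ^ n * |G v|) = |G v| := by
        rw [← mul_assoc, ← mul_pow]
        norm_num
      have e8 : (1 / 8 : ℝ) ^ n * (2 * C * (((2 : ℝ) ^ n) ^ 2 * ‖v‖ ^ 2)) =
          2 * C * ‖v‖ ^ 2 * (1 / 2) ^ n := by
        have : (1 / 8 : ℝ) ^ n * ((2 : ℝ) ^ n) ^ 2 = (1 / 2) ^ n := by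
          rw [← pow_mul, mul_comm n 2, pow_mul, ← mul_pow]
          norm_num
        rw [← this]
        ring
      rw [e7, e8] at e6
      exact e6
    have h6 : Tendsto (fun n : ℕ => 2 * C * ‖v‖ ^ 2 * (1 / 2 : ℝ) ^ n) atTop
        (𝓝 (2 * C * ‖v‖ ^ 2 * 0)) :=
      (tendsto_pow_atTop_nhds_zero_of_lt_one (by norm_num) (by norm_num)).const_mul _
    rw [mul_zero] at h6
    exact abs_nonpos_iff.1 (ge_of_tendsto' h6 e1)
  have hev : ∀ v, Φ (-v) = Φ v := fun v => (sub_eq_zero.1 (hG0 v)).symm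
  intro v w
  have := hD 0 v w
  simp only [zero_add, zero_sub, h0, hev] at this
  linarith

end P084GII
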