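import Vale.Agent.Lib.P084G.II.UFun
import Vale.Agent.Lib.P084G.II.QF
import Vale.Agent.Lib.P084G.II.CaseH1

/-! Part II, case C: the second order part of the norm at scale `t n` is a bounded quadratic form on the ultrapower. -/

open Filter Topology

namespace P084GII

open P084G

variable {X Y : Type*} [NormedAddCommGroup X] [NormedSpace ℝ X] [NormedAddCommGroup Y]
  [NormedSpace ℝ Y] {J : X → X →L[ℝ] ℝ} {C : ℝ}

/-- scaled version of `AQ` (`sd x (t u) = ‖x‖ sd (x/‖x‖) ((t R'/‖x‖) (u/R'))`) -/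
theorem aq_scaled (hAQ : AQ X) {c R : ℝ} (hc : 0 < c) (hR : 0 < R) {η : ℝ} (hη : 0 < η) :
    ∃ t₀ : ℝ, 0 < t₀ ∧ ∀ t : ℝ, 0 < t → t < t₀ → ∀ x u v : X, c ≤ ‖x‖ → ‖x‖ ≤ R →
      ‖u‖ ≤ R → ‖v‖ ≤ R →
      |sd x (t • (u + v)) + sd x (t • (u - v)) - 2 * sd x (t • u) - 2 * sd x (t • v)|
        ≤ η * t ^ 2 := by
  have hη' : 0 < η * c / R ^ 2 := by positivity
  obtain ⟨t₀, ht₀, h⟩ := hAQ (η * c / R ^ 2) hη'
  refine ⟨t₀ * c / R, by positivity, ?_⟩
  intro t ht htt x u v hx hxR hu hv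
  have hx0 : 0 < ‖x‖ := hc.trans_le hx
  have hs : 0 < t * R / ‖x‖ := by positivity
  have hst : t * R / ‖x‖ < t₀ := by
    rw [div_lt_iff₀ hx0]
    rw [lt_div_iff₀ hR] at htt
    have h1 : t₀ * c ≤ t₀ * ‖x‖ := mul_le_mul_of_nonneg_left hx ht₀.le
    linarith
  have hp : ‖‖x‖⁻¹ • x‖ = 1 := by
    rw [norm_smul, norm_inv, norm_norm, inv_mul_cancel₀ hx0.ne']
  have hu' : ‖R⁻¹ • u‖ ≤ 1 := by
    rw [norm_smul, norm_inv, Real.norm_of_nonneg hR.le, inv_mul_le_iff₀ hR, mul_one]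
    exact hu
  have hv' : ‖R⁻¹ • v‖ ≤ 1 := by
    rw [norm_smul, norm_inv, Real.norm_of_nonneg hR.le, inv_mul_le_iff₀ hR, mul_one]
    exact hv
  have key := h (t * R / ‖x‖) hs hst (‖x‖⁻¹ • x) (R⁻¹ • u) (R⁻¹ • v) hp hu' hv'
  have e : ∀ w : X, sd x (t • w) =
      ‖x‖ * sd (‖x‖⁻¹ • x) ((t * R / ‖x‖) • (R⁻¹ • w)) := by
    intro w
    rw [← sd_smul hx0, smul_smul, mul_inv_cancel₀ hx0.ne', one_smul, smul_smul, smul_smul]
    congr 2
    field_simp
  have e1 : R⁻¹ • u + R⁻¹ • v = R⁻¹ • (u + v) := (smul_add _ _ _).symm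
  have e2 : R⁻¹ • u - R⁻¹ • v = R⁻¹ • (u - v) := (smul_sub _ _ _).symm
  rw [e1, e2] at key
  have e3 : sd x (t • (u + v)) + sd x (t • (u - v)) - 2 * sd x (t • u) - 2 * sd x (t • v) =
      ‖x‖ * (sd (‖x‖⁻¹ • x) ((t * R / ‖x‖) • (R⁻¹ • (u + v))) +
        sd (‖x‖⁻¹ • x) ((t * R / ‖x‖) • (R⁻¹ • (u - v))) -
        2 * sd (‖x‖⁻¹ • x) ((t * R / ‖x‖) • (R⁻¹ • u)) -
        2 * sd (‖x‖⁻¹ • x) ((t * R / ‖x‖) • (R⁻¹ • v))) := by
    rw [e (u + v), e (u - v), e u, e v]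
    ring
  rw [e3, abs_mul, abs_of_pos hx0]
  calc ‖x‖ * _ ≤ ‖x‖ * (η * c / R ^ 2 * (t * R / ‖x‖) ^ 2) :=
        mul_le_mul_of_nonneg_left key hx0.le
    _ = η * t ^ 2 * (c / ‖x‖) := by
        field_simp
    _ ≤ η * t ^ 2 * 1 := by
        refine mul_le_mul_of_nonneg_left ?_ (by positivity)
        exact (div_le_one hx0).2 hx
    _ = η * t ^ 2 := mul_one _

/-- second order part of the norm -/
noncomputable def ph (J : X → X →L[ℝ] ℝ) (x : X) (t : ℝ) (u : X) : ℝ :=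
  (t ^ 2)⁻¹ * (‖x + t • u‖ - ‖x‖ - t * J x u)

/-- difference quotient of the duality map -/
noncomputable def bq (J : X → X →L[ℝ] ℝ) (x : X) (t : ℝ) (u v : X) : ℝ :=
  t⁻¹ * (J (x + t • u) v - J x v)

/-- `0 ≤ ph ≤ C1 ‖u‖^2`, `|bq| ≤ C1 ‖u‖ ‖v‖` (all `u`), and Lipschitz for `t R ≤ c/2`; Taylor at `x + t u`. -/
theorem ph_bd (hJ : Dual2 J C) {c : ℝ} (hc : 0 < c) :
    ∃ C1 : ℝ, 0 ≤ C1 ∧ (∀ (x : X) (t : ℝ) (u : X), c ≤ ‖x‖ → 0 < t →
        0 ≤ ph J x t u ∧ ph J x t u ≤ C1 * ‖u‖ ^ 2) ∧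
      (∀ (x : X) (t : ℝ) (u v : X), c ≤ ‖x‖ → 0 < t → |bq J x t u v| ≤ C1 * ‖u‖ * ‖v‖) ∧
      (∀ (x : X) (t : ℝ) (u u' v : X), c ≤ ‖x‖ → 0 < t → t * ‖u‖ ≤ c / 2 →
        |bq J x t u v - bq J x t u' v| ≤ C1 * ‖u - u'‖ * ‖v‖) ∧
      (∀ (x : X) (t : ℝ) (u v : X), c ≤ ‖x‖ → 0 < t → t * ‖u‖ ≤ c / 2 →
        |ph J x t (u + v) - ph J x t u - bq J x t u v| ≤ C1 * ‖v‖ ^ 2) := by
  have hC := hJ.nonneg
  have hC1 : C / c ≤ 2 * C / c := by
    rw [div_le_div_iff_of_pos_right hc]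
    linarith
  have hnt : ∀ (t : ℝ) (u : X), 0 < t → ‖t • u‖ = t * ‖u‖ := fun t u ht => by
    rw [norm_smul, Real.norm_of_nonneg ht.le]
  -- Taylor
  have hT : ∀ (c' : ℝ) (y : X) (t : ℝ) (v : X), 0 < c' → c' ≤ ‖y‖ → 0 < t →
      0 ≤ (t ^ 2)⁻¹ * (‖y + t • v‖ - ‖y‖ - t * J y v) ∧
      (t ^ 2)⁻¹ * (‖y + t • v‖ - ‖y‖ - t * J y v) ≤ C / c' * ‖v‖ ^ 2 := by
    intro c' y t v hc' hy ht
    have hy0 : 0 < ‖y‖ := hc'.trans_le hy
    have h1 := hJ.toDual.lower y (t • v)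
    have h2 := hJ.taylor (norm_pos_iff.1 hy0) (t • v)
    rw [map_smul, smul_eq_mul] at h1 h2
    rw [hnt t v ht] at h2
    have ht2 : 0 < t ^ 2 := by positivity
    refine ⟨mul_nonneg (inv_nonneg.2 ht2.le) (by linarith), ?_⟩
    rw [inv_mul_le_iff₀ ht2]
    have h3 : C * (t * ‖v‖) ^ 2 / ‖y‖ ≤ C * (t * ‖v‖) ^ 2 / c' :=
      div_le_div_of_nonneg_left (by positivity) hc' hy
    have h4 : C * (t * ‖v‖) ^ 2 / c' = t ^ 2 * (C / c' * ‖v‖ ^ 2) := by ring
    linarith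
  -- Lipschitz
  have hL : ∀ (c' : ℝ) (y : X) (t : ℝ) (w v : X), 0 < c' → c' ≤ ‖y‖ → 0 < t →
      |t⁻¹ * (J (y + t • w) v - J y v)| ≤ C / c' * ‖w‖ * ‖v‖ := by
    intro c' y t w v hc' hy ht
    have hy0 : 0 < ‖y‖ := hc'.trans_le hy
    have h1 := hJ.lip' (norm_pos_iff.1 hy0) (y + t • w)
    have e : ‖y - (y + t • w)‖ = t * ‖w‖ := by
      rw [sub_add_cancel_left, norm_neg, hnt t w ht]
    rw [e] at h1
    have h2 : C * (t * ‖w‖) / ‖y‖ ≤ C * (t * ‖w‖) / c' :=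
      div_le_div_of_nonneg_left (by positivity) hc' hy
    have h3 := (J y - J (y + t • w)).le_opNorm v
    have h4 : (J y - J (y + t • w)) v = J y v - J (y + t • w) v := rfl
    rw [h4, Real.norm_eq_abs, abs_sub_comm] at h3
    rw [abs_mul, abs_of_pos (inv_pos.2 ht), inv_mul_le_iff₀ ht]
    refine (h3.trans (mul_le_mul_of_nonneg_right (h1.trans h2) (norm_nonneg v))).trans
      (le_of_eq ?_)
    ring
  have hhalf : C / (c / 2) = 2 * C / c := by
    field_simp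
  have hlow : ∀ (x : X) (t : ℝ) (u : X), c ≤ ‖x‖ → 0 < t → t * ‖u‖ ≤ c / 2 →
      c / 2 ≤ ‖x + t • u‖ := by
    intro x t u hx ht htu
    have h1 : ‖x‖ ≤ ‖x + t • u‖ + ‖t • u‖ := by
      calc ‖x‖ = ‖(x + t • u) - t • u‖ := by rw [add_sub_cancel_right]
        _ ≤ _ := norm_sub_le _ _
    rw [hnt t u ht] at h1
    linarith
  refine ⟨2 * C / c, by positivity, ?_, ?_, ?_, ?_⟩
  · intro x t u hx ht
    obtain ⟨h1, h2⟩ := hT c x t u hc hx ht
    exact ⟨h1, h2.trans (mul_le_mul_of_nonneg_right hC1 (sq_nonneg _))⟩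
  · intro x t u v hx ht
    refine (hL c x t u v hc hx ht).trans ?_
    exact mul_le_mul_of_nonneg_right (mul_le_mul_of_nonneg_right hC1 (norm_nonneg _))
      (norm_nonneg _)
  · intro x t u u' v hx ht htu
    have h1 := hL (c / 2) (x + t • u) t (u' - u) v (half_pos hc) (hlow x t u hx ht htu) ht
    have e : x + t • u + t • (u' - u) = x + t • u' := by
      rw [smul_sub]
      abel
    rw [e, hhalf, norm_sub_rev u' u] at h1
    have e2 : bq J x t u v - bq J x t u' v = -(t⁻¹ * (J (x + t • u') v - J (x + t • u) v)) := by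
      unfold bq
      ring
    rw [e2, abs_neg]
    exact h1
  · intro x t u v hx ht htu
    obtain ⟨h1, h2⟩ := hT (c / 2) (x + t • u) t v (half_pos hc) (hlow x t u hx ht htu) ht
    rw [hhalf] at h2
    have e : x + t • (u + v) = x + t • u + t • v := by
      rw [smul_add, add_assoc]
    have e2 : ph J x t (u + v) - ph J x t u - bq J x t u v =
        (t ^ 2)⁻¹ * (‖x + t • u + t • v‖ - ‖x + t • u‖ - t * J (x + t • u) v) := by
      unfold ph bq
      rw [e, map_add]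
      field_simp
      ring
    rw [e2, abs_of_nonneg h1]
    exact h2

/-- **Quadratic form.**  `Φ = lim ph` (`ufun_real`), `b = lim bq` (`ufun_real2`, linear in `v`).  `Φ (u+v) + Φ (u-v) - 2 Φ u =
lim t⁻² sd (x + t u) (t v)` satisfies the parallelogram law in `v` (`aq_scaled` at `x + t u`), so `even_par` and then
`qf_main` (with `M u v = b u v`). -/
theorem phi_main (hJ : Dual2 J C) (hAQ : AQ X) {c R : ℝ} (hc : 0 < c) {x : ℕ → X}
    (hx : ∀ n, c ≤ ‖x n‖) (hxR : ∀ n, ‖x n‖ ≤ R) {t : ℕ → ℝ} (ht0 : ∀ n, 0 < t n)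
    (ht : Tendsto t atTop (𝓝 0)) :
    ∃ B : XU X →L[ℝ] XU X →L[ℝ] ℝ, (∀ u v, B u v = B v u) ∧ (∀ u, 0 ≤ B u u) ∧
      (∀ u v : ℕ → X, Bd u → Bd v →
        Tendsto (fun n => bq J (x n) (t n) (u n) (v n)) (UU : Filter ℕ) (𝓝 (B (uq u) (uq v)))) ∧
      (∀ u : ℕ → X, Bd u →
        Tendsto (fun n => ph J (x n) (t n) (u n)) (UU : Filter ℕ) (𝓝 (B (uq u) (uq u) / 2))) := by
  obtain ⟨C1, hC1, b1, b2, b3, b4⟩ := ph_bd hJ hc
  -- small `t n`
  have hsm : ∀ R' : ℝ, ∀ᶠ n in atTop, t n * R' ≤ c / 2 := by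
    intro R'
    have h1 : Tendsto (fun n => t n * R') atTop (𝓝 (0 * R')) := ht.mul_const R'
    rw [zero_mul] at h1
    filter_upwards [h1.eventually_lt_const (half_pos hc)] with n hn
    exact hn.le
  have hsmB : ∀ u : ℕ → X, Bd u → ∀ᶠ n in (UU : Filter ℕ), t n * ‖u n‖ ≤ c / 2 := by
    rintro u ⟨D, hD⟩
    filter_upwards [UU_le_atTop (hsm D)] with n hn
    exact (mul_le_mul_of_nonneg_left (hD n) (ht0 n).le).trans hn
  -- the limits
  obtain ⟨Φ, hΦ⟩ := ufun_real (fun n u => ph J (x n) (t n) u)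
    (fun R' => ⟨C1 * R' ^ 2, fun n u hu => by
      obtain ⟨h1, h2⟩ := b1 (x n) (t n) u (hx n) (ht0 n)
      rw [abs_of_nonneg h1]
      exact h2.trans (mul_le_mul_of_nonneg_left (pow_le_pow_left₀ (norm_nonneg u) hu 2) hC1)⟩)
    (fun R' => by
      refine ⟨3 * C1 * |R'|, ?_⟩
      filter_upwards [hsm R'] with n hn u u' hu hu'
      have h1 := b4 (x n) (t n) u' (u - u') (hx n) (ht0 n)
        ((mul_le_mul_of_nonneg_left hu' (ht0 n).le).trans hn)
      rw [add_sub_cancel] at h1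
      have h2 := b2 (x n) (t n) u' (u - u') (hx n) (ht0 n)
      have hR' : R' ≤ |R'| := le_abs_self R'
      have h3 : ‖u - u'‖ ≤ 2 * |R'| := (norm_sub_le _ _).trans (by linarith)
      have h4 : C1 * ‖u - u'‖ ^ 2 ≤ 2 * C1 * |R'| * ‖u - u'‖ := by
        have h5 : C1 * ‖u - u'‖ * ‖u - u'‖ ≤ C1 * ‖u - u'‖ * (2 * |R'|) :=
          mul_le_mul_of_nonneg_left h3 (mul_nonneg hC1 (norm_nonneg _))
        calc C1 * ‖u - u'‖ ^ 2 = C1 * ‖u - u'‖ * ‖u - u'‖ := by ring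
          _ ≤ _ := h5
          _ = _ := by ring
      have h6 : C1 * ‖u'‖ * ‖u - u'‖ ≤ C1 * |R'| * ‖u - u'‖ :=
        mul_le_mul_of_nonneg_right (mul_le_mul_of_nonneg_left (hu'.trans hR') hC1)
          (norm_nonneg _)
      have h7 : ph J (x n) (t n) u - ph J (x n) (t n) u' =
          (ph J (x n) (t n) u - ph J (x n) (t n) u' - bq J (x n) (t n) u' (u - u')) +
            bq J (x n) (t n) u' (u - u') := by ring
      rw [h7]
      refine (abs_add_le _ _).trans ((add_le_add (h1.trans h4) (h2.trans h6)).trans (le_of_eq ?_))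
      ring)
  obtain ⟨b, hb⟩ := ufun_real2 (fun n u v => bq J (x n) (t n) u v)
    (fun R' => ⟨C1 * |R'| * |R'|, fun n u v hu hv => by
      refine (b2 (x n) (t n) u v (hx n) (ht0 n)).trans ?_
      exact mul_le_mul (mul_le_mul_of_nonneg_left (hu.trans (le_abs_self R')) hC1)
        (hv.trans (le_abs_self R')) (norm_nonneg _) (mul_nonneg hC1 (abs_nonneg _))⟩)
    (fun R' => by
      refine ⟨C1 * |R'|, ?_⟩
      filter_upwards [hsm R'] with n hn u u' v v' hu hu' hv hv'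
      have h1 := b3 (x n) (t n) u u' v (hx n) (ht0 n)
        ((mul_le_mul_of_nonneg_left hu (ht0 n).le).trans hn)
      have h2 := b2 (x n) (t n) u' (v - v') (hx n) (ht0 n)
      have hR' : R' ≤ |R'| := le_abs_self R'
      have h3 : bq J (x n) (t n) u' (v - v') =
          bq J (x n) (t n) u' v - bq J (x n) (t n) u' v' := by
        unfold bq
        rw [map_sub, map_sub]
        ring
      have h4 : bq J (x n) (t n) u v - bq J (x n) (t n) u' v' =
          (bq J (x n) (t n) u v - bq J (x n) (t n) u' v) + bq J (x n) (t n) u' (v - v') := by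
        rw [h3]
        ring
      have h5 : C1 * ‖u - u'‖ * ‖v‖ ≤ C1 * ‖u - u'‖ * |R'| :=
        mul_le_mul_of_nonneg_left (hv.trans hR') (mul_nonneg hC1 (norm_nonneg _))
      have h6 : C1 * ‖u'‖ * ‖v - v'‖ ≤ C1 * |R'| * ‖v - v'‖ :=
        mul_le_mul_of_nonneg_right (mul_le_mul_of_nonneg_left (hu'.trans hR') hC1)
          (norm_nonneg _)
      rw [h4]
      refine (abs_add_le _ _).trans ((add_le_add (h1.trans h5) (h2.trans h6)).trans (le_of_eq ?_))
      ring)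
  have hbadd : ∀ ξ η ζ, b ξ (η + ζ) = b ξ η + b ξ ζ := by
    intro ξ η ζ
    obtain ⟨u, hu, rfl⟩ := exists_rep ξ
    obtain ⟨v, hv, rfl⟩ := exists_rep η
    obtain ⟨w, hw, rfl⟩ := exists_rep ζ
    rw [← uq_add hv hw]
    refine tendsto_nhds_unique (hb _ _ hu (hv.add hw))
      (((hb u v hu hv).add (hb u w hu hw)).congr fun n => ?_)
    unfold bq
    rw [map_add, map_add]
    ring
  have hbsmul : ∀ (a : ℝ) ξ η, b ξ (a • η) = a • b ξ η := by
    intro a ξ η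
    obtain ⟨u, hu, rfl⟩ := exists_rep ξ
    obtain ⟨v, hv, rfl⟩ := exists_rep η
    rw [← uq_smul a hv]
    refine tendsto_nhds_unique (hb _ _ hu (hv.smul a))
      (((hb u v hu hv).const_smul a).congr fun n => ?_)
    unfold bq
    rw [map_smul, map_smul, smul_eq_mul, smul_eq_mul, smul_eq_mul]
    ring
  have hbbd : ∀ ξ η, |b ξ η| ≤ C1 * ‖ξ‖ * ‖η‖ := by
    intro ξ η
    obtain ⟨u, hu, rfl⟩ := exists_rep ξ
    obtain ⟨v, hv, rfl⟩ := exists_rep η
    exact le_of_tendsto_of_tendsto' (hb u v hu hv).abs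
      (((norm_uq hu).const_mul C1).mul (norm_uq hv))
      fun n => b2 (x n) (t n) (u n) (v n) (hx n) (ht0 n)
  have hΦ0 : ∀ ξ, 0 ≤ Φ ξ ∧ Φ ξ ≤ C1 * ‖ξ‖ ^ 2 := by
    intro ξ
    obtain ⟨u, hu, rfl⟩ := exists_rep ξ
    refine ⟨ge_of_tendsto' (hΦ u hu) fun n => (b1 (x n) (t n) (u n) (hx n) (ht0 n)).1, ?_⟩
    exact le_of_tendsto_of_tendsto' (hΦ u hu) (((norm_uq hu).pow 2).const_mul C1)
      fun n => (b1 (x n) (t n) (u n) (hx n) (ht0 n)).2
  have hE0 : Φ 0 = 0 := by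
    obtain ⟨h1, h2⟩ := hΦ0 0
    rw [norm_zero] at h2
    refine le_antisymm (h2.trans (le_of_eq ?_)) h1
    ring
  have hTay : ∀ ξ η, ‖Φ (ξ + η) - Φ ξ - b ξ η‖ ≤ C1 * ‖η‖ ^ 2 := by
    intro ξ η
    obtain ⟨u, hu, rfl⟩ := exists_rep ξ
    obtain ⟨v, hv, rfl⟩ := exists_rep η
    rw [← uq_add hu hv]
    refine le_of_tendsto_of_tendsto (((hΦ _ (hu.add hv)).sub (hΦ u hu)).sub (hb u v hu hv)).norm
      (((norm_uq hv).pow 2).const_mul C1) ?_
    filter_upwards [hsmB u hu] with n hn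
    exact b4 (x n) (t n) (u n) (v n) (hx n) (ht0 n) hn
  have hpar : ∀ ξ η, Φ (ξ + η) + Φ (ξ - η) = 2 * Φ ξ + 2 * Φ η := by
    refine even_par Φ C1 (fun ξ => ?_) ?_
    · rw [abs_of_nonneg (hΦ0 ξ).1]
      exact (hΦ0 ξ).2
    · intro ξ η ζ
      obtain ⟨u, hu, rfl⟩ := exists_rep ξ
      obtain ⟨v, hv, rfl⟩ := exists_rep η
      obtain ⟨w, hw, rfl⟩ := exists_rep ζ
      rw [← uq_add hv hw, ← uq_sub hv hw, ← uq_add hu (hv.add hw), ← uq_sub hu (hv.add hw),
        ← uq_add hu (hv.sub hw), ← uq_sub hu (hv.sub hw), ← uq_add hu hv, ← uq_sub hu hv,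
        ← uq_add hu hw, ← uq_sub hu hw]
      have hsec : ∀ (n : ℕ) (y a : X), ph J (x n) (t n) (y + a) + ph J (x n) (t n) (y - a) -
          2 * ph J (x n) (t n) y = (t n ^ 2)⁻¹ * sd (x n + t n • y) (t n • a) := by
        intro n y a
        unfold ph sd
        have e1 : x n + t n • (y + a) = x n + t n • y + t n • a := by
          rw [smul_add, add_assoc]
        have e2 : x n + t n • (y - a) = x n + t n • y - t n • a := by
          rw [smul_sub]
          abel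
        rw [e1, e2, map_add, map_sub]
        ring
      have hzero : Tendsto (fun n => (t n ^ 2)⁻¹ *
          (sd (x n + t n • u n) (t n • (v n + w n)) + sd (x n + t n • u n) (t n • (v n - w n)) -
            2 * sd (x n + t n • u n) (t n • v n) - 2 * sd (x n + t n • u n) (t n • w n)))
          (UU : Filter ℕ) (𝓝 0) := by
        rw [Metric.tendsto_nhds]
        intro ε hε
        obtain ⟨D1, hD1⟩ := hv
        obtain ⟨D2, hD2⟩ := hw
        have hRpos : 0 < |R| + c + |D1| + |D2| := by positivity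
        obtain ⟨t₀, ht₀, h⟩ := aq_scaled hAQ (half_pos hc) hRpos (half_pos hε)
        have ht' := UU_le_atTop (ht.eventually_lt_const ht₀)
        filter_upwards [ht', hsmB u hu] with n hn hn2
        have hn3 : ‖t n • u n‖ ≤ c / 2 := by
          rw [norm_smul, Real.norm_of_nonneg (ht0 n).le]
          exact hn2
        have h1 : c / 2 ≤ ‖x n + t n • u n‖ := by
          have h2 : ‖x n‖ ≤ ‖x n + t n • u n‖ + ‖t n • u n‖ := by
            calc ‖x n‖ = ‖(x n + t n • u n) - t n • u n‖ := by rw [add_sub_cancel_right]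
              _ ≤ _ := norm_sub_le _ _
          have := hx n
          linarith
        have h3 : ‖x n + t n • u n‖ ≤ |R| + c + |D1| + |D2| := by
          have h4 := norm_add_le (x n) (t n • u n)
          have h5 := hxR n
          have h6 := le_abs_self R
          have h7 := abs_nonneg D1
          have h8 := abs_nonneg D2
          linarith
        have h9 : ‖v n‖ ≤ |R| + c + |D1| + |D2| := by
          have h5 := hD1 n
          have h6 := le_abs_self D1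
          have h7 := abs_nonneg R
          have h8 := abs_nonneg D2
          linarith
        have h10 : ‖w n‖ ≤ |R| + c + |D1| + |D2| := by
          have h5 := hD2 n
          have h6 := le_abs_self D2
          have h7 := abs_nonneg R
          have h8 := abs_nonneg D1
          linarith
        have h11 := h (t n) (ht0 n) hn (x n + t n • u n) (v n) (w n) h1 h3 h9 h10
        have ht2 : 0 < t n ^ 2 := pow_pos (ht0 n) 2
        rw [Real.dist_eq, sub_zero, abs_mul, abs_of_pos (inv_pos.2 ht2)]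
        have h12 : (t n ^ 2)⁻¹ *
            |sd (x n + t n • u n) (t n • (v n + w n)) + sd (x n + t n • u n) (t n • (v n - w n)) -
            2 * sd (x n + t n • u n) (t n • v n) - 2 * sd (x n + t n • u n) (t n • w n)| ≤
            ε / 2 := by
          rw [inv_mul_le_iff₀ ht2]
          exact h11.trans (le_of_eq (mul_comm _ _))
        linarith
      have hl1 := ((((hΦ _ (hu.add (hv.add hw))).add (hΦ _ (hu.sub (hv.add hw)))).sub
        ((hΦ u hu).const_mul 2)).add (((hΦ _ (hu.add (hv.sub hw))).add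
        (hΦ _ (hu.sub (hv.sub hw)))).sub ((hΦ u hu).const_mul 2))).sub
        ((((((hΦ _ (hu.add hv)).add (hΦ _ (hu.sub hv))).sub ((hΦ u hu).const_mul 2)).const_mul
          2)).add (((((hΦ _ (hu.add hw)).add (hΦ _ (hu.sub hw))).sub
          ((hΦ u hu).const_mul 2)).const_mul 2)))
      have hl2 := tendsto_nhds_unique (hl1.congr fun n => by
        rw [hsec, hsec, hsec, hsec]
        ring) hzero
      exact sub_eq_zero.1 hl2
  let M : XU X → XU X →ₗ[ℝ] ℝ := fun ξ =>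
    { toFun := b ξ
      map_add' := fun η ζ => hbadd ξ η ζ
      map_smul' := fun a η => hbsmul a ξ η }
  obtain ⟨B, hB1, hB2, hB3⟩ := qf_main Φ M C1 hE0 (fun ξ η => hTay ξ η) (fun ξ η => by
    rw [Real.norm_eq_abs]
    exact hbbd ξ η) (fun ξ η => by
    rw [smul_eq_mul, smul_eq_mul]
    exact hpar ξ η)
  have hB3' : ∀ ξ, B ξ ξ / 2 = Φ ξ := by
    intro ξ
    rw [← hB3 ξ, smul_eq_mul]
    ring
  refine ⟨B, hB2, fun ξ => ?_, fun u v hu hv => ?_, fun u hu => ?_⟩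
  · have h1 := (hΦ0 ξ).1
    have h2 := hB3' ξ
    linarith
  · rw [hB1]
    exact hb u v hu hv
  · rw [hB3']
    exact hΦ u hu

end P084GII
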