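import Vale.Agent.Lib.P084G.II.Phi
import Vale.Agent.Lib.P084G.II.DiffLip

/-! Part II, case C: the second order relation and the bilinear map `M`. -/

open Filter Topology

namespace P084GII

open P084G

variable {X Y : Type*} [NormedAddCommGroup X] [NormedSpace ℝ X] [NormedAddCommGroup Y]
  [NormedSpace ℝ Y] {J : X → X →L[ℝ] ℝ} {K : Y → Y →L[ℝ] ℝ} {T : X → Y} {S : Y → X} {C C' : ℝ}

/-- second order part of `T` -/
noncomputable def Eq2 (T : X → Y) (p : X) (t : ℝ) (u : X) : Y :=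
  (t ^ 2)⁻¹ • (T (p + t • u) - T p - t • fderiv ℝ T p u)

/-- difference quotient of the derivative -/
noncomputable def Mq (T : X → Y) (p : X) (t : ℝ) (u v : X) : Y :=
  t⁻¹ • (fderiv ℝ T (p + t • u) v - fderiv ℝ T p v)

/-- Lipschitz estimate away from the origin -/
private theorem Q2_lip [CompleteSpace X] [CompleteSpace Y] (hJ : Dual2 J C) (hK : Dual2 K C')
    (h : HI T S) {L : ℝ}
    (hL : ∀ x y : X, ‖x‖ = 1 → ‖fderiv ℝ T x - fderiv ℝ T y‖ ≤ L * ‖x - y‖) {x : X}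
    (hx : x ≠ 0) (y : X) :
    ‖fderiv ℝ T x - fderiv ℝ T y‖ ≤ L * (‖x‖⁻¹ * ‖x - y‖) := by
  have hx0 : 0 < ‖x‖ := norm_pos_iff.2 hx
  have h1 : ‖‖x‖⁻¹ • x‖ = 1 := by
    rw [norm_smul, norm_inv, norm_norm, inv_mul_cancel₀ hx0.ne']
  have h2 := hL (‖x‖⁻¹ • x) (‖x‖⁻¹ • y) h1
  have h3 : fderiv ℝ T (‖x‖⁻¹ • y) = fderiv ℝ T y := by
    rcases eq_or_ne y 0 with rfl | hy
    · rw [smul_zero]
    · exact fd_smul hJ.toU hK.toU h hy (inv_pos.2 hx0)
  rw [fd_smul hJ.toU hK.toU h hx (inv_pos.2 hx0), h3, ← smul_sub, norm_smul, norm_inv,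
    norm_norm] at h2
  exact h2

/-- second order Taylor estimate away from the origin -/
private theorem Q2_taylor [CompleteSpace X] [CompleteSpace Y] (hJ : Dual2 J C) (hK : Dual2 K C')
    (h : HI T S) {L : ℝ}
    (hL : ∀ x u : X, ‖x‖ = 1 → ‖T (x + u) - T x - fderiv ℝ T x u‖ ≤ L * ‖u‖ ^ 2) {x : X}
    (hx : x ≠ 0) (w : X) :
    ‖T (x + w) - T x - fderiv ℝ T x w‖ ≤ L * (‖x‖⁻¹ * ‖w‖ ^ 2) := by
  have hx0 : 0 < ‖x‖ := norm_pos_iff.2 hx
  have h1 : ‖‖x‖⁻¹ • x‖ = 1 := by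
    rw [norm_smul, norm_inv, norm_norm, inv_mul_cancel₀ hx0.ne']
  have h2 := hL (‖x‖⁻¹ • x) (‖x‖⁻¹ • w) h1
  rw [← smul_add, h.smul _ (inv_pos.2 hx0).le, h.smul _ (inv_pos.2 hx0).le,
    fd_smul hJ.toU hK.toU h hx (inv_pos.2 hx0), map_smul, ← smul_sub, ← smul_sub, norm_smul,
    norm_smul, norm_inv, norm_norm] at h2
  have h3 := mul_le_mul_of_nonneg_left h2 hx0.le
  have e1 : ‖x‖ * (‖x‖⁻¹ * ‖T (x + w) - T x - fderiv ℝ T x w‖) =
      ‖T (x + w) - T x - fderiv ℝ T x w‖ := by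
    rw [← mul_assoc, mul_inv_cancel₀ hx0.ne', one_mul]
  have e2 : ‖x‖ * (L * (‖x‖⁻¹ * ‖w‖) ^ 2) = L * (‖x‖⁻¹ * ‖w‖ ^ 2) := by
    field_simp
  rw [e1, e2] at h3
  exact h3

private theorem Q2_half {p u : X} {t : ℝ} (hp : ‖p‖ = 1) (ht : 0 < t) (hu : t * ‖u‖ ≤ 1 / 2) :
    p + t • u ≠ 0 ∧ ‖p + t • u‖⁻¹ ≤ 2 := by
  have h1 : ‖p‖ ≤ ‖p + t • u‖ + ‖t • u‖ := by
    have e : p = (p + t • u) - t • u := by abel
    calc ‖p‖ = ‖(p + t • u) - t • u‖ := by rw [← e]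
      _ ≤ _ := norm_sub_le _ _
  rw [hp, norm_smul, Real.norm_of_nonneg ht.le] at h1
  have h2 : 1 / 2 ≤ ‖p + t • u‖ := by linarith
  have h3 : 0 < ‖p + t • u‖ := by linarith
  refine ⟨norm_pos_iff.1 h3, ?_⟩
  rw [inv_le_comm₀ h3 (by norm_num)]
  linarith

/-- bounds (`taylorT`, `fd_lip`; near `p + t u` use `fd_smul`) -/
theorem Eq2_bd [CompleteSpace X] [CompleteSpace Y] (hJ : Dual2 J C) (hK : Dual2 K C')
    (h : HI T S) :
    ∃ C1 : ℝ, 0 ≤ C1 ∧ (∀ (p : X) (t : ℝ) (u : X), ‖p‖ = 1 → 0 < t →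
        ‖Eq2 T p t u‖ ≤ C1 * ‖u‖ ^ 2) ∧
      (∀ (p : X) (t : ℝ) (u v : X), ‖p‖ = 1 → 0 < t → ‖Mq T p t u v‖ ≤ C1 * ‖u‖ * ‖v‖) ∧
      (∀ (p : X) (t : ℝ) (u u' v : X), ‖p‖ = 1 → 0 < t → t * ‖u‖ ≤ 1 / 2 →
        ‖Mq T p t u v - Mq T p t u' v‖ ≤ C1 * ‖u - u'‖ * ‖v‖) ∧
      (∀ (p : X) (t : ℝ) (u v : X), ‖p‖ = 1 → 0 < t → t * ‖u‖ ≤ 1 / 2 →
        ‖Eq2 T p t (u + v) - Eq2 T p t u - Mq T p t u v‖ ≤ C1 * ‖v‖ ^ 2) := by
  obtain ⟨L, hL, hlip⟩ := fd_lip hJ hK h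
  obtain ⟨L', hL', htay⟩ := taylorT hJ hK h
  have hnt : ∀ {t : ℝ} (u : X), 0 < t → ‖t • u‖ = t * ‖u‖ := fun u ht => by
    rw [norm_smul, Real.norm_of_nonneg ht.le]
  refine ⟨2 * L + 2 * L', by linarith, ?_, ?_, ?_, ?_⟩
  · intro p t u hp ht
    have h1 := htay p (t • u) hp
    rw [map_smul, hnt u ht] at h1
    rw [Eq2, norm_smul, norm_inv, norm_pow, Real.norm_of_nonneg ht.le,
      inv_mul_le_iff₀ (by positivity)]
    refine h1.trans ?_
    have h2 : 0 ≤ t ^ 2 * ‖u‖ ^ 2 := by positivity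
    nlinarith
  · intro p t u v hp ht
    have h1 := ((fderiv ℝ T p - fderiv ℝ T (p + t • u)).le_opNorm v).trans
      (mul_le_mul_of_nonneg_right (hlip p (p + t • u) hp) (norm_nonneg v))
    rw [sub_add_cancel_left, norm_neg, hnt u ht] at h1
    have e1 : ‖(fderiv ℝ T p - fderiv ℝ T (p + t • u)) v‖ =
        ‖fderiv ℝ T (p + t • u) v - fderiv ℝ T p v‖ := by
      rw [norm_sub_rev]
      rfl
    rw [e1] at h1
    rw [Mq, norm_smul, norm_inv, Real.norm_of_nonneg ht.le, inv_mul_le_iff₀ ht]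
    refine h1.trans ?_
    have h2 : 0 ≤ t * ‖u‖ * ‖v‖ := by positivity
    nlinarith
  · intro p t u u' v hp ht hu
    obtain ⟨hx, hx2⟩ := Q2_half hp ht hu
    have h0 := Q2_lip hJ hK h hlip hx (p + t • u')
    have e0 : p + t • u - (p + t • u') = t • (u - u') := by
      rw [smul_sub]
      abel
    rw [e0, hnt _ ht] at h0
    have h00 : ‖fderiv ℝ T (p + t • u) - fderiv ℝ T (p + t • u')‖ ≤
        L * (2 * (t * ‖u - u'‖)) := by
      refine h0.trans (mul_le_mul_of_nonneg_left ?_ hL)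
      exact mul_le_mul_of_nonneg_right hx2 (by positivity)
    have h1 := ((fderiv ℝ T (p + t • u) - fderiv ℝ T (p + t • u')).le_opNorm v).trans
      (mul_le_mul_of_nonneg_right h00 (norm_nonneg v))
    have e1 : Mq T p t u v - Mq T p t u' v =
        t⁻¹ • ((fderiv ℝ T (p + t • u) - fderiv ℝ T (p + t • u')) v) := by
      rw [Mq, Mq, ← smul_sub]
      congr 1
      rw [sub_apply]
      abel
    rw [e1, norm_smul, norm_inv, Real.norm_of_nonneg ht.le, inv_mul_le_iff₀ ht]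
    refine h1.trans ?_
    have h2 : 0 ≤ t * ‖u - u'‖ * ‖v‖ := by positivity
    nlinarith
  · intro p t u v hp ht hu
    obtain ⟨hx, hx2⟩ := Q2_half hp ht hu
    have h0 := Q2_taylor hJ hK h htay hx (t • v)
    rw [map_smul, hnt _ ht] at h0
    have h1 : ‖T (p + t • u + t • v) - T (p + t • u) - t • fderiv ℝ T (p + t • u) v‖ ≤
        L' * (2 * (t * ‖v‖) ^ 2) := by
      refine h0.trans (mul_le_mul_of_nonneg_left ?_ hL')
      exact mul_le_mul_of_nonneg_right hx2 (by positivity)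
    have e1 : Eq2 T p t (u + v) - Eq2 T p t u - Mq T p t u v =
        (t ^ 2)⁻¹ • (T (p + t • u + t • v) - T (p + t • u) -
          t • fderiv ℝ T (p + t • u) v) := by
      have e2 : t⁻¹ = (t ^ 2)⁻¹ * t := by
        field_simp
      have e3 : p + t • (u + v) = p + t • u + t • v := by
        rw [smul_add, add_assoc]
      rw [Eq2, Eq2, Mq, e2, mul_smul, ← smul_sub, ← smul_sub, e3, map_add]
      congr 1
      module
    rw [e1, norm_smul, norm_inv, norm_pow, Real.norm_of_nonneg ht.le,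
      inv_mul_le_iff₀ (by positivity)]
    refine h1.trans ?_
    have h2 : 0 ≤ t ^ 2 * ‖v‖ ^ 2 := by positivity
    nlinarith

/-- first order expansion of the norm with the functional at a fixed point -/
private theorem Q2_exp (hJ : Dual2 J C) {c : ℝ} (hc : 0 < c) {z : X} (hz : c ≤ ‖z‖) (w k : X) :
    |‖w + k‖ - ‖w‖ - J z k| ≤ C / c * ((‖w - z‖ + ‖k‖) * ‖k‖) := by
  have hC : 0 ≤ C / c := div_nonneg hJ.nonneg hc.le
  have hz0 : z ≠ 0 := norm_pos_iff.1 (hc.trans_le hz)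
  have hd : ∀ y : X, |J y k - J z k| ≤ C / c * (‖y - z‖ * ‖k‖) := by
    intro y
    have h1 := hJ.lip' hz0 y
    have h2 : C * ‖z - y‖ / ‖z‖ ≤ C * ‖z - y‖ / c :=
      div_le_div_of_nonneg_left (mul_nonneg hJ.nonneg (norm_nonneg _)) hc hz
    have h3 := (J z - J y).le_opNorm k
    have h4 : (J z - J y) k = J z k - J y k := rfl
    rw [h4, Real.norm_eq_abs, abs_sub_comm] at h3
    refine h3.trans ?_
    have h5 := mul_le_mul_of_nonneg_right (h1.trans h2) (norm_nonneg k)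
    refine h5.trans (le_of_eq ?_)
    rw [norm_sub_rev]
    ring
  have h1 := hJ.toDual.lower w k
  have h2 := hJ.toDual.lower (w + k) (-k)
  rw [map_neg, add_neg_cancel_right] at h2
  have h3 := abs_le.1 (hd w)
  have h4 := abs_le.1 (hd (w + k))
  have h5 : ‖w + k - z‖ ≤ ‖w - z‖ + ‖k‖ := by
    have e : w + k - z = (w - z) + k := by abel
    rw [e]
    exact norm_add_le _ _
  have h6 : C / c * (‖w + k - z‖ * ‖k‖) ≤ C / c * ((‖w - z‖ + ‖k‖) * ‖k‖) :=
    mul_le_mul_of_nonneg_left (mul_le_mul_of_nonneg_right h5 (norm_nonneg k)) hC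
  have h7 : C / c * (‖w - z‖ * ‖k‖) ≤ C / c * ((‖w - z‖ + ‖k‖) * ‖k‖) := by
    refine mul_le_mul_of_nonneg_left (mul_le_mul_of_nonneg_right ?_ (norm_nonneg k)) hC
    linarith [norm_nonneg k]
  rw [abs_le]
  constructor <;> linarith [h3.1, h3.2, h4.1, h4.2]

/-- **Second order relation for a general direction `u`.**  `z = p - y`, `z' = T p - T y`, `cu = u - J p u • y`,
`cu' = fderiv ℝ T p u - J p u • T y`; `r = ‖p + t u‖ = 1 + t J p u + t^2 ph`.  `HI.rel`: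
`‖z + t cu - t^2 ph y‖ = ‖z' + t cu' + t^2 (Eq2 - ph • T y)‖`; first order terms agree by `fd_D1`. -/
theorem q2_rel [CompleteSpace X] [CompleteSpace Y] (hJ : Dual2 J C) (hK : Dual2 K C')
    (h : HI T S) {c R : ℝ} (hc : 0 < c) (hR : 0 ≤ R) :
    ∃ C1 t1 : ℝ, 0 ≤ C1 ∧ 0 < t1 ∧ ∀ (p y u : X) (t : ℝ), ‖p‖ = 1 → ‖y‖ = 1 → c ≤ ‖p - y‖ →
      ‖u‖ ≤ R → 0 < t → t ≤ t1 →
      |K (T p - T y) (Eq2 T p t u)
        - (ph J (p - y) t (u - J p u • y) - ph K (T p - T y) t (fderiv ℝ T p u - J p u • T y)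
            + ph J p t u * (K (T p - T y) (T y) - J (p - y) y))| ≤ C1 * t := by
  obtain ⟨L, hL, hE, -, -, -⟩ := Eq2_bd hJ hK h
  have hC := hJ.nonneg
  have hC' := hK.nonneg
  have hCc : 0 ≤ C / c := div_nonneg hC hc.le
  have hCc' : 0 ≤ C' / c := div_nonneg hC' hc.le
  refine ⟨C / c * ((2 * R + C * R ^ 2) * (C * R ^ 2)) +
    C' / c * ((4 * R + (L + C) * R ^ 2) * ((L + C) * R ^ 2)), 1, by positivity, one_pos, ?_⟩
  intro p y u t hp hy hpy hu ht ht1
  have hp0 : p ≠ 0 := by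
    rintro rfl
    rw [norm_zero] at hp
    exact zero_ne_one hp
  have hpy' : p ≠ y := by
    rintro rfl
    rw [sub_self, norm_zero] at hpy
    linarith
  obtain ⟨a, ha⟩ : ∃ a : ℝ, a = J p u := ⟨_, rfl⟩
  obtain ⟨φ, hφ⟩ : ∃ φ : ℝ, φ = ph J p t u := ⟨_, rfl⟩
  obtain ⟨E, hEd⟩ : ∃ E : Y, E = Eq2 T p t u := ⟨_, rfl⟩
  obtain ⟨D, hD⟩ : ∃ D : Y, D = fderiv ℝ T p u := ⟨_, rfl⟩
  have ht2 : 0 < t ^ 2 := by positivity
  have hu0 := norm_nonneg u
  have hur : ‖u‖ ^ 2 ≤ R ^ 2 := pow_le_pow_left₀ hu0 hu 2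
  have haR : |a| ≤ R := by
    rw [ha]
    exact (hJ.toDual.abs_le p u).trans hu
  -- `r`
  have hr : ‖p + t • u‖ = 1 + t * a + t ^ 2 * φ := by
    rw [hφ, ph, hp, ha]
    field_simp
    ring
  have hφ0 : 0 ≤ φ := by
    have h1 := hJ.toDual.lower p (t • u)
    rw [hp, map_smul, smul_eq_mul, ← ha, hr] at h1
    by_contra hneg
    rw [not_le] at hneg
    nlinarith
  have hφ1 : φ ≤ C * R ^ 2 := by
    have h1 := hJ.taylor hp0 (t • u)
    rw [hp, map_smul, smul_eq_mul, ← ha, hr, div_one, norm_smul, Real.norm_of_nonneg ht.le] at h1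
    have h2 : t ^ 2 * φ ≤ t ^ 2 * (C * ‖u‖ ^ 2) := by nlinarith
    have h3 := le_of_mul_le_mul_left h2 ht2
    exact h3.trans (mul_le_mul_of_nonneg_left hur hC)
  have hEn : ‖E‖ ≤ L * R ^ 2 := by
    rw [hEd]
    exact (hE p t u hp ht).trans (mul_le_mul_of_nonneg_left hur hL)
  have hDn : ‖D‖ ≤ 3 * R := by
    rw [hD]
    exact ((fderiv ℝ T p).le_opNorm u).trans
      (mul_le_mul (fd_norm h p) hu hu0 (by norm_num))
  have hTy : ‖T y‖ = 1 := by rw [h.norm, hy]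
  have hzz : ‖T p - T y‖ = ‖p - y‖ := h.dist p y (by rw [hp, hy])
  -- the relation
  have hTpu : T (p + t • u) = T p + t • D + t ^ 2 • E := by
    rw [hEd, Eq2, smul_inv_smul₀ ht2.ne', ← hD]
    abel
  have hrel := h.rel (p + t • u) hy
  rw [hr] at hrel
  have e1 : T (p + t • u) - (1 + t * a + t ^ 2 * φ) • T y =
      (T p - T y + t • (D - a • T y)) + t ^ 2 • (E - φ • T y) := by
    rw [hTpu]
    module
  have e2 : p + t • u - (1 + t * a + t ^ 2 * φ) • y =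
      (p - y + t • (u - a • y)) + (-(t ^ 2 * φ)) • y := by
    module
  rw [e1, e2] at hrel
  -- the exact first parts
  have hJz : ‖p - y + t • (u - a • y)‖ =
      ‖p - y‖ + t * J (p - y) (u - a • y) + t ^ 2 * ph J (p - y) t (u - a • y) := by
    rw [ph]
    field_simp
    ring
  have hKz : ‖T p - T y + t • (D - a • T y)‖ = ‖T p - T y‖ +
      t * K (T p - T y) (D - a • T y) + t ^ 2 * ph K (T p - T y) t (D - a • T y) := by
    rw [ph]
    field_simp
    ring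
  have hD1 := fd_D1 hJ.toU hK.toU h hp hy hpy' u
  rw [← hD, ← ha] at hD1
  have hfo : K (T p - T y) (D - a • T y) = J (p - y) (u - a • y) := by
    rw [map_sub, map_smul, smul_eq_mul, hD1, map_sub, map_smul, smul_eq_mul]
    ring
  -- the errors
  have k1 := Q2_exp hJ hc hpy (p - y + t • (u - a • y)) ((-(t ^ 2 * φ)) • y)
  have k2 := Q2_exp hK hc (hpy.trans_eq hzz.symm) (T p - T y + t • (D - a • T y))
    (t ^ 2 • (E - φ • T y))
  rw [add_sub_cancel_left] at k1 k2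
  have n1 : ‖(-(t ^ 2 * φ)) • y‖ ≤ t ^ 2 * (C * R ^ 2) := by
    rw [norm_smul, norm_neg, hy, mul_one, Real.norm_of_nonneg (by positivity)]
    exact mul_le_mul_of_nonneg_left hφ1 ht2.le
  have n2 : ‖t • (u - a • y)‖ ≤ t * (2 * R) := by
    rw [norm_smul, Real.norm_of_nonneg ht.le]
    refine mul_le_mul_of_nonneg_left ?_ ht.le
    refine (norm_sub_le _ _).trans ?_
    rw [norm_smul, hy, mul_one, Real.norm_eq_abs]
    linarith
  have n3 : ‖t ^ 2 • (E - φ • T y)‖ ≤ t ^ 2 * ((L + C) * R ^ 2) := by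
    rw [norm_smul, Real.norm_of_nonneg ht2.le]
    refine mul_le_mul_of_nonneg_left ?_ ht2.le
    refine (norm_sub_le _ _).trans ?_
    rw [norm_smul, hTy, mul_one, Real.norm_of_nonneg hφ0]
    linarith
  have n4 : ‖t • (D - a • T y)‖ ≤ t * (4 * R) := by
    rw [norm_smul, Real.norm_of_nonneg ht.le]
    refine mul_le_mul_of_nonneg_left ?_ ht.le
    refine (norm_sub_le _ _).trans ?_
    rw [norm_smul, hTy, mul_one, Real.norm_eq_abs]
    linarith
  have htt : t ^ 2 ≤ t := by nlinarith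
  have hprod : ∀ {α β A B : ℝ}, 0 ≤ α → 0 ≤ β → 0 ≤ A → 0 ≤ B → α ≤ t * A → β ≤ t ^ 2 * B →
      (α + β) * β ≤ t ^ 2 * (t * ((A + B) * B)) := by
    intro α β A B hα hβ hA hB h1 h2
    have h3 : α + β ≤ t * (A + B) := by
      have h4 : t ^ 2 * B ≤ t * B := mul_le_mul_of_nonneg_right htt hB
      linarith
    calc (α + β) * β ≤ (t * (A + B)) * (t ^ 2 * B) :=
          mul_le_mul h3 h2 hβ (by positivity)
      _ = t ^ 2 * (t * ((A + B) * B)) := by ring
  have m1 : |‖p - y + t • (u - a • y) + (-(t ^ 2 * φ)) • y‖ - ‖p - y + t • (u - a • y)‖ -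
      J (p - y) ((-(t ^ 2 * φ)) • y)| ≤
      C / c * (t ^ 2 * (t * ((2 * R + C * R ^ 2) * (C * R ^ 2)))) :=
    k1.trans (mul_le_mul_of_nonneg_left (hprod (norm_nonneg _) (norm_nonneg _) (by positivity)
      (by positivity) n2 n1) hCc)
  have m2 : |‖T p - T y + t • (D - a • T y) + t ^ 2 • (E - φ • T y)‖ -
      ‖T p - T y + t • (D - a • T y)‖ - K (T p - T y) (t ^ 2 • (E - φ • T y))| ≤
      C' / c * (t ^ 2 * (t * ((4 * R + (L + C) * R ^ 2) * ((L + C) * R ^ 2)))) :=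
    k2.trans (mul_le_mul_of_nonneg_left (hprod (norm_nonneg _) (norm_nonneg _) (by positivity)
      (by positivity) n4 n3) hCc')
  rw [← ha, ← hφ, ← hEd, ← hD]
  have hKE : K (T p - T y) (t ^ 2 • (E - φ • T y)) =
      t ^ 2 * (K (T p - T y) E - φ * K (T p - T y) (T y)) := by
    rw [map_smul, map_sub, map_smul, smul_eq_mul, smul_eq_mul]
  rw [hrel, hKz, hfo, hzz, hKE] at m2
  rw [hJz, map_smul, smul_eq_mul] at m1
  obtain ⟨X1, hX1⟩ : ∃ X1 : ℝ, X1 = K (T p - T y) E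
        - (ph J (p - y) t (u - a • y) - ph K (T p - T y) t (D - a • T y)
            + φ * (K (T p - T y) (T y) - J (p - y) y)) := ⟨_, rfl⟩
  rw [← hX1]
  have key : |t ^ 2 * X1| ≤ t ^ 2 * ((C / c * ((2 * R + C * R ^ 2) * (C * R ^ 2)) +
      C' / c * ((4 * R + (L + C) * R ^ 2) * ((L + C) * R ^ 2))) * t) := by
    have e3 : t ^ 2 * X1 = (‖p - y + t • (u - a • y) + (-(t ^ 2 * φ)) • y‖ -
        (‖p - y‖ + t * J (p - y) (u - a • y) + t ^ 2 * ph J (p - y) t (u - a • y)) -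
          -(t ^ 2 * φ) * J (p - y) y) -
        (‖p - y + t • (u - a • y) + (-(t ^ 2 * φ)) • y‖ - (‖p - y‖ +
          t * J (p - y) (u - a • y) + t ^ 2 * ph K (T p - T y) t (D - a • T y)) -
            t ^ 2 * (K (T p - T y) E - φ * K (T p - T y) (T y))) := by
      rw [hX1]
      ring
    rw [e3]
    refine (abs_sub _ _).trans ((add_le_add m1 m2).trans (le_of_eq ?_))
    ring
  rw [abs_mul, abs_of_pos ht2] at key
  exact le_of_mul_le_mul_left key ht2

/-- the second order part of the norm satisfies the parallelogram law in the limit -/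
private theorem Q2_ph_par (hJ : Dual2 J C) (hAQ : AQ X) {c R : ℝ} (hc : 0 < c) {x : ℕ → X}
    (hx : ∀ n, c ≤ ‖x n‖) (hxR : ∀ n, ‖x n‖ ≤ R) {t : ℕ → ℝ} (ht0 : ∀ n, 0 < t n)
    (ht : Tendsto t atTop (𝓝 0)) {a b : ℕ → X} (ha : Bd a) (hb : Bd b) :
    Tendsto (fun n => ph J (x n) (t n) (a n + b n) + ph J (x n) (t n) (a n - b n) -
      2 * ph J (x n) (t n) (a n) - 2 * ph J (x n) (t n) (b n)) (UU : Filter ℕ) (𝓝 0) := by
  obtain ⟨B, hs, -, -, hq⟩ := phi_main hJ hAQ hc hx hxR ht0 ht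
  have h1 := (((hq _ (ha.add hb)).add (hq _ (ha.sub hb))).sub ((hq a ha).const_mul 2)).sub
    ((hq b hb).const_mul 2)
  have e : B (uq fun n => a n + b n) (uq fun n => a n + b n) / 2 +
      B (uq fun n => a n - b n) (uq fun n => a n - b n) / 2 - 2 * (B (uq a) (uq a) / 2) -
      2 * (B (uq b) (uq b) / 2) = 0 := by
    rw [uq_add ha hb, uq_sub ha hb]
    simp only [map_add, map_sub, add_apply, sub_apply]
    rw [hs (uq b) (uq a)]
    ring
  rw [e] at h1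
  exact h1

/-- the defect of the parallelogram law for `Eq2` tends to zero -/
private theorem Q2_par [CompleteSpace X] [CompleteSpace Y] (hJ : Dual2 J C) (hK : Dual2 K C')
    (h : HI T S) (hX : AQ X) (hY : AQ Y) {p : ℕ → X} (hp : ∀ n, ‖p n‖ = 1) {t : ℕ → ℝ}
    (ht0 : ∀ n, 0 < t n) (ht : Tendsto t atTop (𝓝 0)) {u v : ℕ → X} (hu : Bd u) (hv : Bd v) :
    Tendsto (fun n => ‖Eq2 T (p n) (t n) (u n + v n) + Eq2 T (p n) (t n) (u n - v n) -
      (2 : ℝ) • Eq2 T (p n) (t n) (u n) - (2 : ℝ) • Eq2 T (p n) (t n) (v n)‖)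
      (UU : Filter ℕ) (𝓝 0) := by
  obtain ⟨ξ, hξ⟩ : ∃ ξ : ℕ → Y, ξ = fun n => Eq2 T (p n) (t n) (u n + v n) +
    Eq2 T (p n) (t n) (u n - v n) - (2 : ℝ) • Eq2 T (p n) (t n) (u n) -
      (2 : ℝ) • Eq2 T (p n) (t n) (v n) := ⟨_, rfl⟩
  have hξn : ∀ n, ξ n = Eq2 T (p n) (t n) (u n + v n) +
    Eq2 T (p n) (t n) (u n - v n) - (2 : ℝ) • Eq2 T (p n) (t n) (u n) -
      (2 : ℝ) • Eq2 T (p n) (t n) (v n) := fun n => by rw [hξ]
  have hTp : ∀ n, ‖T (p n)‖ = 1 := fun n => by rw [h.norm, hp]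
  have hb : ∀ n, ∃ y : X, ‖y‖ = 1 ∧ 1 / 18 ≤ ‖p n - y‖ ∧
      ‖ξ n‖ ≤ 16 * |K (T (p n) - T y) (ξ n)| := by
    intro n
    obtain ⟨y', h1, -, h2, h3⟩ := bls hK.toDual (hTp n) (ξ n)
    refine ⟨S y', ?_, ?_, ?_⟩
    · rw [h.symm.norm, h1]
    · rw [← h.dist (p n) (S y') (by rw [hp, h.symm.norm, h1]), h.TS]
      exact h2
    · rw [h.TS]
      exact h3
  choose y hy hyd hyb using hb
  have hzz : ∀ n, ‖T (p n) - T (y n)‖ = ‖p n - y n‖ := fun n =>
    h.dist _ _ (by rw [hp, hy])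
  have hz2 : ∀ n, ‖p n - y n‖ ≤ 2 := fun n => by
    refine (norm_sub_le _ _).trans ?_
    rw [hp, hy]
    norm_num
  obtain ⟨R1, hR1⟩ := id hu
  obtain ⟨R2, hR2⟩ := id hv
  have hR10 : 0 ≤ R1 := (norm_nonneg _).trans (hR1 0)
  have hR20 : 0 ≤ R2 := (norm_nonneg _).trans (hR2 0)
  obtain ⟨C1, t1, hC1, ht1, hrel⟩ := q2_rel hJ hK h (c := 1 / 18) (R := R1 + R2) (by norm_num)
    (add_nonneg hR10 hR20)
  -- the directions
  have hbd1 : Bd (fun n => u n - J (p n) (u n) • y n) := by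
    refine ⟨R1 + R1, fun n => ?_⟩
    refine (norm_sub_le _ _).trans (add_le_add (hR1 n) ?_)
    rw [norm_smul, hy, mul_one, Real.norm_eq_abs]
    exact (hJ.toDual.abs_le _ _).trans (hR1 n)
  have hbd2 : Bd (fun n => v n - J (p n) (v n) • y n) := by
    refine ⟨R2 + R2, fun n => ?_⟩
    refine (norm_sub_le _ _).trans (add_le_add (hR2 n) ?_)
    rw [norm_smul, hy, mul_one, Real.norm_eq_abs]
    exact (hJ.toDual.abs_le _ _).trans (hR2 n)
  have hTy : ∀ n, ‖T (y n)‖ = 1 := fun n => by rw [h.norm, hy]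
  have hbd3 : Bd (fun n => fderiv ℝ T (p n) (u n) - J (p n) (u n) • T (y n)) := by
    refine ⟨3 * R1 + R1, fun n => ?_⟩
    refine (norm_sub_le _ _).trans (add_le_add ?_ ?_)
    · exact ((fderiv ℝ T (p n)).le_opNorm (u n)).trans
        (mul_le_mul (fd_norm h (p n)) (hR1 n) (norm_nonneg _) (by norm_num))
    · rw [norm_smul, hTy, mul_one, Real.norm_eq_abs]
      exact (hJ.toDual.abs_le _ _).trans (hR1 n)
  have hbd4 : Bd (fun n => fderiv ℝ T (p n) (v n) - J (p n) (v n) • T (y n)) := by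
    refine ⟨3 * R2 + R2, fun n => ?_⟩
    refine (norm_sub_le _ _).trans (add_le_add ?_ ?_)
    · exact ((fderiv ℝ T (p n)).le_opNorm (v n)).trans
        (mul_le_mul (fd_norm h (p n)) (hR2 n) (norm_nonneg _) (by norm_num))
    · rw [norm_smul, hTy, mul_one, Real.norm_eq_abs]
      exact (hJ.toDual.abs_le _ _).trans (hR2 n)
  -- the three limits
  have l1 := Q2_ph_par hJ hX (c := 1 / 18) (R := 2) (by norm_num) (x := fun n => p n - y n)
    hyd hz2 ht0 ht hbd1 hbd2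
  have l2 := Q2_ph_par hK hY (c := 1 / 18) (R := 2) (by norm_num)
    (x := fun n => T (p n) - T (y n)) (fun n => (hyd n).trans_eq (hzz n).symm)
    (fun n => (hzz n).trans_le (hz2 n)) ht0 ht hbd3 hbd4
  have l3 := Q2_ph_par hJ hX (c := 1 / 18) (R := 2) (by norm_num) (x := p)
    (fun n => by rw [hp]; norm_num) (fun n => by rw [hp]; norm_num) ht0 ht hu hv
  obtain ⟨α, hα⟩ : ∃ α : ℕ → ℝ, ∀ n, α n =
    ph J (p n - y n) (t n) ((u n - J (p n) (u n) • y n) + (v n - J (p n) (v n) • y n)) +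
    ph J (p n - y n) (t n) ((u n - J (p n) (u n) • y n) - (v n - J (p n) (v n) • y n)) -
    2 * ph J (p n - y n) (t n) (u n - J (p n) (u n) • y n) -
    2 * ph J (p n - y n) (t n) (v n - J (p n) (v n) • y n) := ⟨_, fun _ => rfl⟩
  obtain ⟨β, hβ⟩ : ∃ β : ℕ → ℝ, ∀ n, β n =
    ph K (T (p n) - T (y n)) (t n) ((fderiv ℝ T (p n) (u n) - J (p n) (u n) • T (y n)) +
      (fderiv ℝ T (p n) (v n) - J (p n) (v n) • T (y n))) +
    ph K (T (p n) - T (y n)) (t n) ((fderiv ℝ T (p n) (u n) - J (p n) (u n) • T (y n)) -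
      (fderiv ℝ T (p n) (v n) - J (p n) (v n) • T (y n))) -
    2 * ph K (T (p n) - T (y n)) (t n) (fderiv ℝ T (p n) (u n) - J (p n) (u n) • T (y n)) -
    2 * ph K (T (p n) - T (y n)) (t n) (fderiv ℝ T (p n) (v n) - J (p n) (v n) • T (y n)) :=
    ⟨_, fun _ => rfl⟩
  obtain ⟨γ, hγ⟩ : ∃ γ : ℕ → ℝ, ∀ n, γ n = ph J (p n) (t n) (u n + v n) +
    ph J (p n) (t n) (u n - v n) - 2 * ph J (p n) (t n) (u n) - 2 * ph J (p n) (t n) (v n) :=
    ⟨_, fun _ => rfl⟩
  have l1' : Tendsto α (UU : Filter ℕ) (𝓝 0) := l1.congr fun n => (hα n).symm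
  have l2' : Tendsto β (UU : Filter ℕ) (𝓝 0) := l2.congr fun n => (hβ n).symm
  have l3' : Tendsto γ (UU : Filter ℕ) (𝓝 0) := l3.congr fun n => (hγ n).symm
  have ht' : Tendsto t (UU : Filter ℕ) (𝓝 0) := ht.mono_left UU_le_atTop
  -- the bound
  have hκ : ∀ n, |K (T (p n) - T (y n)) (T (y n)) - J (p n - y n) (y n)| ≤ 2 := by
    intro n
    have b1 := hK.toDual.abs_le (T (p n) - T (y n)) (T (y n))
    have b2 := hJ.toDual.abs_le (p n - y n) (y n)
    rw [hTy] at b1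
    rw [hy] at b2
    refine (abs_sub _ _).trans ?_
    linarith
  have hbound : ∀ᶠ n in (UU : Filter ℕ), ‖ξ n‖ ≤
      16 * (|α n| + |β n| + 2 * |γ n| + 6 * (C1 * t n)) := by
    have hev : ∀ᶠ n in (UU : Filter ℕ), t n < t1 := ht'.eventually_lt_const ht1
    filter_upwards [hev] with n hn
    have hn1 : ‖u n + v n‖ ≤ R1 + R2 := (norm_add_le _ _).trans (add_le_add (hR1 n) (hR2 n))
    have hn2 : ‖u n - v n‖ ≤ R1 + R2 := (norm_sub_le _ _).trans (add_le_add (hR1 n) (hR2 n))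
    have r1 := hrel (p n) (y n) (u n + v n) (t n) (hp n) (hy n) (hyd n) hn1 (ht0 n) hn.le
    have r2 := hrel (p n) (y n) (u n - v n) (t n) (hp n) (hy n) (hyd n) hn2 (ht0 n) hn.le
    have r3 := hrel (p n) (y n) (u n) (t n) (hp n) (hy n) (hyd n)
      ((hR1 n).trans (le_add_of_nonneg_right hR20)) (ht0 n) hn.le
    have r4 := hrel (p n) (y n) (v n) (t n) (hp n) (hy n) (hyd n)
      ((hR2 n).trans (le_add_of_nonneg_left hR10)) (ht0 n) hn.le
    have s1 : u n + v n - J (p n) (u n + v n) • y n =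
        (u n - J (p n) (u n) • y n) + (v n - J (p n) (v n) • y n) := by
      rw [map_add]
      module
    have s2 : u n - v n - J (p n) (u n - v n) • y n =
        (u n - J (p n) (u n) • y n) - (v n - J (p n) (v n) • y n) := by
      rw [map_sub]
      module
    have s3 : fderiv ℝ T (p n) (u n + v n) - J (p n) (u n + v n) • T (y n) =
        (fderiv ℝ T (p n) (u n) - J (p n) (u n) • T (y n)) +
          (fderiv ℝ T (p n) (v n) - J (p n) (v n) • T (y n)) := by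
      rw [map_add, map_add]
      module
    have s4 : fderiv ℝ T (p n) (u n - v n) - J (p n) (u n - v n) • T (y n) =
        (fderiv ℝ T (p n) (u n) - J (p n) (u n) • T (y n)) -
          (fderiv ℝ T (p n) (v n) - J (p n) (v n) • T (y n)) := by
      rw [map_sub, map_sub]
      module
    rw [s1, s3] at r1
    rw [s2, s4] at r2
    refine (hyb n).trans (mul_le_mul_of_nonneg_left ?_ (by norm_num))
    have hKξ : K (T (p n) - T (y n)) (ξ n) =
        K (T (p n) - T (y n)) (Eq2 T (p n) (t n) (u n + v n)) +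
        K (T (p n) - T (y n)) (Eq2 T (p n) (t n) (u n - v n)) -
        2 * K (T (p n) - T (y n)) (Eq2 T (p n) (t n) (u n)) -
        2 * K (T (p n) - T (y n)) (Eq2 T (p n) (t n) (v n)) := by
      rw [hξn, map_sub, map_sub, map_add, map_smul, map_smul, smul_eq_mul, smul_eq_mul]
    rw [hKξ]
    obtain ⟨κ, hκd⟩ : ∃ κ : ℝ, κ = K (T (p n) - T (y n)) (T (y n)) - J (p n - y n) (y n) :=
      ⟨_, rfl⟩
    have hκn := hκ n
    rw [← hκd] at r1 r2 r3 r4 hκn
    have g1 : |γ n * κ| ≤ 2 * |γ n| := by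
      rw [abs_mul, mul_comm]
      exact mul_le_mul_of_nonneg_right hκn (abs_nonneg _)
    have g2 := neg_abs_le (α n)
    have g3 := le_abs_self (α n)
    have g4 := neg_abs_le (β n)
    have g5 := le_abs_self (β n)
    rw [abs_le] at r1 r2 r3 r4 g1 ⊢
    have a1 := hα n
    have a2 := hβ n
    have a3 : γ n * κ = ph J (p n) (t n) (u n + v n) * κ + ph J (p n) (t n) (u n - v n) * κ -
        2 * (ph J (p n) (t n) (u n) * κ) - 2 * (ph J (p n) (t n) (v n) * κ) := by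
      rw [hγ]
      ring
    constructor <;> linarith [r1.1, r1.2, r2.1, r2.2, r3.1, r3.2, r4.1, r4.2, g1.1, g1.2]
  have hlim : Tendsto (fun n => 16 * (|α n| + |β n| + 2 * |γ n| + 6 * (C1 * t n)))
      (UU : Filter ℕ) (𝓝 0) := by
    have := (((l1'.abs.add l2'.abs).add (l3'.abs.const_mul 2)).add
      ((ht'.const_mul C1).const_mul 6)).const_mul 16
    simpa using this
  have hfin : Tendsto (fun n => ‖ξ n‖) (UU : Filter ℕ) (𝓝 0) :=
    squeeze_zero' (Eventually.of_forall fun n => norm_nonneg _) hbound hlim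
  exact hfin.congr fun n => by rw [hξn]

/-- **The bilinear map `M`.**  `E = lim Eq2` (`ufun_vec`), `M0 = lim Mq` (`ufun_vec2`, linear in the last variable).  For unit `y n` with
`1/18 ≤ ‖p n - y n‖`: `q2_rel` and `phi_main` at `p n`, `p n - y n`, `T (p n) - T (y n)` show that
`lim K (z' n) (E u)` satisfies the parallelogram law in `u`.  If the defect `ξ = E (u+v) + E (u-v) - 2 E u - 2 E v ≠ 0`,
`ξ = uq x`, apply `bls` at `T (p n)`, `x n`: `y' n`, `y n = S (y' n)`: `‖x n‖ ≤ 16 |K (T (p n) - T (y n)) (x n)| → 0`.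
Then `qf_main`. -/
theorem e_main [CompleteSpace X] [CompleteSpace Y] (hJ : Dual2 J C) (hK : Dual2 K C')
    (h : HI T S) (hX : AQ X) (hY : AQ Y) {p : ℕ → X} (hp : ∀ n, ‖p n‖ = 1) {t : ℕ → ℝ}
    (ht0 : ∀ n, 0 < t n) (ht : Tendsto t atTop (𝓝 0)) :
    ∃ M : XU X →L[ℝ] XU X →L[ℝ] XU Y, (∀ u v, M u v = M v u) ∧
      (∀ u v : ℕ → X, Bd u → Bd v →
        Bd (fun n => Mq T (p n) (t n) (u n) (v n)) ∧
          M (uq u) (uq v) = uq (fun n => Mq T (p n) (t n) (u n) (v n))) ∧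
      (∀ u : ℕ → X, Bd u → Bd (fun n => Eq2 T (p n) (t n) (u n)) ∧
        (1 / 2 : ℝ) • M (uq u) (uq u) = uq (fun n => Eq2 T (p n) (t n) (u n))) := by
  obtain ⟨C1, hC1, hE1, hM1, hM2, hE2⟩ := Eq2_bd hJ hK h
  have hMadd : ∀ (n : ℕ) (a b c : X), Mq T (p n) (t n) a (b + c) =
      Mq T (p n) (t n) a b + Mq T (p n) (t n) a c := by
    intro n a b c
    rw [Mq, Mq, Mq, map_add, map_add, ← smul_add]
    congr 1
    abel
  have hMsmul : ∀ (n : ℕ) (a b : X) (c : ℝ), Mq T (p n) (t n) a (c • b) =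
      c • Mq T (p n) (t n) a b := by
    intro n a b c
    rw [Mq, Mq, map_smul, map_smul, ← smul_sub, smul_comm]
  have hMsub : ∀ (n : ℕ) (a b c : X), Mq T (p n) (t n) a (b - c) =
      Mq T (p n) (t n) a b - Mq T (p n) (t n) a c := by
    intro n a b c
    rw [Mq, Mq, Mq, map_sub, map_sub, ← smul_sub]
    congr 1
    abel
  have hsmall : ∀ R : ℝ, ∀ᶠ n in atTop, ∀ x : X, ‖x‖ ≤ R → t n * ‖x‖ ≤ 1 / 2 := by
    intro R
    have h1 : Tendsto (fun n => t n * |R|) atTop (𝓝 0) := by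
      simpa using ht.mul_const |R|
    filter_upwards [h1.eventually_lt_const (show (0 : ℝ) < 1 / 2 by norm_num)] with n hn x hx
    exact (mul_le_mul_of_nonneg_left (hx.trans (le_abs_self R)) (ht0 n).le).trans hn.le
  obtain ⟨E, hE⟩ := ufun_vec (fun n x => Eq2 T (p n) (t n) x)
    (fun R => ⟨C1 * R ^ 2, fun n x hx => (hE1 _ _ _ (hp n) (ht0 n)).trans
      (mul_le_mul_of_nonneg_left (pow_le_pow_left₀ (norm_nonneg _) hx 2) hC1)⟩)
    (fun R => by
      refine ⟨3 * (C1 * |R|), ?_⟩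
      filter_upwards [hsmall R] with n hn x x' hx hx'
      have h1 := hE2 (p n) (t n) x' (x - x') (hp n) (ht0 n) (hn x' hx')
      have h2 := hM1 (p n) (t n) x' (x - x') (hp n) (ht0 n)
      rw [add_sub_cancel] at h1
      have hR1 := hx.trans (le_abs_self R)
      have hR2 := hx'.trans (le_abs_self R)
      have h3 : ‖x - x'‖ ≤ 2 * |R| := (norm_sub_le _ _).trans (by linarith)
      have h4 : ‖Eq2 T (p n) (t n) x - Eq2 T (p n) (t n) x'‖ ≤
          ‖Eq2 T (p n) (t n) x - Eq2 T (p n) (t n) x' - Mq T (p n) (t n) x' (x - x')‖ +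
            ‖Mq T (p n) (t n) x' (x - x')‖ := by
        have e : Eq2 T (p n) (t n) x - Eq2 T (p n) (t n) x' =
            (Eq2 T (p n) (t n) x - Eq2 T (p n) (t n) x' - Mq T (p n) (t n) x' (x - x')) +
            Mq T (p n) (t n) x' (x - x') := by abel
        calc _ = ‖(Eq2 T (p n) (t n) x - Eq2 T (p n) (t n) x' -
              Mq T (p n) (t n) x' (x - x')) + Mq T (p n) (t n) x' (x - x')‖ := by rw [← e]
          _ ≤ _ := norm_add_le _ _
      have h5 : C1 * ‖x - x'‖ ^ 2 ≤ 2 * (C1 * |R|) * ‖x - x'‖ := by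
        have h6 : ‖x - x'‖ * ‖x - x'‖ ≤ 2 * |R| * ‖x - x'‖ :=
          mul_le_mul_of_nonneg_right h3 (norm_nonneg _)
        have h7 := mul_le_mul_of_nonneg_left h6 hC1
        rw [pow_two]
        linarith
      have h8 : C1 * ‖x'‖ * ‖x - x'‖ ≤ C1 * |R| * ‖x - x'‖ :=
        mul_le_mul_of_nonneg_right (mul_le_mul_of_nonneg_left hR2 hC1) (norm_nonneg _)
      linarith)
  obtain ⟨M0, hM0⟩ := ufun_vec2 (fun n x z => Mq T (p n) (t n) x z)
    (fun R => ⟨C1 * |R| * |R|, fun n x z hx hz => (hM1 _ _ _ _ (hp n) (ht0 n)).trans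
      (mul_le_mul (mul_le_mul_of_nonneg_left (hx.trans (le_abs_self R)) hC1)
        (hz.trans (le_abs_self R)) (norm_nonneg _) (by positivity))⟩)
    (fun R => by
      refine ⟨C1 * |R|, ?_⟩
      filter_upwards [hsmall R] with n hn x x' z z' hx hx' hz hz'
      have h1 := hM2 (p n) (t n) x x' z (hp n) (ht0 n) (hn x hx)
      have h2 := hM1 (p n) (t n) x' (z - z') (hp n) (ht0 n)
      have e : Mq T (p n) (t n) x z - Mq T (p n) (t n) x' z' =
          (Mq T (p n) (t n) x z - Mq T (p n) (t n) x' z) + Mq T (p n) (t n) x' (z - z') := by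
        rw [hMsub]
        abel
      rw [e]
      refine (norm_add_le _ _).trans ((add_le_add h1 h2).trans ?_)
      have h3 : C1 * ‖x - x'‖ * ‖z‖ ≤ C1 * ‖x - x'‖ * |R| :=
        mul_le_mul_of_nonneg_left (hz.trans (le_abs_self R)) (by positivity)
      have h4 : C1 * ‖x'‖ * ‖z - z'‖ ≤ C1 * |R| * ‖z - z'‖ :=
        mul_le_mul_of_nonneg_right (mul_le_mul_of_nonneg_left (hx'.trans (le_abs_self R)) hC1)
          (norm_nonneg _)
      linarith)
  let M : XU X → XU X →ₗ[ℝ] XU Y := fun ξ =>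
    { toFun := M0 ξ
      map_add' := by
        intro η ζ
        obtain ⟨x, hx, rfl⟩ := exists_rep ξ
        obtain ⟨y, hy, rfl⟩ := exists_rep η
        obtain ⟨z, hz, rfl⟩ := exists_rep ζ
        rw [← uq_add hy hz, (hM0 x _ hx (hy.add hz)).2, (hM0 x y hx hy).2, (hM0 x z hx hz).2,
          ← uq_add (hM0 x y hx hy).1 (hM0 x z hx hz).1]
        congr 1
        funext n
        exact hMadd n _ _ _
      map_smul' := by
        intro c η
        obtain ⟨x, hx, rfl⟩ := exists_rep ξ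
        obtain ⟨y, hy, rfl⟩ := exists_rep η
        rw [← uq_smul c hy, (hM0 x _ hx (hy.smul c)).2, (hM0 x y hx hy).2,
          ← uq_smul _ (hM0 x y hx hy).1]
        congr 1
        funext n
        exact hMsmul n _ _ _ }
  have hMdef : ∀ ξ η, M ξ η = M0 ξ η := fun _ _ => rfl
  obtain ⟨B, hB1, hB2, hB3⟩ := qf_main E M C1
    (by
      have h1 := hE (fun _ => (0 : X)) (Bd.const 0)
      have h2 : (fun n => Eq2 T (p n) (t n) (0 : X)) = fun _ => (0 : Y) := by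
        funext n
        rw [Eq2, smul_zero, add_zero, sub_self, map_zero, smul_zero, sub_zero, smul_zero]
      have h3 : uq (fun _ : ℕ => (0 : X)) = 0 := by
        rw [uq_eq_zero_iff (Bd.const 0)]
        simp
      have h4 : uq (fun _ : ℕ => (0 : Y)) = 0 := by
        rw [uq_eq_zero_iff (Bd.const 0)]
        simp
      rw [← h3, h1.2, h2, h4])
    (by
      intro ξ η
      obtain ⟨x, hx, rfl⟩ := exists_rep ξ
      obtain ⟨y, hy, rfl⟩ := exists_rep η
      have b1 := (hE _ (hx.add hy)).1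
      have b2 := (hE x hx).1
      have b3 := (hM0 x y hx hy).1
      rw [hMdef, ← uq_add hx hy, (hE _ (hx.add hy)).2, (hE x hx).2, (hM0 x y hx hy).2,
        ← uq_sub b1 b2, ← uq_sub (b1.sub b2) b3]
      refine le_of_tendsto_of_tendsto (norm_uq ((b1.sub b2).sub b3))
        (((norm_uq hy).pow 2).const_mul C1) ?_
      obtain ⟨R, hR⟩ := hx
      filter_upwards [UU_le_atTop (hsmall R)] with n hn
      exact hE2 _ _ _ _ (hp n) (ht0 n) (hn _ (hR n)))
    (by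
      intro ξ η
      obtain ⟨x, hx, rfl⟩ := exists_rep ξ
      obtain ⟨y, hy, rfl⟩ := exists_rep η
      rw [hMdef, (hM0 x y hx hy).2]
      exact le_of_tendsto_of_tendsto' (norm_uq (hM0 x y hx hy).1)
        (((norm_uq hx).const_mul C1).mul (norm_uq hy)) fun n => hM1 _ _ _ _ (hp n) (ht0 n))
    (by
      intro ξ η
      obtain ⟨x, hx, rfl⟩ := exists_rep ξ
      obtain ⟨y, hy, rfl⟩ := exists_rep η
      have b1 := (hE _ (hx.add hy)).1
      have b2 := (hE _ (hx.sub hy)).1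
      have b3 := (hE x hx).1
      have b4 := (hE y hy).1
      rw [← uq_add hx hy, ← uq_sub hx hy, (hE _ (hx.add hy)).2, (hE _ (hx.sub hy)).2,
        (hE x hx).2, (hE y hy).2, ← uq_add b1 b2, ← uq_smul 2 b3, ← uq_smul 2 b4,
        ← uq_add (b3.smul 2) (b4.smul 2), uq_eq_iff (b1.add b2) ((b3.smul 2).add (b4.smul 2))]
      refine (Q2_par hJ hK h hX hY hp ht0 ht hx hy).congr fun n => ?_
      rw [sub_sub])
  refine ⟨B, hB2, fun u v hu hv => ?_, fun u hu => ?_⟩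
  · refine ⟨(hM0 u v hu hv).1, ?_⟩
    rw [hB1, hMdef]
    exact (hM0 u v hu hv).2
  · refine ⟨(hE u hu).1, ?_⟩
    rw [hB3]
    exact (hE u hu).2

end P084GII
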