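import Vale.Agent.Lib.P084G.II.RigidA
import Vale.Agent.Lib.P084G.MainNS
import Vale.Agent.Lib.P084G.W

/-! Part II: a rigid point implies linearity. -/

open Filter Topology

namespace P084GII

open P084G Vale.Agent.P084G

variable {X Y : Type*} [NormedAddCommGroup X] [NormedSpace ℝ X] [NormedAddCommGroup Y]
  [NormedSpace ℝ Y] {J : X → X →L[ℝ] ℝ} {K : Y → Y →L[ℝ] ℝ} {T : X → Y} {S : Y → X} {C C' : ℝ}

/-- in a uniformly smooth space `nd p v = J p v` -/
theorem nd_eq (hJ : DualU J) {p : X} (hp : ‖p‖ = 1) (v : X) : nd p v = J p v := by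
  have hp0 : p ≠ 0 := by
    rintro rfl
    rw [norm_zero] at hp
    exact zero_ne_one hp
  have h1 := (hJ.hasFDerivAt hp0).hasFDerivWithinAt (s := Set.univ)
  have hd : Tendsto (fun t : ℝ => t • v) (𝓝[>] 0) (𝓝 0) := by
    have h2 : Continuous fun t : ℝ => t • v := by fun_prop
    have h3 := (h2.tendsto 0).mono_left (nhdsWithin_le_nhds (s := Set.Ioi (0 : ℝ)))
    rwa [zero_smul] at h3
  have hcd : Tendsto (fun t : ℝ => t⁻¹ • (t • v)) (𝓝[>] 0) (𝓝 v) := by
    refine tendsto_nhds_of_eventually_eq ?_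
    filter_upwards [self_mem_nhdsWithin] with t ht
    have ht0 : (0 : ℝ) < t := ht
    rw [smul_smul, inv_mul_cancel₀ ht0.ne', one_smul]
  have h4 := h1.lim hd (Eventually.of_forall fun _ => Set.mem_univ _) hcd
  refine tendsto_nhds_unique (nd_tendsto p v) (h4.congr fun t => ?_)
  rw [smul_eq_mul, div_eq_inv_mul]

/-- one-sided derivative along the curves -/
private theorem Rigid_hasD {T : X → Y} {A : X →L[ℝ] Y} {p : X} (hp : ‖p‖ = 1)
    (hA : HasFDerivAt T A p) {v : X} (hv : nd p v = 0) : HasD T p v (A v) := by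
  have h1 := hA.hasFDerivWithinAt (s := Set.univ)
  have hcd := cur_tendsto hp hv
  have hd : Tendsto (fun t : ℝ => cur p v t - p) (𝓝[>] 0) (𝓝 0) := by
    have h2 : Tendsto (fun t : ℝ => t) (𝓝[>] (0 : ℝ)) (𝓝 0) :=
      tendsto_id.mono_left nhdsWithin_le_nhds
    have h3 := h2.smul hcd
    rw [zero_smul] at h3
    refine h3.congr' ?_
    filter_upwards [self_mem_nhdsWithin] with t ht
    have ht0 : (0 : ℝ) < t := ht
    rw [smul_smul, mul_inv_cancel₀ ht0.ne', one_smul]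
  have h4 := h1.lim hd (Eventually.of_forall fun _ => Set.mem_univ _) hcd
  refine h4.congr fun t => ?_
  rw [add_sub_cancel]

/-- directions of segments of the sphere -/
private theorem Rigid_seg {p u : X} (hp : ‖p‖ = 1)
    (hseg : ∀ s : ℝ, 0 ≤ s → s ≤ 1 → ‖p + s • u‖ = 1) : nd p u = 0 := by
  refine tendsto_nhds_unique (nd_tendsto p u) (tendsto_nhds_of_eventually_eq ?_)
  have h1 : Set.Ioo (0 : ℝ) 1 ∈ 𝓝[>] (0 : ℝ) := Ioo_mem_nhdsGT one_pos
  filter_upwards [h1] with t ht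
  rw [hseg t ht.1.le ht.2.le, hp, sub_self, zero_div]

private theorem Rigid_fix [CompleteSpace X] [CompleteSpace Y] (hJ : DualU J) (hK : DualU K)
    (h : HI T S) {p : X} (hp : ‖p‖ = 1) {w : Y} (G : X ≃ₗᵢ[ℝ] Y)
    (hG1 : ∀ v, G v = fderiv ℝ T p v - J p v • w)
    (h2 : ‖p + G.symm (T p)‖ = 2) : G p = T p := by
  have hp0 : p ≠ 0 := by
    rintro rfl
    rw [norm_zero] at hp
    exact zero_ne_one hp
  have hmem : ∀ x : Metric.sphere (0 : X) 1, ‖G.symm (T (x : X))‖ = 1 := by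
    intro x
    rw [LinearIsometryEquiv.norm_map, h.norm]
    exact mem_sphere_zero_iff_norm.1 x.2
  let g : Metric.sphere (0 : X) 1 → Metric.sphere (0 : X) 1 :=
    fun x => ⟨G.symm (T (x : X)), mem_sphere_zero_iff_norm.2 (hmem x)⟩
  have hgc : ∀ x, (g x : X) = G.symm (T (x : X)) := fun _ => rfl
  have hiso : Isometry g := by
    refine Isometry.of_dist_eq fun x y => ?_
    rw [Subtype.dist_eq, Subtype.dist_eq, dist_eq_norm, dist_eq_norm, hgc, hgc, ← map_sub,
      LinearIsometryEquiv.norm_map]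
    exact h.dist _ _ (by rw [mem_sphere_zero_iff_norm.1 x.2, mem_sphere_zero_iff_norm.1 y.2])
  have hsurj : Function.Surjective g := by
    intro y
    have hy : ‖S (G (y : X))‖ = 1 := by
      rw [h.symm.norm, LinearIsometryEquiv.norm_map]
      exact mem_sphere_zero_iff_norm.1 y.2
    refine ⟨⟨S (G (y : X)), mem_sphere_zero_iff_norm.2 hy⟩, Subtype.ext ?_⟩
    rw [hgc]
    change G.symm (T (S (G (y : X)))) = y
    rw [h.TS, LinearIsometryEquiv.symm_apply_apply]
  have hfix := P084G.W g hiso hsurj ⟨p, mem_sphere_zero_iff_norm.2 hp⟩ h2 ?_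
  · have h3 : G.symm (T p) = p := congrArg Subtype.val hfix
    rw [← h3, LinearIsometryEquiv.apply_symm_apply, h3]
  · intro u hseg ε hε
    have hu : J p u = 0 := by
      rw [← nd_eq hJ hp]
      exact Rigid_seg hp hseg
    have hGu : G u = fderiv ℝ T p u := by
      rw [hG1, hu, zero_smul, sub_zero]
    have hA := hasFD hJ hK h hp0
    rw [hasFDerivAt_iff_isLittleO_nhds_zero, Asymptotics.isLittleO_iff] at hA
    have hc : 0 < ‖u‖ + 1 := by positivity
    have hε' : 0 < ε / (‖u‖ + 1) := by positivity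
    obtain ⟨δ, hδ, hball⟩ := Metric.eventually_nhds_iff_ball.1 (hA hε')
    refine ⟨δ / (‖u‖ + 1), by positivity, fun s hs hs0 x hx => ?_⟩
    have hsu : ‖s • u‖ < δ := by
      rw [norm_smul, Real.norm_of_nonneg hs.le]
      rw [lt_div_iff₀ hc] at hs0
      nlinarith [norm_nonneg u]
    have h3 := hball (s • u) (by rwa [mem_ball_zero_iff])
    have e : (g x : X) - g ⟨p, mem_sphere_zero_iff_norm.2 hp⟩ - s • u =
        G.symm (T (p + s • u) - T p - fderiv ℝ T p (s • u)) := by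
      rw [hgc, hgc, hx, map_sub, map_sub, map_smul (fderiv ℝ T p), ← hGu, map_smul G.symm,
        LinearIsometryEquiv.symm_apply_apply]
    rw [e, LinearIsometryEquiv.norm_map]
    refine h3.trans ?_
    rw [norm_smul, Real.norm_of_nonneg hs.le]
    have h4 : ε / (‖u‖ + 1) * ‖u‖ ≤ ε := by
      rw [div_mul_eq_mul_div, div_le_iff₀ hc]
      nlinarith [norm_nonneg u]
    calc ε / (‖u‖ + 1) * (s * ‖u‖) = (ε / (‖u‖ + 1) * ‖u‖) * s := by ring
      _ ≤ ε * s := mul_le_mul_of_nonneg_right h4 hs.le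

/-- derivative of `G⁻¹ ∘ T` at `p` along `ker (J p)`, `G v = fderiv ℝ T p v` there; then `P084G.W` (file W.lean) with
`rigid_two` gives `G⁻¹ (T p) = p`; then `rigid_of_deriv` (file MainNS.lean) gives `T = G` on the unit sphere, hence
everywhere by homogeneity. -/
theorem rigid_linear [CompleteSpace X] [CompleteSpace Y] (hJ : DualU J) (hK : DualU K)
    (h : HI T S) {p : X} (hp : ‖p‖ = 1) {w : Y}
    (hw : ∀ y : X, ‖y‖ = 1 → ‖p + y‖ < 2 →
      K (T p - T y) w = K (T p - T y) (T p) - J (p - y) p) :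
    ∃ L : X ≃ₗᵢ[ℝ] Y, ∀ x, T x = L x := by
  have hp0 : p ≠ 0 := by
    rintro rfl
    rw [norm_zero] at hp
    exact zero_ne_one hp
  obtain ⟨G, hG1, hG2⟩ := rigid_iso hJ hK h hp hw
  have h2 := rigid_two hJ hK h hp G hG2
  have hfix := Rigid_fix hJ hK h hp G hG1 h2
  have hD : ∀ v, nd p v = 0 → HasD T p v (G v) := by
    intro v hv
    have hJv : J p v = 0 := by rw [← nd_eq hJ hp, hv]
    rw [hG1, hJv, zero_smul, sub_zero]
    exact Rigid_hasD hp (hasFD hJ hK h hp0) hv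
  have hunit := rigid_of_deriv h.siso hp G hD hfix
  refine ⟨G, fun x => ?_⟩
  rcases eq_or_ne x 0 with rfl | hx
  · rw [h.zero, map_zero]
  · have hn : 0 < ‖x‖ := norm_pos_iff.2 hx
    have h1 : ‖‖x‖⁻¹ • x‖ = 1 := by
      rw [norm_smul, norm_inv, norm_norm, inv_mul_cancel₀ hn.ne']
    have h3 := hunit _ h1
    have h4 : x = ‖x‖ • (‖x‖⁻¹ • x) := by
      rw [smul_smul, mul_inv_cancel₀ hn.ne', one_smul]
    calc T x = T (‖x‖ • (‖x‖⁻¹ • x)) := by rw [← h4]
      _ = ‖x‖ • T (‖x‖⁻¹ • x) := h.smul _ hn.le _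
      _ = ‖x‖ • G (‖x‖⁻¹ • x) := by rw [h3]
      _ = G (‖x‖ • (‖x‖⁻¹ • x)) := (map_smul G _ _).symm
      _ = G x := by rw [← h4]

end P084GII
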