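import Vale.Agent.Lib.P084G.II.Diff

/-! Part II: a rigid point gives a linear isometry. -/

open Filter Topology

namespace P084GII

variable {X Y : Type*} [NormedAddCommGroup X] [NormedSpace ℝ X] [NormedAddCommGroup Y]
  [NormedSpace ℝ Y] {J : X → X →L[ℝ] ℝ} {K : Y → Y →L[ℝ] ℝ} {T : X → Y} {S : Y → X} {C C' : ℝ}

/-- every direction `u` with `J p u > 0` is a positive multiple of `p - y` with `‖y‖ = 1`, `‖p + y‖ < 2`
(first exit of the ray `p - s u`: `‖p - s u‖ < 1` for small `s > 0` as `J p u > 0`; convexity) -/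
theorem exists_exit (hJ : DualU J) {p : X} (hp : ‖p‖ = 1) {u : X} (hu : 0 < J p u) :
    ∃ (y : X) (c : ℝ), 0 < c ∧ ‖y‖ = 1 ∧ ‖p + y‖ < 2 ∧ p ≠ y ∧ u = c • (p - y) := by
  have hp0 : p ≠ 0 := by
    rintro rfl
    rw [norm_zero] at hp
    exact zero_ne_one hp
  have hu0 : u ≠ 0 := by
    rintro rfl
    rw [map_zero] at hu
    exact lt_irrefl _ hu
  have hun : 0 < ‖u‖ := norm_pos_iff.2 hu0
  -- small parameter
  obtain ⟨s₁, hs₁, hφ₁⟩ : ∃ s₁ : ℝ, 0 < s₁ ∧ ‖p - s₁ • u‖ < 1 := by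
    have hε : 0 < J p u / (2 * ‖u‖) := by positivity
    obtain ⟨δ, hδ, h⟩ := DiffA_fo hJ hε
    refine ⟨δ / ‖u‖, by positivity, ?_⟩
    have h1 := h p (-((δ / ‖u‖) • u)) hp0 (by
      rw [norm_neg, norm_smul, Real.norm_of_nonneg (by positivity), hp, mul_one,
        div_mul_cancel₀ _ hun.ne'])
    rw [norm_neg, norm_smul, Real.norm_of_nonneg (by positivity : 0 ≤ δ / ‖u‖),
      div_mul_cancel₀ _ hun.ne', ← sub_eq_add_neg, hp, map_neg, map_smul, smul_eq_mul] at h1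
    have h2 := (abs_le.1 h1).2
    have h3 : J p u / (2 * ‖u‖) * δ = δ / ‖u‖ * J p u / 2 := by
      field_simp
    rw [h3] at h2
    have h4 : 0 < δ / ‖u‖ * J p u := by positivity
    linarith
  obtain ⟨s₂, hs₂, hφ₂⟩ : ∃ s₂ : ℝ, s₁ ≤ s₂ ∧ 1 ≤ ‖p - s₂ • u‖ := by
    refine ⟨s₁ + 2 / ‖u‖, by
      have : 0 < 2 / ‖u‖ := by positivity
      linarith, ?_⟩
    have h1 : ‖(s₁ + 2 / ‖u‖) • u‖ = s₁ * ‖u‖ + 2 := by
      rw [norm_smul, Real.norm_of_nonneg (by positivity)]
      field_simp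
    have h2 := norm_sub_norm_le ((s₁ + 2 / ‖u‖) • u) p
    rw [norm_sub_rev, h1, hp] at h2
    have h3 : 0 < s₁ * ‖u‖ := by positivity
    linarith
  have hcont : ContinuousOn (fun s : ℝ => ‖p - s • u‖) (Set.Icc s₁ s₂) := by fun_prop
  obtain ⟨s₀, hs₀, hφ₀⟩ := intermediate_value_Icc hs₂ hcont ⟨hφ₁.le, hφ₂⟩
  have hs₀0 : 0 < s₀ := hs₁.trans_le hs₀.1
  have hφ₀' : ‖p - s₀ • u‖ = 1 := hφ₀
  have hz : p - (p - s₀ • u) = s₀ • u := sub_sub_cancel _ _
  refine ⟨p - s₀ • u, s₀⁻¹, inv_pos.2 hs₀0, hφ₀', ?_, ?_, ?_⟩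
  · refine lt_of_le_of_ne ?_ fun h2 => ?_
    · refine (norm_add_le _ _).trans ?_
      rw [hp, hφ₀']
      norm_num
    · have h3 := hJ.eq_of_add hp hφ₀' h2
      have h4 := hJ.self (p - s₀ • u)
      rw [← h3, hφ₀', map_sub, map_smul, hJ.self p, hp, smul_eq_mul] at h4
      have h5 : 0 < s₀ * J p u := mul_pos hs₀0 hu
      linarith
  · intro h2
    have h3 : s₀ • u = 0 := by rw [← hz, ← h2, sub_self]
    exact (smul_ne_zero hs₀0.ne' hu0) h3
  · rw [hz, smul_smul, inv_mul_cancel₀ hs₀0.ne', one_smul]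

/-- the linear map `G` -/
private noncomputable def RigidA_G (T : X → Y) (J : X → X →L[ℝ] ℝ) (p : X) (w : Y) : X →L[ℝ] Y :=
  fderiv ℝ T p - (J p).smulRight w

private theorem RigidA_G_apply (p : X) (w : Y) (v : X) :
    RigidA_G T J p w v = fderiv ℝ T p v - J p v • w := rfl

omit [NormedAddCommGroup Y] [NormedSpace ℝ Y] in
/-- density: a closed condition that holds off a hyperplane holds everywhere -/
private theorem RigidA_dense {φ : X → ℝ} {q : X} {P : X → Prop} (hP : IsClosed {x | P x})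
    (hφ : ∀ x t, φ (x + t • q) = φ x + t * φ q) (hq : φ q ≠ 0) (h : ∀ x, φ x ≠ 0 → P x) (x : X) :
    P x := by
  by_cases hx : φ x = 0
  · have h1 : Tendsto (fun t : ℝ => x + t • q) (𝓝[≠] 0) (𝓝 (x + (0 : ℝ) • q)) := by
      have h2 : Continuous fun t : ℝ => x + t • q := by fun_prop
      exact (h2.tendsto 0).mono_left nhdsWithin_le_nhds
    rw [zero_smul, add_zero] at h1
    refine hP.mem_of_tendsto h1 ?_
    filter_upwards [self_mem_nhdsWithin] with t ht
    refine h _ ?_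
    rw [hφ, hx, zero_add]
    exact mul_ne_zero ht hq
  · exact h x hx

/-- Let `w` satisfy `K z' w = K z' (T p) - J z p` for all unit `y` with `‖p + y‖ < 2` (`z = p - y`, `z' = T p - T y`).
`G v := fderiv ℝ T p v - J p v • w` is a linear isometry onto with `K (T p - T y) (G v) = J (p - y) v`.
* by `fd_D1`: `K z' (G v) = J z v` for these `y` (`K z' (T y) = K z' (T p) - ‖z'‖`, `J z y = J z p - ‖z‖`);
* `‖G u‖ ≥ K z' (G u) = J z u = ‖u‖` for `u = c z`, `c > 0` (`exists_exit`): so `‖G u‖ ≥ ‖u‖` if `J p u ≠ 0`, and for all `u`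
  by density; so `G` injective;
* `G` is onto: `fderiv ℝ T p` maps `ker (J p)` onto `ker (K (T p))` (`fd_inv` and `fd_K` for `T` and `S`), `G = fderiv T p` there and
  `G p ∉ ker (K (T p))` since `G` is injective;
* `‖G⁻¹ ξ‖ ≥ ‖ξ‖` in the same way: every `ξ` with `K (T p) ξ > 0` is `c (T p - T y)`, `‖T p + T y‖ < 2`
  (`exists_exit` for `Y`, `y = S y'`, `HI.add_lt_two` for `S`), and `J z (G⁻¹ ξ) = K z' ξ = ‖ξ‖`. -/
theorem rigid_iso [CompleteSpace X] [CompleteSpace Y] (hJ : DualU J) (hK : DualU K) (h : HI T S)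
    {p : X} (hp : ‖p‖ = 1) {w : Y}
    (hw : ∀ y : X, ‖y‖ = 1 → ‖p + y‖ < 2 →
      K (T p - T y) w = K (T p - T y) (T p) - J (p - y) p) :
    ∃ G : X ≃ₗᵢ[ℝ] Y, (∀ v, G v = fderiv ℝ T p v - J p v • w) ∧
      ∀ y : X, ‖y‖ = 1 → ‖p + y‖ < 2 → ∀ v, K (T p - T y) (G v) = J (p - y) v := by
  have hp0 : p ≠ 0 := by
    rintro rfl
    rw [norm_zero] at hp
    exact zero_ne_one hp
  have hTp : ‖T p‖ = 1 := by rw [h.norm, hp]
  have hTp0 : T p ≠ 0 := by
    intro h0
    rw [h0, norm_zero] at hTp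
    exact zero_ne_one hTp
  have hJp : J p p = 1 := by rw [hJ.self, hp]
  -- the main identity
  have hmain : ∀ y : X, ‖y‖ = 1 → ‖p + y‖ < 2 → ∀ v,
      K (T p - T y) (RigidA_G T J p w v) = J (p - y) v := by
    intro y hy hpy v
    have hne : p ≠ y := by
      rintro rfl
      rw [← two_smul ℝ, norm_smul, hp, Real.norm_of_nonneg (by norm_num : (0 : ℝ) ≤ 2)] at hpy
      norm_num at hpy
    have h1 := fd_D1 hJ hK h hp hy hne v
    have h2 := hw y hy hpy
    have h3 : K (T p - T y) (T y) = K (T p - T y) (T p) - ‖T p - T y‖ := by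
      have h4 := hK.self (T p - T y)
      rw [map_sub] at h4
      linarith
    have h5 : J (p - y) y = J (p - y) p - ‖p - y‖ := by
      have h4 := hJ.self (p - y)
      rw [map_sub] at h4
      linarith
    have h6 : ‖T p - T y‖ = ‖p - y‖ := h.dist p y (by rw [hp, hy])
    rw [RigidA_G_apply, map_sub, map_smul, h1, h2, h3, h5, h6, smul_eq_mul]
    ring
  -- lower bound
  have hlow1 : ∀ u, 0 < J p u → ‖u‖ ≤ ‖RigidA_G T J p w u‖ := by
    intro u hu
    obtain ⟨y, c, hc, hy, hpy, hne, hu'⟩ := exists_exit hJ hp hu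
    have h1 := hmain y hy hpy u
    have h2 : J (p - y) u = ‖u‖ := by
      rw [hu', map_smul, hJ.self, norm_smul, Real.norm_of_nonneg hc.le, smul_eq_mul]
    rw [h2] at h1
    rw [← h1]
    exact hK.le _ _
  have hlow : ∀ u, ‖u‖ ≤ ‖RigidA_G T J p w u‖ := by
    refine RigidA_dense (φ := fun u => J p u) (q := p) ?_ ?_ ?_ ?_
    · exact isClosed_le continuous_norm ((RigidA_G T J p w).continuous.norm)
    · intro x t
      simp only [map_add, map_smul, smul_eq_mul]
    · rw [hJp]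
      exact one_ne_zero
    · intro x hx
      rcases lt_or_gt_of_ne hx with h1 | h1
      · have h2 := hlow1 (-x) (by
          rw [map_neg]
          linarith)
        rwa [norm_neg, map_neg, norm_neg] at h2
      · exact hlow1 x h1
  have hinj : Function.Injective (RigidA_G T J p w) := by
    intro a b hab
    have h1 := hlow (a - b)
    rw [map_sub, hab, sub_self, norm_zero] at h1
    exact sub_eq_zero.1 (norm_le_zero_iff.1 h1)
  -- kernels
  have hker : ∀ ξ : Y, K (T p) ξ = 0 → ∃ v : X, J p v = 0 ∧ RigidA_G T J p w v = ξ := by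
    intro ξ hξ
    have h1 : fderiv ℝ T p (fderiv ℝ S (T p) ξ) = ξ := by
      have h2 := fd_inv hK hJ h.symm hTp0 ξ
      rwa [h.ST] at h2
    have h3 : J p (fderiv ℝ S (T p) ξ) = 0 := by
      have h4 := fd_K hJ hK h hp0 (fderiv ℝ S (T p) ξ)
      rw [h1, hξ] at h4
      exact h4.symm
    refine ⟨fderiv ℝ S (T p) ξ, h3, ?_⟩
    rw [RigidA_G_apply, h1, h3, zero_smul, sub_zero]
  have hκ : K (T p) (RigidA_G T J p w p) ≠ 0 := by
    intro h0
    obtain ⟨v, hv, hv2⟩ := hker _ h0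
    have h1 := hinj hv2
    rw [h1, hJp] at hv
    exact one_ne_zero hv
  have hsurj : Function.Surjective (RigidA_G T J p w) := by
    intro ξ
    obtain ⟨v, -, hv2⟩ := hker (ξ - (K (T p) ξ / K (T p) (RigidA_G T J p w p)) •
      RigidA_G T J p w p) (by
        rw [map_sub, map_smul, smul_eq_mul, div_mul_cancel₀ _ hκ, sub_self])
    refine ⟨v + (K (T p) ξ / K (T p) (RigidA_G T J p w p)) • p, ?_⟩
    rw [map_add, map_smul, hv2, sub_add_cancel]
  -- upper bound
  have hup1 : ∀ u, 0 < K (T p) (RigidA_G T J p w u) → ‖RigidA_G T J p w u‖ ≤ ‖u‖ := by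
    intro u hu
    obtain ⟨y', c, hc, hy, hpy, hne, hu'⟩ := exists_exit hK hTp hu
    have hSy : ‖S y'‖ = 1 := by rw [h.symm.norm, hy]
    have h2 : ‖p + S y'‖ < 2 := by
      have h3 := h.symm.add_lt_two hTp hy hpy
      rwa [h.ST] at h3
    have h1 := hmain (S y') hSy h2 u
    rw [h.TS] at h1
    have h3 : K (T p - y') (RigidA_G T J p w u) = ‖RigidA_G T J p w u‖ := by
      rw [hu', map_smul, hK.self, norm_smul, Real.norm_of_nonneg hc.le, smul_eq_mul]
    rw [h3] at h1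
    rw [h1]
    exact hJ.le _ _
  have hup : ∀ u, ‖RigidA_G T J p w u‖ ≤ ‖u‖ := by
    refine RigidA_dense (φ := fun u => K (T p) (RigidA_G T J p w u)) (q := p) ?_ ?_ hκ ?_
    · exact isClosed_le ((RigidA_G T J p w).continuous.norm) continuous_norm
    · intro x t
      simp only [map_add, map_smul, smul_eq_mul]
    · intro x hx
      rcases lt_or_gt_of_ne hx with h1 | h1
      · have h2 := hup1 (-x) (by
          rw [map_neg, map_neg]
          linarith)
        rwa [norm_neg, map_neg, norm_neg] at h2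
      · exact hup1 x h1
  let Gi : X →ₗᵢ[ℝ] Y :=
    { (RigidA_G T J p w).toLinearMap with
      norm_map' := fun v => le_antisymm (hup v) (hlow v) }
  exact ⟨LinearIsometryEquiv.ofSurjective Gi hsurj, fun v => rfl, hmain⟩

/-- `g = G⁻¹ ∘ T` on the sphere: `‖p + G⁻¹ (T p)‖ = 2`: by `y = -p`: `‖T p - T (-p)‖ = 2`, so `K z' (T p) = 1` (`K z' (T p) ≤ 1`,
`- K z' (T (-p)) ≤ 1`, sum `2`), so `J (2 p) (G⁻¹ (T p)) = K z' (T p) = 1 = J p p`. -/
theorem rigid_two [CompleteSpace X] [CompleteSpace Y] (hJ : DualU J) (hK : DualU K) (h : HI T S)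
    {p : X} (hp : ‖p‖ = 1) (G : X ≃ₗᵢ[ℝ] Y)
    (hG : ∀ y : X, ‖y‖ = 1 → ‖p + y‖ < 2 → ∀ v, K (T p - T y) (G v) = J (p - y) v) :
    ‖p + G.symm (T p)‖ = 2 := by
  have h1 := hG (-p) (by rw [norm_neg, hp]) (by
    rw [add_neg_cancel, norm_zero]
    exact two_pos) (G.symm (T p))
  rw [LinearIsometryEquiv.apply_symm_apply, sub_neg_eq_add, ← two_smul ℝ p,
    hJ.smul 2 two_pos] at h1
  have h2 : ‖T p - T (-p)‖ = 2 := by
    rw [h.dist p (-p) (norm_neg p).symm, sub_neg_eq_add, ← two_smul ℝ p, norm_smul, hp,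
      Real.norm_of_nonneg two_pos.le, mul_one]
  have h3 := hK.self (T p - T (-p))
  rw [h2, map_sub] at h3
  have h4 := hK.le (T p - T (-p)) (T p)
  have h5 := hK.le (T p - T (-p)) (-T (-p))
  rw [map_neg, norm_neg, h.norm, norm_neg, hp] at h5
  rw [h.norm, hp] at h4
  have h6 : J p (G.symm (T p)) = 1 := by
    rw [← h1]
    linarith
  refine le_antisymm ?_ ?_
  · refine (norm_add_le _ _).trans ?_
    rw [LinearIsometryEquiv.norm_map, h.norm, hp]
    norm_num
  · have h7 := hJ.le p (p + G.symm (T p))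
    rw [map_add, h6, hJ.self, hp] at h7
    linarith

end P084GII
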