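import Vale.Agent.Lib.P084G.II.Defs

/-! Part II: elementary facts about duality maps of smooth norms. -/

open Filter Topology

namespace P084GII

variable {X : Type*} [NormedAddCommGroup X] [NormedSpace ℝ X]

theorem sd_nonneg (x h : X) : 0 ≤ sd x h := by
  have h1 : ‖(2 : ℝ) • x‖ ≤ ‖x + h‖ + ‖x - h‖ := by
    have e : (2 : ℝ) • x = (x + h) + (x - h) := by rw [two_smul]; abel
    rw [e]
    exact norm_add_le _ _
  rw [norm_smul, Real.norm_eq_abs, abs_of_pos two_pos] at h1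
  unfold sd
  linarith

theorem sd_le (x h : X) : sd x h ≤ 2 * ‖h‖ := by
  have h1 := norm_add_le x h
  have h2 := norm_sub_le x h
  unfold sd
  linarith

/-- scaling -/
theorem sd_smul {c : ℝ} (hc : 0 < c) (x h : X) : sd (c • x) (c • h) = c * sd x h := by
  unfold sd
  rw [← smul_add, ← smul_sub, norm_smul, norm_smul, norm_smul, Real.norm_eq_abs, abs_of_pos hc]
  ring

theorem Dual.abs_le {J : X → X →L[ℝ] ℝ} (hJ : Dual J) (x v : X) : |J x v| ≤ ‖v‖ := by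
  refine abs_le'.2 ⟨hJ.le x v, ?_⟩
  have h := hJ.le x (-v)
  rwa [map_neg, norm_neg] at h

theorem Dual.norm_le {J : X → X →L[ℝ] ℝ} (hJ : Dual J) (x : X) : ‖J x‖ ≤ 1 := by
  refine ContinuousLinearMap.opNorm_le_bound _ zero_le_one fun v => ?_
  rw [one_mul]
  exact hJ.abs_le x v

/-- `J x` is a subgradient of the norm at `x`: `J x (x + h) ≤ ‖x + h‖`. -/
theorem Dual.lower {J : X → X →L[ℝ] ℝ} (hJ : Dual J) (x h : X) : ‖x‖ + J x h ≤ ‖x + h‖ := by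
  have h1 := hJ.le x (x + h)
  rwa [map_add, hJ.self] at h1

/-- `‖x + h‖ = J (x+h) (x+h) ≤ ‖x‖ + J x h + (J (x+h) - J x) h`. -/
theorem Dual.upper {J : X → X →L[ℝ] ℝ} (hJ : Dual J) (x h : X) :
    ‖x + h‖ ≤ ‖x‖ + J x h + ‖J x - J (x + h)‖ * ‖h‖ := by
  have h1 := hJ.self (x + h)
  rw [map_add] at h1
  have h2 := hJ.le (x + h) x
  have h3 : (J (x + h) - J x) h ≤ ‖J x - J (x + h)‖ * ‖h‖ := by
    have h4 := (J (x + h) - J x).le_opNorm h
    rw [norm_sub_rev] at h4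
    exact (le_abs_self _).trans h4
  have h5 : (J (x + h) - J x) h = J (x + h) h - J x h := rfl
  rw [h5] at h3
  linarith

/-- scale-invariant modulus (`J` is 0-homogeneous) -/
theorem DualU.unif' {J : X → X →L[ℝ] ℝ} (hJ : DualU J) {ε : ℝ} (hε : 0 < ε) :
    ∃ δ : ℝ, 0 < δ ∧ ∀ x y : X, x ≠ 0 → ‖x - y‖ ≤ δ * ‖x‖ → ‖J x - J y‖ ≤ ε := by
  obtain ⟨δ, hδ, h⟩ := hJ.unif ε hε
  refine ⟨δ, hδ, fun x y hx hxy => ?_⟩
  have hx0 : 0 < ‖x‖ := norm_pos_iff.2 hx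
  have h1 := h (‖x‖⁻¹ • x) (‖x‖⁻¹ • y) ?_ ?_
  · rwa [hJ.smul _ (inv_pos.2 hx0), hJ.smul _ (inv_pos.2 hx0)] at h1
  · rw [norm_smul, norm_inv, norm_norm, inv_mul_cancel₀ hx0.ne']
  · rw [← smul_sub, norm_smul, norm_inv, norm_norm, inv_mul_le_iff₀ hx0, mul_comm]
    exact hxy

theorem Dual2.toU {J : X → X →L[ℝ] ℝ} {C : ℝ} (hJ : Dual2 J C) : DualU J := by
  refine { toDual := hJ.toDual, unif := fun ε hε => ?_ }
  have hC := hJ.nonneg
  refine ⟨ε / (C + 1), by positivity, fun x y hx hxy => ?_⟩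
  refine (hJ.lip x y hx).trans ((mul_le_mul_of_nonneg_left hxy hC).trans ?_)
  rw [mul_div_assoc', div_le_iff₀ (by positivity)]
  nlinarith

theorem Dual2.lip' {J : X → X →L[ℝ] ℝ} {C : ℝ} (hJ : Dual2 J C) {x : X} (hx : x ≠ 0) (y : X) :
    ‖J x - J y‖ ≤ C * ‖x - y‖ / ‖x‖ := by
  have hx0 : 0 < ‖x‖ := norm_pos_iff.2 hx
  have h1 := hJ.lip (‖x‖⁻¹ • x) (‖x‖⁻¹ • y) ?_
  · rw [hJ.smul _ (inv_pos.2 hx0), hJ.smul _ (inv_pos.2 hx0), ← smul_sub, norm_smul, norm_inv,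
      norm_norm] at h1
    refine h1.trans (le_of_eq ?_)
    rw [div_eq_mul_inv]
    ring
  · rw [norm_smul, norm_inv, norm_norm, inv_mul_cancel₀ hx0.ne']

theorem Dual2.taylor {J : X → X →L[ℝ] ℝ} {C : ℝ} (hJ : Dual2 J C) {x : X} (hx : x ≠ 0) (h : X) :
    ‖x + h‖ ≤ ‖x‖ + J x h + C * ‖h‖ ^ 2 / ‖x‖ := by
  have hx0 : 0 < ‖x‖ := norm_pos_iff.2 hx
  have h1 := hJ.toDual.upper x h
  have h2 := hJ.lip' hx (x + h)
  have e : ‖x - (x + h)‖ = ‖h‖ := by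
    rw [sub_add_cancel_left, norm_neg]
  rw [e] at h2
  have h3 := mul_le_mul_of_nonneg_right h2 (norm_nonneg h)
  have h4 : C * ‖h‖ / ‖x‖ * ‖h‖ = C * ‖h‖ ^ 2 / ‖x‖ := by ring
  rw [h4] at h3
  linarith

theorem DualU.hasFDerivAt {J : X → X →L[ℝ] ℝ} (hJ : DualU J) {x : X} (hx : x ≠ 0) :
    HasFDerivAt (fun y : X => ‖y‖) (J x) x := by
  rw [hasFDerivAt_iff_isLittleO, Asymptotics.isLittleO_iff]
  intro ε hε
  obtain ⟨δ, hδ, h⟩ := hJ.unif' hε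
  have hx0 : 0 < ‖x‖ := norm_pos_iff.2 hx
  filter_upwards [Metric.ball_mem_nhds x (mul_pos hδ hx0)] with y hy
  rw [Metric.mem_ball, dist_comm, dist_eq_norm] at hy
  have h1 := hJ.toDual.lower x (y - x)
  have h2 := hJ.toDual.upper x (y - x)
  rw [add_sub_cancel] at h1 h2
  have h3 := mul_le_mul_of_nonneg_right (h x y hx hy.le) (norm_nonneg (y - x))
  rw [Real.norm_eq_abs, abs_of_nonneg (by linarith)]
  linarith

/-- uniqueness of the norming functional (derivative of the norm at a minimum of `‖y‖ - φ y`) -/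
theorem DualU.uniq {J : X → X →L[ℝ] ℝ} (hJ : DualU J) {x : X} (hx : x ≠ 0) {φ : X →L[ℝ] ℝ}
    (h1 : ∀ v, φ v ≤ ‖v‖) (h2 : φ x = ‖x‖) : φ = J x := by
  have h3 : HasFDerivAt (fun y : X => ‖y‖ - φ y) (J x - φ) x :=
    (hJ.hasFDerivAt hx).sub φ.hasFDerivAt
  have hmin : IsLocalMin (fun y : X => ‖y‖ - φ y) x := by
    refine Filter.Eventually.of_forall fun y => ?_
    show ‖x‖ - φ x ≤ ‖y‖ - φ y
    rw [h2, sub_self]
    exact sub_nonneg.2 (h1 y)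
  have h4 := hmin.hasFDerivAt_eq_zero h3
  exact (sub_eq_zero.1 h4).symm

theorem DualU.neg {J : X → X →L[ℝ] ℝ} (hJ : DualU J) {x : X} (hx : x ≠ 0) : J (-x) = -J x := by
  refine (hJ.uniq (neg_ne_zero.2 hx) (φ := -J x) ?_ ?_).symm
  · intro v
    have h := hJ.le x (-v)
    rw [map_neg, norm_neg] at h
    exact h
  · show -(J x (-x)) = ‖-x‖
    rw [map_neg, neg_neg, hJ.self, norm_neg]

theorem DualU.continuousAt {J : X → X →L[ℝ] ℝ} (hJ : DualU J) {x : X} (hx : x ≠ 0) :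
    ContinuousAt J x := by
  rw [Metric.continuousAt_iff]
  intro ε hε
  obtain ⟨δ, hδ, h⟩ := hJ.unif' (half_pos hε)
  have hx0 : 0 < ‖x‖ := norm_pos_iff.2 hx
  refine ⟨δ * ‖x‖, mul_pos hδ hx0, fun {y} hy => ?_⟩
  rw [dist_comm, dist_eq_norm] at hy ⊢
  exact (h x y hx hy.le).trans_lt (half_lt_self hε)

/-- unit vectors with `‖x + y‖ = 2` have the same norming functional -/
theorem DualU.eq_of_add {J : X → X →L[ℝ] ℝ} (hJ : DualU J) {x y : X} (hx : ‖x‖ = 1) (hy : ‖y‖ = 1)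
    (h : ‖x + y‖ = 2) : J x = J y := by
  have h1 := hJ.le (x + y) x
  have h2 := hJ.le (x + y) y
  have h3 := hJ.self (x + y)
  rw [map_add, h] at h3
  rw [hx] at h1
  rw [hy] at h2
  have hx0 : x ≠ 0 := by
    rintro rfl
    rw [norm_zero] at hx
    exact zero_ne_one hx
  have hy0 : y ≠ 0 := by
    rintro rfl
    rw [norm_zero] at hy
    exact zero_ne_one hy
  have h4 : J (x + y) = J x := hJ.uniq hx0 (hJ.le _) (by rw [hx]; linarith)
  have h5 : J (x + y) = J y := hJ.uniq hy0 (hJ.le _) (by rw [hy]; linarith)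
  rw [← h4, h5]

/-- the norming functional at `x` of a unit vector `p` near `x`: `1 - J x p ≤ C ‖x - p‖ ^ 2`.
(`J x p = J x x - J x (x - p) = ‖x‖ - J x (x-p)` and `‖x‖ = ‖p + (x-p)‖ ≥ 1 + J p (x-p)`, hence
`1 - J x p ≤ (J x - J p) (x - p) ≤ C ‖x - p‖ ^ 2`.) -/
theorem Dual2.near {J : X → X →L[ℝ] ℝ} {C : ℝ} (hJ : Dual2 J C) {p : X} (hp : ‖p‖ = 1) (x : X) :
    1 - J x p ≤ C * ‖x - p‖ ^ 2 := by
  have h1 := hJ.toDual.lower p (x - p)
  rw [add_sub_cancel, hp] at h1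
  have h2 : J x p = ‖x‖ - J x (x - p) := by
    rw [map_sub, hJ.self]
    ring
  have h3 := hJ.lip p x hp
  have h4 : (J x - J p) (x - p) ≤ ‖J p - J x‖ * ‖x - p‖ := by
    have h5 := (J x - J p).le_opNorm (x - p)
    rw [norm_sub_rev] at h5
    exact (le_abs_self _).trans h5
  have h5 : (J x - J p) (x - p) = J x (x - p) - J p (x - p) := rfl
  have h6 := mul_le_mul_of_nonneg_right h3 (norm_nonneg (x - p))
  rw [norm_sub_rev p x] at h6
  have h7 : C * ‖x - p‖ * ‖x - p‖ = C * ‖x - p‖ ^ 2 := by ring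
  rw [h7] at h6
  rw [h5] at h4
  linarith

end P084GII
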