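import Vale.Agent.Lib.P084G.II.SmA

/-! Part II: existence of duality maps. -/

open Filter Topology

namespace P084GII

variable {X : Type*} [NormedAddCommGroup X] [NormedSpace ℝ X]

/-- Norming functionals `φ` of `x` and `ψ` of `y`, `‖x‖ = 1`: for every `h`
`(φ - ψ) h ≤ sd x h + sd x (x - y) + ...`.  Precise form used below: if `‖x‖ = ‖y‖ = 1` then
`(φ - ψ) h = φ (x + h) - 1 + ψ (x - h) - ψ x ≤ ‖x + h‖ + ‖x - h‖ - 2 + (1 - ψ x)` and
`1 - ψ x = ψ (y - x) ≤ ‖y + (y - x)‖ - 1 = ‖y + (y-x)‖ + ‖y - (y - x)‖ - 2 = sd y (y - x)`. -/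
theorem nrm_sub_le {x y h : X} (hx : ‖x‖ = 1) (hy : ‖y‖ = 1) {φ ψ : X →L[ℝ] ℝ}
    (h1 : ∀ v, φ v ≤ ‖v‖) (h2 : φ x = ‖x‖) (h3 : ∀ v, ψ v ≤ ‖v‖) (h4 : ψ y = ‖y‖) :
    (φ - ψ) h ≤ sd x h + sd y (y - x) := by
  unfold sd
  have a1 := h1 (x + h)
  have a2 := h3 (x - h)
  have a3 := h3 (y + (y - x))
  rw [map_add, h2, hx] at a1
  rw [map_sub] at a2
  rw [map_add, map_sub, h4, hy] at a3
  have e1 : y - (y - x) = x := by abel
  rw [e1, hx, hy]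
  have e2 : (φ - ψ) h = φ h - ψ h := rfl
  rw [e2]
  linarith

private theorem SmB_abs {J : X → X →L[ℝ] ℝ} (h : ∀ x v, J x v ≤ ‖v‖) (x v : X) :
    |J x v| ≤ ‖v‖ := by
  rw [abs_le]
  have h1 := h x v
  have h2 := h x (-v)
  rw [map_neg, norm_neg] at h2
  constructor <;> linarith

private theorem SmB_op {f : X →L[ℝ] ℝ} {c : ℝ} (hc : 0 ≤ c) (h : ∀ v, f v ≤ c * ‖v‖) :
    ‖f‖ ≤ c := by
  refine ContinuousLinearMap.opNorm_le_bound _ hc fun v => ?_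
  rw [Real.norm_eq_abs, abs_le]
  have h1 := h v
  have h2 := h (-v)
  rw [map_neg, norm_neg] at h2
  constructor <;> linarith

/-- enough to bound on the vectors of a given norm -/
private theorem SmB_op' {f : X →L[ℝ] ℝ} {c r : ℝ} (hc : 0 ≤ c) (hr : 0 < r)
    (h : ∀ v, ‖v‖ = r → f v ≤ c * r) : ‖f‖ ≤ c := by
  refine SmB_op hc fun v => ?_
  rcases eq_or_ne v 0 with rfl | hv
  · simp
  · have hv' : 0 < ‖v‖ := norm_pos_iff.2 hv
    have h1 := h ((r / ‖v‖) • v) (by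
      rw [norm_smul, Real.norm_of_nonneg (by positivity)]
      field_simp)
    rw [map_smul, smul_eq_mul] at h1
    have h2 : f v = (‖v‖ / r) * (r / ‖v‖ * f v) := by field_simp
    rw [h2]
    calc ‖v‖ / r * (r / ‖v‖ * f v) ≤ ‖v‖ / r * (c * r) :=
          mul_le_mul_of_nonneg_left h1 (by positivity)
      _ = c * ‖v‖ := by field_simp

private theorem SmB_sd (x h : X) : sd x h ≤ 2 * ‖h‖ := by
  unfold sd
  have h1 := norm_add_le x h
  have h2 := norm_sub_le x h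
  linarith

private theorem SmB_unit {x y : X} (hx : ‖x‖ = 1) (hy : y ≠ 0) :
    ‖‖y‖⁻¹ • y‖ = 1 ∧ ‖‖y‖⁻¹ • y - x‖ ≤ 2 * ‖x - y‖ := by
  have hy' : 0 < ‖y‖ := norm_pos_iff.2 hy
  refine ⟨?_, ?_⟩
  · rw [norm_smul, norm_inv, norm_norm]
    field_simp
  · have h1 : ‖y‖⁻¹ • y - x = (‖y‖⁻¹ • y - y) + (y - x) := by abel
    have h2 : ‖‖y‖⁻¹ • y - y‖ = |1 - ‖y‖| := by
      have h3 : ‖y‖⁻¹ • y - y = (‖y‖⁻¹ - 1) • y := by rw [sub_smul, one_smul]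
      rw [h3, norm_smul, Real.norm_eq_abs]
      have h4 : ‖y‖ = |‖y‖| := (abs_of_pos hy').symm
      have h5 : |‖y‖⁻¹ - 1| * |‖y‖| = |1 - ‖y‖| := by
        rw [← abs_mul]
        congr 1
        field_simp
      rw [← h5, ← h4]
    have h6 : |1 - ‖y‖| ≤ ‖x - y‖ := by
      rw [← hx]
      exact abs_norm_sub_norm_le x y
    rw [h1]
    calc ‖(‖y‖⁻¹ • y - y) + (y - x)‖ ≤ ‖‖y‖⁻¹ • y - y‖ + ‖y - x‖ := norm_add_le _ _
      _ ≤ ‖x - y‖ + ‖x - y‖ := by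
          rw [h2, norm_sub_rev y x]
          linarith
      _ = 2 * ‖x - y‖ := by ring

/-- the duality map obtained from Hahn-Banach -/
private theorem SmB_exists : ∃ J : X → X →L[ℝ] ℝ, Dual J ∧
    ∀ x, x ≠ 0 → J x = J (‖x‖⁻¹ • x) := by
  have h : ∀ x : X, ∃ g : X →L[ℝ] ℝ, ‖g‖ ≤ 1 ∧ g x = ‖x‖ := fun x => by
    obtain ⟨g, h1, h2⟩ := exists_dual_vector'' ℝ x
    exact ⟨g, h1, by simpa using h2⟩
  choose N hN hN2 using h
  have hs : ∀ c : ℝ, 0 < c → ∀ x : X, ‖c • x‖⁻¹ • c • x = ‖x‖⁻¹ • x := by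
    intro c hc x
    rw [norm_smul, Real.norm_of_nonneg hc.le, smul_smul, mul_inv]
    congr 1
    field_simp
  refine ⟨fun x => N (‖x‖⁻¹ • x), ⟨?_, ?_, ?_⟩, ?_⟩
  · intro x
    rcases eq_or_ne x 0 with rfl | hx
    · simp
    · have hx' : 0 < ‖x‖ := norm_pos_iff.2 hx
      have h1 := hN2 (‖x‖⁻¹ • x)
      rw [map_smul, smul_eq_mul, norm_smul, norm_inv, norm_norm] at h1
      have h2 : N (‖x‖⁻¹ • x) x = ‖x‖ * (‖x‖⁻¹ * N (‖x‖⁻¹ • x) x) := by field_simp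
      rw [h2, h1]
      field_simp
  · intro x v
    have h1 := (N (‖x‖⁻¹ • x)).le_opNorm v
    rw [Real.norm_eq_abs] at h1
    have h2 : ‖N (‖x‖⁻¹ • x)‖ * ‖v‖ ≤ 1 * ‖v‖ :=
      mul_le_mul_of_nonneg_right (hN _) (norm_nonneg v)
    have h3 := le_abs_self (N (‖x‖⁻¹ • x) v)
    linarith
  · intro c hc x
    change N (‖c • x‖⁻¹ • c • x) = N (‖x‖⁻¹ • x)
    rw [hs c hc x]
  · intro x hx
    have hx' : 0 < ‖x‖ := norm_pos_iff.2 hx
    change N (‖x‖⁻¹ • x) = N (‖‖x‖⁻¹ • x‖⁻¹ • ‖x‖⁻¹ • x)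
    rw [hs _ (inv_pos.2 hx') x]

private theorem SmB_sub_le {J : X → X →L[ℝ] ℝ} (hJ : Dual J) {x y h : X} (hx : ‖x‖ = 1)
    (hy : ‖y‖ = 1) : (J x - J y) h ≤ sd x h + sd y (y - x) :=
  nrm_sub_le hx hy (hJ.le x) (hJ.self x) (hJ.le y) (hJ.self y)

private theorem SmB_key {J : X → X →L[ℝ] ℝ} (hJ : Dual J) (x h : X) (hx : ‖x‖ = 1) :
    sd x h ≤ (‖J x - J (x + h)‖ + ‖J x - J (x - h)‖) * ‖h‖ := by
  unfold sd
  have a1 := hJ.self (x + h)
  have a2 := hJ.self (x - h)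
  have b1 := hJ.le (x + h) x
  have b2 := hJ.le (x - h) x
  rw [map_add] at a1
  rw [map_sub] at a2
  have c1 : |(J x - J (x + h)) h| ≤ ‖J x - J (x + h)‖ * ‖h‖ := (J x - J (x + h)).le_opNorm h
  have c2 : |(J x - J (x - h)) h| ≤ ‖J x - J (x - h)‖ * ‖h‖ := (J x - J (x - h)).le_opNorm h
  have d1 : (J x - J (x + h)) h = J x h - J (x + h) h := rfl
  have d2 : (J x - J (x - h)) h = J x h - J (x - h) h := rfl
  rw [d1] at c1
  rw [d2] at c2
  have e1 := (abs_le.1 c1).1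
  have e2 := (abs_le.1 c2).2
  rw [hx] at b1 b2 ⊢
  rw [← a1, ← a2, add_mul]
  linarith

/-- choose `J x` for unit vectors by Hahn-Banach (`P084G.exists_norming` in `P084G/W.lean` or
`exists_dual_vector''`), `J x := J (x/‖x‖)`, `J 0 := 0`; for `y` not of norm one compare with `y/‖y‖`
(`‖y/‖y‖ - x‖ ≤ 2 ‖x - y‖` for `‖x‖ = 1`), for `‖x - y‖ ≥ 1/2` trivial in `exists_dual2`. -/
theorem exists_dualU (hX : USm X) : ∃ J : X → X →L[ℝ] ℝ, DualU J := by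
  obtain ⟨J, hJ, hJ2⟩ := SmB_exists (X := X)
  refine ⟨J, hJ, fun ε hε => ?_⟩
  obtain ⟨δ, hδ, h⟩ := hX (ε / 2) (by positivity)
  refine ⟨min (1 / 2) (ε * δ / 8), by positivity, fun x y hx hxy => ?_⟩
  have hxy1 : ‖x - y‖ ≤ 1 / 2 := hxy.trans (min_le_left _ _)
  have hxy2 : ‖x - y‖ ≤ ε * δ / 8 := hxy.trans (min_le_right _ _)
  have hy : y ≠ 0 := by
    rintro rfl
    rw [sub_zero, hx] at hxy1
    norm_num at hxy1
  obtain ⟨hu1, hu2⟩ := SmB_unit hx hy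
  rw [hJ2 y hy]
  refine SmB_op' hε.le hδ fun v hv => ?_
  have h1 := SmB_sub_le hJ (x := x) (y := ‖y‖⁻¹ • y) (h := v) hx hu1
  have h2 := h x v hx hv.le
  have h3 := SmB_sd (‖y‖⁻¹ • y) (‖y‖⁻¹ • y - x)
  rw [hv] at h2
  linarith

theorem exists_dual2 {C : ℝ} (hX : US2 X C) : ∃ (J : X → X →L[ℝ] ℝ) (C' : ℝ), Dual2 J C' := by
  obtain ⟨J, hJ, hJ2⟩ := SmB_exists (X := X)
  have hC := le_abs_self C
  have hC0 := abs_nonneg C
  refine ⟨J, 4 * |C| + 2, hJ, by positivity, fun x y hx => ?_⟩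
  rcases eq_or_ne y 0 with rfl | hy
  · rw [sub_zero, hx, mul_one]
    refine SmB_op (by positivity) fun v => ?_
    have h1 := SmB_abs hJ.le x v
    have h2 := SmB_abs hJ.le 0 v
    have h3 : (J x - J 0) v = J x v - J 0 v := rfl
    rw [h3]
    have h4 := (abs_le.1 h1).2
    have h5 := (abs_le.1 h2).1
    have h6 : 0 ≤ 4 * |C| * ‖v‖ := by positivity
    linarith
  · obtain ⟨hu1, hu2⟩ := SmB_unit hx hy
    rw [hJ2 y hy]
    set u := ‖y‖⁻¹ • y with hu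
    rcases eq_or_ne u x with h0 | h0
    · rw [h0, sub_self, norm_zero]
      positivity
    · have hr : 0 < ‖u - x‖ := norm_pos_iff.2 (sub_ne_zero.2 h0)
      have h7 : ‖J x - J u‖ ≤ 2 * |C| * ‖u - x‖ := by
        refine SmB_op' (by positivity) hr fun v hv => ?_
        have h1 := SmB_sub_le hJ (x := x) (y := u) (h := v) hx hu1
        have h2 := hX x v hx
        have h3 := hX u (u - x) hu1
        rw [hv] at h2
        have h4 : C * ‖u - x‖ ^ 2 ≤ |C| * ‖u - x‖ ^ 2 :=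
          mul_le_mul_of_nonneg_right hC (sq_nonneg _)
        calc (J x - J u) v ≤ |C| * ‖u - x‖ ^ 2 + |C| * ‖u - x‖ ^ 2 := by linarith
          _ = 2 * |C| * ‖u - x‖ * ‖u - x‖ := by ring
      have h8 : 2 * |C| * ‖u - x‖ ≤ 2 * |C| * (2 * ‖x - y‖) :=
        mul_le_mul_of_nonneg_left hu2 (by positivity)
      have h9 := norm_nonneg (x - y)
      calc ‖J x - J u‖ ≤ 2 * |C| * (2 * ‖x - y‖) := h7.trans h8
        _ ≤ (4 * |C| + 2) * ‖x - y‖ := by nlinarith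

theorem DualU.usm {J : X → X →L[ℝ] ℝ} (hJ : DualU J) : USm X := by
  intro ε hε
  obtain ⟨δ, hδ, h⟩ := hJ.unif (ε / 2) (by positivity)
  refine ⟨δ, hδ, fun x v hx hv => ?_⟩
  have h1 := SmB_key hJ.toDual x v hx
  have h2 := h x (x + v) hx (by
    have : x - (x + v) = -v := by abel
    rw [this, norm_neg]
    exact hv)
  have h3 := h x (x - v) hx (by
    have : x - (x - v) = v := by abel
    rw [this]
    exact hv)
  refine h1.trans (mul_le_mul_of_nonneg_right (by linarith) (norm_nonneg v))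

theorem Dual2.us2 {J : X → X →L[ℝ] ℝ} {C : ℝ} (hJ : Dual2 J C) : US2 X (2 * C) := by
  intro x v hx
  have h1 := SmB_key hJ.toDual x v hx
  have h2 := hJ.lip x (x + v) hx
  have h3 := hJ.lip x (x - v) hx
  have e1 : x - (x + v) = -v := by abel
  have e2 : x - (x - v) = v := by abel
  rw [e1, norm_neg] at h2
  rw [e2] at h3
  refine h1.trans ?_
  calc (‖J x - J (x + v)‖ + ‖J x - J (x - v)‖) * ‖v‖ ≤ (C * ‖v‖ + C * ‖v‖) * ‖v‖ :=
        mul_le_mul_of_nonneg_right (by linarith) (norm_nonneg v)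
    _ = 2 * C * ‖v‖ ^ 2 := by ring

end P084GII
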