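import Vale.Agent.Lib.P084G.Ultra

/-! Part II, case C: limits of equi-Lipschitz functions on the ultrapower. -/

open Filter Topology

namespace P084GII

open P084G

variable {X Y Z : Type*} [NormedAddCommGroup X] [NormedSpace ℝ X] [NormedAddCommGroup Y]
  [NormedSpace ℝ Y] [NormedAddCommGroup Z] [NormedSpace ℝ Z]

/-- a bounded real sequence converges along the ultrafilter -/
theorem UFun_lim {a : ℕ → ℝ} {C : ℝ} (ha : ∀ n, |a n| ≤ C) :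
    ∃ L, Tendsto a (UU : Filter ℕ) (𝓝 L) := by
  obtain ⟨L, hL⟩ := exists_lim (a := fun n => a n + C) (C := 2 * C) (fun n => by
    have h := abs_le.1 (ha n)
    exact ⟨by linarith [h.1], by linarith [h.2]⟩)
  refine ⟨L - C, (hL.sub_const C).congr fun n => ?_⟩
  simp

/-- representatives -/
theorem UFun_rep (X : Type*) [NormedAddCommGroup X] [NormedSpace ℝ X] :
    ∃ r : XU X → ℕ → X, ∀ ξ, Bd (r ξ) ∧ uq (r ξ) = ξ :=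
  ⟨fun ξ => (exists_rep ξ).choose, fun ξ => (exists_rep ξ).choose_spec⟩

/-- the basic estimate -/
theorem UFun_diff (F : ℕ → X → Z → Y)
    (hl : ∀ R : ℝ, ∃ L : ℝ, ∀ᶠ n in atTop, ∀ (x x' : X) (z z' : Z), ‖x‖ ≤ R → ‖x'‖ ≤ R →
      ‖z‖ ≤ R → ‖z'‖ ≤ R → ‖F n x z - F n x' z'‖ ≤ L * (‖x - x'‖ + ‖z - z'‖))
    {x x' : ℕ → X} {z z' : ℕ → Z} (hx : Bd x) (hx' : Bd x') (hz : Bd z) (hz' : Bd z')
    (e1 : uq x = uq x') (e2 : uq z = uq z') :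
    Tendsto (fun n => ‖F n (x n) (z n) - F n (x' n) (z' n)‖) (UU : Filter ℕ) (𝓝 0) := by
  have t1 := (uq_eq_iff hx hx').1 e1
  have t2 := (uq_eq_iff hz hz').1 e2
  obtain ⟨C1, h1⟩ := hx
  obtain ⟨C2, h2⟩ := hx'
  obtain ⟨C3, h3⟩ := hz
  obtain ⟨C4, h4⟩ := hz'
  obtain ⟨L, hL⟩ := hl (max (max C1 C2) (max C3 C4))
  have hL' := UU_le_atTop hL
  have t3 : Tendsto (fun n => L * (‖x n - x' n‖ + ‖z n - z' n‖)) (UU : Filter ℕ) (𝓝 0) := by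
    have := (t1.add t2).const_mul L
    simpa using this
  refine squeeze_zero' (Eventually.of_forall fun n => norm_nonneg _) ?_ t3
  filter_upwards [hL'] with n hn
  refine hn _ _ _ _ ((h1 n).trans ?_) ((h2 n).trans ?_) ((h3 n).trans ?_) ((h4 n).trans ?_)
  · exact (le_max_left _ _).trans (le_max_left _ _)
  · exact (le_max_right _ _).trans (le_max_left _ _)
  · exact (le_max_left _ _).trans (le_max_right _ _)
  · exact (le_max_right _ _).trans (le_max_right _ _)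

theorem UFun_bd (F : ℕ → X → Z → Y)
    (hb : ∀ R : ℝ, ∃ C : ℝ, ∀ n x z, ‖x‖ ≤ R → ‖z‖ ≤ R → ‖F n x z‖ ≤ C)
    {x : ℕ → X} {z : ℕ → Z} (hx : Bd x) (hz : Bd z) :
    ∃ C : ℝ, ∀ n, ‖F n (x n) (z n)‖ ≤ C := by
  obtain ⟨C1, h1⟩ := hx
  obtain ⟨C2, h2⟩ := hz
  obtain ⟨C, hC⟩ := hb (max C1 C2)
  exact ⟨C, fun n => hC n _ _ ((h1 n).trans (le_max_left _ _)) ((h2 n).trans (le_max_right _ _))⟩

theorem ufun_real2 (F : ℕ → X → Z → ℝ)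
    (hb : ∀ R : ℝ, ∃ C : ℝ, ∀ n x z, ‖x‖ ≤ R → ‖z‖ ≤ R → |F n x z| ≤ C)
    (hl : ∀ R : ℝ, ∃ L : ℝ, ∀ᶠ n in atTop, ∀ (x x' : X) (z z' : Z), ‖x‖ ≤ R → ‖x'‖ ≤ R →
      ‖z‖ ≤ R → ‖z'‖ ≤ R → |F n x z - F n x' z'| ≤ L * (‖x - x'‖ + ‖z - z'‖)) :
    ∃ Φ : XU X → XU Z → ℝ, ∀ (x : ℕ → X) (z : ℕ → Z), Bd x → Bd z →
      Tendsto (fun n => F n (x n) (z n)) (UU : Filter ℕ) (𝓝 (Φ (uq x) (uq z))) := by
  obtain ⟨r, hr⟩ := UFun_rep X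
  obtain ⟨s, hs⟩ := UFun_rep Z
  have hlim : ∀ (ξ : XU X) (ζ : XU Z), ∃ L : ℝ,
      Tendsto (fun n => F n (r ξ n) (s ζ n)) (UU : Filter ℕ) (𝓝 L) := by
    intro ξ ζ
    obtain ⟨C, hC⟩ := UFun_bd F hb (hr ξ).1 (hs ζ).1
    exact UFun_lim hC
  choose Φ hΦ using hlim
  refine ⟨Φ, fun x z hx hz => ?_⟩
  have h1 := UFun_diff F hl hx (hr (uq x)).1 hz (hs (uq z)).1 (hr (uq x)).2.symm
    (hs (uq z)).2.symm
  have h2 := (tendsto_zero_iff_norm_tendsto_zero.2 h1).add (hΦ (uq x) (uq z))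
  rw [zero_add] at h2
  refine h2.congr fun n => ?_
  ring

theorem ufun_real (F : ℕ → X → ℝ)
    (hb : ∀ R : ℝ, ∃ C : ℝ, ∀ n x, ‖x‖ ≤ R → |F n x| ≤ C)
    (hl : ∀ R : ℝ, ∃ L : ℝ, ∀ᶠ n in atTop, ∀ x x' : X, ‖x‖ ≤ R → ‖x'‖ ≤ R →
      |F n x - F n x'| ≤ L * ‖x - x'‖) :
    ∃ Φ : XU X → ℝ, ∀ x : ℕ → X, Bd x →
      Tendsto (fun n => F n (x n)) (UU : Filter ℕ) (𝓝 (Φ (uq x))) := by
  obtain ⟨Φ, hΦ⟩ := ufun_real2 (Z := ℝ) (fun n x _ => F n x)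
    (fun R => by
      obtain ⟨C, hC⟩ := hb R
      exact ⟨C, fun n x _ hx _ => hC n x hx⟩)
    (fun R => by
      obtain ⟨L, hL⟩ := hl R
      refine ⟨|L|, ?_⟩
      filter_upwards [hL] with n hn x x' z z' hx hx' _ _
      refine (hn x x' hx hx').trans ?_
      have h1 : L * ‖x - x'‖ ≤ |L| * ‖x - x'‖ :=
        mul_le_mul_of_nonneg_right (le_abs_self L) (norm_nonneg _)
      have h2 : |L| * ‖x - x'‖ ≤ |L| * (‖x - x'‖ + ‖z - z'‖) :=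
        mul_le_mul_of_nonneg_left (by linarith [norm_nonneg (z - z')]) (abs_nonneg L)
      exact h1.trans h2)
  exact ⟨fun ξ => Φ ξ (uq fun _ => (0 : ℝ)), fun x hx => hΦ x _ hx (Bd.const 0)⟩

theorem ufun_vec2 (F : ℕ → X → Z → Y)
    (hb : ∀ R : ℝ, ∃ C : ℝ, ∀ n x z, ‖x‖ ≤ R → ‖z‖ ≤ R → ‖F n x z‖ ≤ C)
    (hl : ∀ R : ℝ, ∃ L : ℝ, ∀ᶠ n in atTop, ∀ (x x' : X) (z z' : Z), ‖x‖ ≤ R → ‖x'‖ ≤ R →
      ‖z‖ ≤ R → ‖z'‖ ≤ R → ‖F n x z - F n x' z'‖ ≤ L * (‖x - x'‖ + ‖z - z'‖)) :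
    ∃ Φ : XU X → XU Z → XU Y, ∀ (x : ℕ → X) (z : ℕ → Z), Bd x → Bd z →
      Bd (fun n => F n (x n) (z n)) ∧ Φ (uq x) (uq z) = uq (fun n => F n (x n) (z n)) := by
  obtain ⟨r, hr⟩ := UFun_rep X
  obtain ⟨s, hs⟩ := UFun_rep Z
  refine ⟨fun ξ ζ => uq (fun n => F n (r ξ n) (s ζ n)), fun x z hx hz => ?_⟩
  have hbd : Bd (fun n => F n (x n) (z n)) := UFun_bd F hb hx hz
  refine ⟨hbd, ?_⟩
  rw [uq_eq_iff (UFun_bd F hb (hr (uq x)).1 (hs (uq z)).1) hbd]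
  exact UFun_diff F hl (hr (uq x)).1 hx (hs (uq z)).1 hz (hr (uq x)).2 (hs (uq z)).2

theorem ufun_vec (F : ℕ → X → Y)
    (hb : ∀ R : ℝ, ∃ C : ℝ, ∀ n x, ‖x‖ ≤ R → ‖F n x‖ ≤ C)
    (hl : ∀ R : ℝ, ∃ L : ℝ, ∀ᶠ n in atTop, ∀ x x' : X, ‖x‖ ≤ R → ‖x'‖ ≤ R →
      ‖F n x - F n x'‖ ≤ L * ‖x - x'‖) :
    ∃ Φ : XU X → XU Y, ∀ x : ℕ → X, Bd x →
      Bd (fun n => F n (x n)) ∧ Φ (uq x) = uq (fun n => F n (x n)) := by
  obtain ⟨Φ, hΦ⟩ := ufun_vec2 (Z := ℝ) (fun n x _ => F n x)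
    (fun R => by
      obtain ⟨C, hC⟩ := hb R
      exact ⟨C, fun n x _ hx _ => hC n x hx⟩)
    (fun R => by
      obtain ⟨L, hL⟩ := hl R
      refine ⟨|L|, ?_⟩
      filter_upwards [hL] with n hn x x' z z' hx hx' _ _
      refine (hn x x' hx hx').trans ?_
      have h1 : L * ‖x - x'‖ ≤ |L| * ‖x - x'‖ :=
        mul_le_mul_of_nonneg_right (le_abs_self L) (norm_nonneg _)
      have h2 : |L| * ‖x - x'‖ ≤ |L| * (‖x - x'‖ + ‖z - z'‖) :=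
        mul_le_mul_of_nonneg_left (by linarith [norm_nonneg (z - z')]) (abs_nonneg L)
      exact h1.trans h2)
  exact ⟨fun ξ => Φ ξ (uq fun _ => (0 : ℝ)), fun x hx => hΦ x _ hx (Bd.const 0)⟩

/-- a bounded sequence of functionals -/
theorem uclm_real (φ : ℕ → X →L[ℝ] ℝ) {C : ℝ} (hφ : ∀ n, ‖φ n‖ ≤ C) :
    ∃ Φ : XU X →L[ℝ] ℝ, ‖Φ‖ ≤ C ∧ ∀ x : ℕ → X, Bd x →
      Tendsto (fun n => φ n (x n)) (UU : Filter ℕ) (𝓝 (Φ (uq x))) := by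
  have hC : 0 ≤ C := (norm_nonneg _).trans (hφ 0)
  have hle : ∀ n x, |φ n x| ≤ C * ‖x‖ := fun n x => by
    rw [← Real.norm_eq_abs]
    exact (φ n).le_of_opNorm_le (hφ n) x
  obtain ⟨Φ, hΦ⟩ := ufun_real (fun n x => φ n x)
    (fun R => ⟨C * R, fun n x hx => (hle n x).trans (mul_le_mul_of_nonneg_left hx hC)⟩)
    (fun R => ⟨C, Eventually.of_forall fun n x x' _ _ => by
      rw [← map_sub]
      exact hle n _⟩)
  have hadd : ∀ ξ η, Φ (ξ + η) = Φ ξ + Φ η := by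
    intro ξ η
    obtain ⟨x, hx, rfl⟩ := exists_rep ξ
    obtain ⟨y, hy, rfl⟩ := exists_rep η
    rw [← uq_add hx hy]
    refine tendsto_nhds_unique (hΦ _ (hx.add hy)) (((hΦ x hx).add (hΦ y hy)).congr fun n => ?_)
    rw [map_add]
  have hsmul : ∀ (c : ℝ) ξ, Φ (c • ξ) = c • Φ ξ := by
    intro c ξ
    obtain ⟨x, hx, rfl⟩ := exists_rep ξ
    rw [← uq_smul c hx]
    refine tendsto_nhds_unique (hΦ _ (hx.smul c)) (((hΦ x hx).const_smul c).congr fun n => ?_)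
    rw [map_smul]
  have hbound : ∀ ξ, ‖Φ ξ‖ ≤ C * ‖ξ‖ := by
    intro ξ
    obtain ⟨x, hx, rfl⟩ := exists_rep ξ
    exact le_of_tendsto_of_tendsto' (hΦ x hx).norm ((norm_uq hx).const_mul C)
      fun n => hle n (x n)
  let Φl : XU X →ₗ[ℝ] ℝ :=
    { toFun := Φ
      map_add' := hadd
      map_smul' := hsmul }
  exact ⟨Φl.mkContinuous C hbound, Φl.mkContinuous_norm_le hC hbound, fun x hx => hΦ x hx⟩

/-- a bounded sequence of operators -/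
theorem uclm_vec (A : ℕ → X →L[ℝ] Y) {C : ℝ} (hA : ∀ n, ‖A n‖ ≤ C) :
    ∃ Φ : XU X →L[ℝ] XU Y, ‖Φ‖ ≤ C ∧ ∀ x : ℕ → X, Bd x → Φ (uq x) = uq (fun n => A n (x n)) := by
  have hC : 0 ≤ C := (norm_nonneg _).trans (hA 0)
  have hle : ∀ n x, ‖A n x‖ ≤ C * ‖x‖ := fun n x => (A n).le_of_opNorm_le (hA n) x
  obtain ⟨Φ, hΦ⟩ := ufun_vec (fun n x => A n x)
    (fun R => ⟨C * R, fun n x hx => (hle n x).trans (mul_le_mul_of_nonneg_left hx hC)⟩)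
    (fun R => ⟨C, Eventually.of_forall fun n x x' _ _ => by
      rw [← map_sub]
      exact hle n _⟩)
  have hadd : ∀ ξ η, Φ (ξ + η) = Φ ξ + Φ η := by
    intro ξ η
    obtain ⟨x, hx, rfl⟩ := exists_rep ξ
    obtain ⟨y, hy, rfl⟩ := exists_rep η
    rw [← uq_add hx hy, (hΦ _ (hx.add hy)).2, (hΦ x hx).2, (hΦ y hy).2,
      ← uq_add (hΦ x hx).1 (hΦ y hy).1]
    congr 1
    funext n
    rw [map_add]
  have hsmul : ∀ (c : ℝ) ξ, Φ (c • ξ) = c • Φ ξ := by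
    intro c ξ
    obtain ⟨x, hx, rfl⟩ := exists_rep ξ
    rw [← uq_smul c hx, (hΦ _ (hx.smul c)).2, (hΦ x hx).2, ← uq_smul c (hΦ x hx).1]
    congr 1
    funext n
    rw [map_smul]
  have hbound : ∀ ξ, ‖Φ ξ‖ ≤ C * ‖ξ‖ := by
    intro ξ
    obtain ⟨x, hx, rfl⟩ := exists_rep ξ
    rw [(hΦ x hx).2]
    exact le_of_tendsto_of_tendsto' (norm_uq (hΦ x hx).1) ((norm_uq hx).const_mul C)
      fun n => hle n (x n)
  let Φl : XU X →ₗ[ℝ] XU Y :=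
    { toFun := Φ
      map_add' := hadd
      map_smul' := hsmul }
  exact ⟨Φl.mkContinuous C hbound, Φl.mkContinuous_norm_le hC hbound, fun x hx => (hΦ x hx).2⟩

end P084GII
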